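import Vale.Agent.P237.Petty.Cor.Grid.N8.LowCert

/-!
# P237: a cell in dimension 8, subdivisions
-/

namespace Vale.Agent.P237.Petty.Cor.Grid.N8.Low

def covers0 : cell.Covers table row0.1 :=
  ⟨(.cut .d 0 (.cut .v 16777216 (.cut .v 8388608 (.cut .v 4194304 (.void 4 ⟨0, 0, 100000, 0, 0, 0, 0, 0, 0, ⟨0, 0⟩, 0⟩ 0 0) (.pos 5 .mm ⟨0, 0, 0, 0, 0, 173608, 0, 0, 0, ⟨0, 0⟩, 0⟩ 0 0)) (.cut .d (-8388608) (.cut .v 12582912 (.pos 6 .mm ⟨0, 0, 0, 0, 0, 0, 0, 0, 0, ⟨0, 0⟩, 0⟩ 0 0) (.pos 7 .mm ⟨0, 0, 0, 0, 0, 0, 0, 0, 0, ⟨0, 0⟩, 0⟩ 0 0)) (.cut .v 12582912 (.cut .d (-4194304) (.pos 6 .mm ⟨0, 0, 0, 0, 0, 0, 0, 0, 0, ⟨0, 0⟩, 0⟩ 0 0) (.pos 6 .mm ⟨0, 0, 0, 0, 561862, 0, 0, 0, 0, ⟨0,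 0⟩, 0⟩ 0 0)) (.cut .d (-4194304) (.pos 7 .mm ⟨0, 0, 0, 0, 0, 0, 0, 0, 0, ⟨0, 0⟩, 0⟩ 0 0) (.cut .d (-2097152) (.cut .v 14680064 (.pos 10 .mm ⟨0, 0, 0, 0, 0, 0, 0, 0, 0, ⟨0, 0⟩, 0⟩ 0 0) (.pos 11 .mm ⟨0, 0, 0, 0, 0, 0, 0, 0, 0, ⟨0, 0⟩, 0⟩ 0 0)) (.cut .v 14680064 (.pos 10 .mm ⟨0, 0, 0, 0, 543974, 0, 0, 0, 0, ⟨0, 0⟩, 0⟩ 0 0) (.cut .d (-1048576) (.cut .v 15728640 (.pos 12 .mm ⟨0, 0, 0, 0, 0, 0, 0, 0, 0, ⟨0, 0⟩, 0⟩ 0 0) (.pos 13 .mm ⟨0, 0, 0, 0, 0, 0, 0, 0, 0, ⟨0, 0⟩, 0⟩ 0 0)) (.cut .v 15728640 (.pos 12 .mm ⟨0, 0, 0, 0, 676077, 0, 0, 0, 0, ⟨0, 0⟩, 0⟩ 0 0) (.cut .d (-524288) (.pos 13 .mm ⟨0, 0, 0, 0, 0, 0, 0, 0, 0, ⟨0, 0⟩, 0⟩ 0 0) (.pos 13 .mm ⟨0, 0, 0, 0, 0, 0, 0, 0,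 0, ⟨0, 0⟩, 0⟩ 0 0)))))))))) (.cut .v 25165824 (.cut .v 20971520 (.cut .v 18874368 (.pos 21 .mp ⟨0, 0, 0, 0, 0, 0, 153273, 0, 0, ⟨0, 0⟩, 0⟩ 0 0) (.pos 22 .mp ⟨1000313, 0, 0, 0, 0, 0, 0, 0, 0, ⟨0, 0⟩, 0⟩ 0 0)) (.void 20 ⟨100000, 0, 0, 0, 0, 0, 0, 0, 0, ⟨0, 0⟩, 0⟩ 0 0)) (.void 18 ⟨0, 0, 0, 0, 0, 0, 100000, 0, 0, ⟨0, 0⟩, 0⟩ 0 0))) (.cut .v 16777216 (.cut .v 8388608 (.cut .v 4194304 (.void 4 ⟨0, 0, 100000, 0, 0, 0, 0, 0, 0, ⟨0, 0⟩, 0⟩ 0 0) (.pos 5 .pm ⟨0, 0, 0, 0, 1157808, 0, 0, 0, 0, ⟨0, 0⟩, 0⟩ 0 0)) (.pos 3 .pm ⟨0, 0, 0, 0, 744930, 0, 0, 0, 0, ⟨0, 0⟩, 0⟩ 0 0)) (.cut .v 25165824 (.cut .v 20971520 (.cut .v 18874368 (.cut .d 1650110 (.cut .v 17825792 (.cut .d 825055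 (.cut .d 412527 (.cut .d 206263 (.pos 23 .pp ⟨0, 0, 0, 0, 0, 0, 0, 0, 0, ⟨0, 0⟩, 0⟩ 0 0) (.pos 23 .pp ⟨0, 0, 0, 0, 0, 0, 0, 0, 0, ⟨0, 0⟩, 0⟩ 0 0)) (.pos 23 .pp ⟨4754, 0, 0, 0, 0, 0, 0, 311533, 0, ⟨(-1), 16544996⟩, 0⟩ 0 28)) (.pos 23 .pp ⟨364467, 0, 0, 0, 0, 0, 181260, 270595, 609648, ⟨(-1), 16528286⟩, 17033431⟩ 0 29)) (.cut .d 825055 (.pos 24 .pp ⟨929437, 0, 0, 0, 0, 0, 0, 0, 0, ⟨0, 0⟩, 0⟩ 0 0) (.pos 24 .pp ⟨871419, 0, 0, 0, 0, 0, 0, 490933, 0, ⟨(-1), 16528286⟩, 0⟩ 0 29))) (.pos 21 .pp ⟨914286, 0, 0, 0, 0, 0, 0, 0, 428122, ⟨0, 0⟩, 17278579⟩ 0 0)) (.cut .d 1650110 (.pos 22 .pp ⟨1000313, 0, 0, 0, 0, 0, 0, 0, 0, ⟨0, 0⟩, 0⟩ 0 0) (.pos 22 .pp ⟨480511, 0, 0, 0, 0, 0,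 337136, 306822, 0, ⟨(-1), 16474800⟩, 0⟩ 0 32))) (.void 20 ⟨100000, 0, 0, 0, 0, 0, 0, 0, 0, ⟨0, 0⟩, 0⟩ 0 0)) (.void 18 ⟨0, 0, 0, 0, 0, 0, 100000, 0, 0, ⟨0, 0⟩, 0⟩ 0 0)))),
    by decide +kernel⟩

def covers1 : cell.Covers table row1.1 :=
  ⟨(.cut .d 0 (.cut .v 16777216 (.cut .v 8388608 (.cut .v 4194304 (.void 4 ⟨0, 0, 100000, 0, 0, 0, 0, 0, 0, ⟨0, 0⟩, 0⟩ 0 0) (.pos 5 .mm ⟨0, 0, 0, 0, 0, 587911, 0, 0, 0, ⟨0, 0⟩, 0⟩ 0 0)) (.cut .d (-8388608) (.cut .v 12582912 (.pos 6 .mm ⟨0, 0, 0, 0, 0, 505954, 0, 0, 0, ⟨0, 0⟩, 0⟩ 0 0) (.pos 7 .mm ⟨0, 0, 0, 0, 0, 569198, 0, 0, 0, ⟨0, 0⟩, 0⟩ 0 0)) (.cut .v 12582912 (.cut .d (-4194304) (.pos 6 .mm ⟨0, 0, 0, 0, 0, 569198, 0, 0, 0, ⟨0,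 0⟩, 0⟩ 0 0) (.pos 6 .mm ⟨0, 0, 0, 0, 1677474, 642103, 0, 0, 0, ⟨0, 0⟩, 0⟩ 0 0)) (.cut .d (-4194304) (.pos 7 .mm ⟨0, 0, 0, 0, 0, 632443, 0, 0, 0, ⟨0, 0⟩, 0⟩ 0 0) (.cut .d (-2097152) (.cut .v 14680064 (.pos 10 .mm ⟨0, 0, 0, 0, 0, 664065, 0, 0, 0, ⟨0, 0⟩, 0⟩ 0 0) (.pos 11 .mm ⟨0, 0, 0, 0, 0, 695687, 0, 0, 0, ⟨0, 0⟩, 0⟩ 0 0)) (.cut .v 14680064 (.pos 10 .mm ⟨0, 0, 0, 0, 0, 709743, 0, 0, 0, ⟨0, 0⟩, 0⟩ 0 0) (.cut .d (-1048576) (.cut .v 15728640 (.pos 12 .mm ⟨0, 0, 0, 0, 0, 272106, 0, 0, 0, ⟨0, 0⟩, 0⟩ 0 0) (.pos 13 .mm ⟨0, 0, 0, 0, 0, 0, 0, 0, 0, ⟨0, 0⟩, 0⟩ 0 0)) (.cut .v 15728640 (.pos 12 .mm ⟨0, 0, 0, 0, 0, 0, 0, 0, 0, ⟨0, 0⟩, 0⟩ 0 0) (.cut .d (-524288) (.pos 13 .mm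 ⟨0, 0, 0, 0, 0, 0, 0, 0, 0, ⟨0, 0⟩, 0⟩ 0 0) (.pos 13 .mm ⟨0, 0, 0, 0, 0, 0, 0, 0, 0, ⟨0, 0⟩, 0⟩ 0 0)))))))))) (.cut .v 25165824 (.cut .v 20971520 (.cut .v 18874368 (.pos 21 .mp ⟨42855, 0, 0, 0, 0, 0, 0, 0, 0, ⟨0, 0⟩, 0⟩ 0 0) (.pos 22 .mp ⟨1141803, 0, 0, 0, 0, 0, 0, 0, 0, ⟨0, 0⟩, 0⟩ 0 0)) (.void 20 ⟨100000, 0, 0, 0, 0, 0, 0, 0, 0, ⟨0, 0⟩, 0⟩ 0 0)) (.void 18 ⟨100000, 0, 0, 0, 0, 0, 0, 0, 0, ⟨0, 0⟩, 0⟩ 0 0))) (.cut .v 16777216 (.cut .v 8388608 (.void 2 ⟨0, 0, 0, 0, 100000, 0, 0, 0, 0, ⟨0, 0⟩, 0⟩ 0 0) (.cut .v 12582912 (.void 6 ⟨0, 0, 0, 0, 100000, 0, 0, 0, 0, ⟨0, 0⟩, 0⟩ 0 0) (.cut .v 14680064 (.void 10 ⟨0, 0, 0, 0, 100000, 0, 0, 0, 0, ⟨0, 0⟩, 0⟩ 0 0) (.cut .v 15728640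 (.pos 12 .pm ⟨0, 0, 0, 0, 0, 0, 0, 0, 0, ⟨0, 0⟩, 0⟩ 0 0) (.cut .s 2359296 (.pos 13 .pm ⟨0, 0, 0, 0, 0, 0, 0, 0, 444226, ⟨0, 0⟩, 16508694⟩ 0 0) (.cut .d 2021769 (.cut .d 1010884 (.cut .d 505442 (.pos 13 .pm ⟨0, 0, 0, 0, 0, 0, 0, 0, 0, ⟨0, 0⟩, 0⟩ 0 0) (.pos 13 .pm ⟨0, 0, 0, 0, 0, 0, 0, 0, 0, ⟨0, 0⟩, 0⟩ 0 0)) (.pos 13 .pm ⟨0, 0, 0, 0, 0, 0, 0, 0, 1432023, ⟨0, 0⟩, 16508694⟩ 0 0)) (.void 13 ⟨0, 0, 0, 0, 100000, 0, 0, 0, 0, ⟨0, 0⟩, 0⟩ 0 0))))))) (.cut .v 25165824 (.cut .v 20971520 (.cut .d 2021769 (.cut .v 18874368 (.cut .d 1010884 (.cut .v 17825792 (.cut .d 505442 (.pos 23 .pp ⟨0, 0, 0, 0, 0, 0, 0, 0, 0, ⟨0, 0⟩, 0⟩ 0 0) (.pos 23 .pp ⟨0, 0, 0, 0, 0, 0, 0, 379832, 0,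 ⟨107601, 15517250⟩, 0⟩ 26 49)) (.pos 24 .pp ⟨1041111, 0, 0, 0, 0, 0, 0, 0, 0, ⟨0, 0⟩, 0⟩ 0 0)) (.cut .v 17825792 (.pos 23 .pp ⟨0, 0, 0, 0, 0, 0, 0, 855065, 599458, ⟨124393, 15381698⟩, 17033431⟩ 27 52) (.pos 24 .pp ⟨615484, 0, 0, 0, 0, 0, 0, 654797, 0, ⟨124393, 15381698⟩, 0⟩ 27 52))) (.pos 22 .pp ⟨1117960, 0, 0, 0, 0, 0, 0, 0, 0, ⟨0, 0⟩, 0⟩ 0 0)) (.cut .v 18874368 (.pos 21 .pp ⟨0, 0, 0, 0, 0, 0, 0, 1681064, 43469, ⟨162661, 15092374⟩, 17278579⟩ 29 58) (.cut .d 3032654 (.pos 22 .pp ⟨743598, 0, 0, 0, 0, 0, 0, 1057031, 0, ⟨149510, 15208457⟩, 0⟩ 29 55) (.pos 22 .pp ⟨732514, 0, 0, 0, 0, 0, 0, 3121048, 0, ⟨170087, 15059593⟩, 0⟩ 30 58)))) (.void 20 ⟨69212, 0, 0, 0, 0, 0,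 0, 30788, 0, ⟨141077, 15187640⟩, 0⟩ 26 58)) (.void 18 ⟨0, 0, 0, 0, 0, 0, 100000, 0, 0, ⟨0, 0⟩, 0⟩ 0 0)))),
    by decide +kernel⟩

def covers2 : cell.Covers table row2.1 :=
  ⟨(.cut .d 0 (.cut .v 16777216 (.cut .v 8388608 (.void 2 ⟨0, 0, 0, 0, 50000, 50000, 0, 0, 0, ⟨0, 0⟩, 0⟩ 0 0) (.cut .d (-8388608) (.void 3 ⟨0, 0, 0, 0, 0, 100000, 0, 0, 0, ⟨0, 0⟩, 0⟩ 0 0) (.cut .v 12582912 (.cut .d (-4194304) (.pos 6 .mm ⟨0, 0, 0, 0, 0, 1010654, 0, 0, 0, ⟨0, 0⟩, 0⟩ 0 0) (.pos 6 .mm ⟨0, 0, 0, 0, 1533413, 529478, 0, 0, 0, ⟨0, 0⟩, 0⟩ 0 0)) (.cut .d (-4194304) (.pos 7 .mm ⟨0, 0, 0, 0, 0, 714686, 0, 0, 0, ⟨0, 0⟩, 0⟩ 0 0) (.cut .d (-2097152) (.cut .v 14680064 (.pos 10 .mm ⟨0, 0, 0,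 0, 0, 617725, 0, 0, 0, ⟨0, 0⟩, 0⟩ 0 0) (.pos 11 .mm ⟨0, 0, 0, 0, 0, 732120, 0, 0, 0, ⟨0, 0⟩, 0⟩ 0 0)) (.cut .v 14680064 (.pos 10 .mm ⟨0, 0, 0, 0, 0, 617725, 0, 0, 0, ⟨0, 0⟩, 0⟩ 0 0) (.cut .d (-1048576) (.pos 11 .mm ⟨0, 0, 0, 0, 0, 647140, 0, 0, 0, ⟨0, 0⟩, 0⟩ 0 0) (.cut .v 15728640 (.pos 12 .mm ⟨0, 0, 0, 0, 0, 0, 0, 0, 0, ⟨0, 0⟩, 0⟩ 0 0) (.cut .d (-524288) (.pos 13 .mm ⟨0, 0, 0, 0, 0, 0, 0, 0, 0, ⟨0, 0⟩, 0⟩ 0 0) (.pos 13 .mm ⟨0, 0, 0, 0, 0, 0, 0, 0, 0, ⟨0, 0⟩, 0⟩ 0 0)))))))))) (.cut .v 25165824 (.cut .v 20971520 (.pos 19 .mp ⟨39396, 0, 0, 0, 0, 0, 0, 0, 0, ⟨0, 0⟩, 0⟩ 0 0) (.void 20 ⟨100000, 0, 0, 0, 0, 0, 0, 0, 0, ⟨0, 0⟩, 0⟩ 0 0)) (.void 18 ⟨100000, 0, 0, 0, 0,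 0, 0, 0, 0, ⟨0, 0⟩, 0⟩ 0 0))) (.cut .v 16777216 (.cut .v 8388608 (.void 2 ⟨0, 0, 0, 0, 100000, 0, 0, 0, 0, ⟨0, 0⟩, 0⟩ 0 0) (.cut .v 12582912 (.void 6 ⟨0, 0, 0, 0, 100000, 0, 0, 0, 0, ⟨0, 0⟩, 0⟩ 0 0) (.cut .v 14680064 (.void 10 ⟨0, 0, 0, 0, 100000, 0, 0, 0, 0, ⟨0, 0⟩, 0⟩ 0 0) (.cut .v 15728640 (.pos 12 .pm ⟨0, 0, 0, 0, 0, 0, 0, 0, 0, ⟨0, 0⟩, 0⟩ 0 0) (.cut .d 2393539 (.cut .d 1196769 (.cut .d 598384 (.pos 13 .pm ⟨0, 0, 0, 0, 0, 0, 0, 0, 0, ⟨0, 0⟩, 0⟩ 0 0) (.pos 13 .pm ⟨0, 0, 0, 0, 0, 0, 0, 859031, 0, ⟨353818, 14206608⟩, 0⟩ 47 63)) (.pos 13 .pm ⟨0, 0, 0, 0, 0, 0, 0, 0, 835145, ⟨0, 0⟩, 16508694⟩ 0 0)) (.void 13 ⟨0, 0, 0, 0, 0, 0, 0, 0, 100000, ⟨0, 0⟩, 16508694⟩ 0 0))))))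 (.cut .v 25165824 (.cut .v 20971520 (.cut .d 2393539 (.cut .v 18874368 (.cut .d 1196769 (.cut .v 17825792 (.cut .d 598384 (.pos 23 .pp ⟨0, 0, 0, 0, 0, 0, 0, 283769, 0, ⟨327451, 14337877⟩, 0⟩ 46 61) (.pos 23 .pp ⟨0, 0, 0, 0, 0, 0, 0, 648010, 0, ⟨353818, 14206608⟩, 0⟩ 47 63)) (.pos 24 .pp ⟨129327, 0, 0, 0, 0, 0, 0, 914984, 0, ⟨343518, 14248463⟩, 0⟩ 46 63)) (.cut .v 17825792 (.pos 23 .pp ⟨0, 0, 0, 0, 0, 0, 0, 927667, 0, ⟨410273, 13935943⟩, 0⟩ 49 67) (.pos 24 .pp ⟨0, 0, 0, 0, 0, 0, 0, 1129211, 0, ⟨410273, 13935943⟩, 0⟩ 49 67))) (.pos 22 .pp ⟨360379, 0, 0, 0, 0, 0, 0, 788429, 0, ⟨376457, 14065152⟩, 0⟩ 46 67)) (.cut .v 18874368 (.pos 21 .pp ⟨0, 0, 0, 0, 0, 0, 0, 311769,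 717001, ⟨524701, 13410949⟩, 17278579⟩ 52 75) (.cut .d 3590308 (.pos 22 .pp ⟨0, 0, 0, 0, 0, 0, 0, 1543518, 0, ⟨484360, 13609552⟩, 0⟩ 52 71) (.void 22 ⟨0, 0, 0, 0, 0, 0, 0, 100000, 0, ⟨565923, 13270246⟩, 0⟩ 55 75)))) (.cut .d 2393539 (.void 20 ⟨100000, 0, 0, 0, 0, 0, 0, 0, 0, ⟨0, 0⟩, 0⟩ 0 0) (.cut .d 3590308 (.pos 20 .pp ⟨408303, 0, 0, 0, 0, 0, 0, 5813492, 0, ⟨484360, 13609552⟩, 0⟩ 52 71) (.void 20 ⟨0, 0, 0, 0, 0, 0, 0, 100000, 0, ⟨565923, 13270246⟩, 0⟩ 55 75)))) (.void 18 ⟨0, 0, 0, 0, 0, 0, 100000, 0, 0, ⟨0, 0⟩, 0⟩ 0 0)))),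
    by decide +kernel⟩

def covers3 : cell.Covers table row3.1 :=
  ⟨(.cut .d 0 (.cut .v 16777216 (.cut .v 8388608 (.void 2 ⟨0, 0, 0, 0, 50000, 50000, 0, 0, 0, ⟨0, 0⟩, 0⟩ 0 0) (.cut .v 12582912 (.pos 6 .mm ⟨0, 0, 0, 0, 0, 6940630, 0, 0, 0, ⟨0, 0⟩, 0⟩ 0 0) (.cut .d (-8388608) (.void 7 ⟨0, 0, 0, 0, 0, 100000, 0, 0, 0, ⟨0, 0⟩, 0⟩ 0 0) (.cut .d (-4194304) (.void 7 ⟨0, 0, 0, 0, 0, 100000, 0, 0, 0, ⟨0, 0⟩, 0⟩ 0 0) (.cut .v 14680064 (.cut .d (-2097152) (.pos 10 .mm ⟨0, 0, 0, 0, 0, 496683, 0, 0, 0, ⟨0, 0⟩, 0⟩ 0 0) (.pos 10 .mm ⟨0, 0, 0, 0, 0, 496683, 0, 0, 0, ⟨0, 0⟩, 0⟩ 0 0)) (.cut .d (-2097152) (.pos 11 .mm ⟨0, 0, 0, 0, 0, 531276, 0, 0, 0, ⟨0, 0⟩, 0⟩ 0 0) (.cut .v 15728640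 (.cut .d (-1048576) (.pos 12 .mm ⟨0, 0, 0, 0, 0, 520334, 0, 0, 0, ⟨0, 0⟩, 0⟩ 0 0) (.pos 12 .mm ⟨0, 0, 0, 0, 0, 532160, 0, 0, 0, ⟨0, 0⟩, 0⟩ 0 0)) (.cut .d (-1048576) (.pos 13 .mm ⟨0, 0, 0, 0, 0, 545301, 0, 0, 0, ⟨0, 0⟩, 0⟩ 0 0) (.cut .v 16252928 (.pos 14 .mm ⟨0, 0, 0, 0, 0, 105430, 0, 0, 0, ⟨0, 0⟩, 0⟩ 0 0) (.pos 15 .mm ⟨0, 0, 0, 0, 0, 0, 0, 0, 0, ⟨0, 0⟩, 0⟩ 0 0)))))))))) (.cut .v 25165824 (.cut .v 20971520 (.pos 19 .mp ⟨0, 0, 0, 0, 0, 0, 0, 0, 0, ⟨0, 0⟩, 0⟩ 0 0) (.void 20 ⟨100000, 0, 0, 0, 0, 0, 0, 0, 0, ⟨0, 0⟩, 0⟩ 0 0)) (.void 18 ⟨100000, 0, 0, 0, 0, 0, 0, 0, 0, ⟨0, 0⟩, 0⟩ 0 0))) (.cut .v 16777216 (.cut .v 8388608 (.void 2 ⟨0, 0, 0, 0, 100000, 0, 0, 0, 0, ⟨0, 0⟩,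 0⟩ 0 0) (.cut .v 12582912 (.void 6 ⟨0, 0, 0, 0, 100000, 0, 0, 0, 0, ⟨0, 0⟩, 0⟩ 0 0) (.cut .v 14680064 (.pos 10 .pm ⟨0, 0, 0, 0, 0, 0, 0, 0, 517149, ⟨0, 0⟩, 15100357⟩ 0 0) (.cut .d 2805635 (.cut .d 1402817 (.cut .v 15728640 (.pos 12 .pm ⟨0, 0, 0, 0, 0, 0, 0, 0, 0, ⟨0, 0⟩, 0⟩ 0 0) (.cut .d 701408 (.cut .d 350704 (.pos 13 .pm ⟨0, 0, 0, 0, 0, 0, 0, 0, 0, ⟨0, 0⟩, 0⟩ 0 0) (.pos 13 .pm ⟨0, 0, 0, 0, 0, 0, 0, 0, 0, ⟨0, 0⟩, 0⟩ 0 0)) (.pos 13 .pm ⟨0, 0, 0, 0, 0, 0, 0, 530298, 0, ⟨636761, 13028454⟩, 0⟩ 60 75))) (.pos 11 .pm ⟨0, 0, 0, 0, 0, 0, 0, 0, 514585, ⟨0, 0⟩, 16226390⟩ 0 0)) (.void 11 ⟨0, 0, 0, 0, 0, 0, 0, 0, 100000, ⟨0, 0⟩, 16226390⟩ 0 0))))) (.cut .v 25165824 (.cut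 .v 20971520 (.cut .d 2805635 (.cut .v 18874368 (.cut .d 1402817 (.cut .v 17825792 (.cut .d 701408 (.pos 23 .pp ⟨0, 0, 0, 0, 0, 0, 0, 0, 0, ⟨0, 0⟩, 0⟩ 0 0) (.pos 23 .pp ⟨0, 0, 0, 0, 0, 0, 0, 603890, 0, ⟨636761, 13028454⟩, 0⟩ 60 75)) (.pos 24 .pp ⟨49086, 0, 0, 0, 0, 0, 0, 713490, 0, ⟨608114, 13126234⟩, 0⟩ 58 75)) (.pos 21 .pp ⟨0, 0, 0, 0, 0, 0, 0, 632756, 0, ⟨742358, 12613227⟩, 0⟩ 62 81)) (.pos 22 .pp ⟨310730, 0, 0, 0, 0, 0, 0, 610260, 0, ⟨678912, 12813746⟩, 0⟩ 58 81)) (.cut .v 18874368 (.pos 21 .pp ⟨0, 0, 0, 0, 0, 0, 0, 82448, 549082, ⟨997802, 11691057⟩, 17278579⟩ 67 93) (.cut .d 4208453 (.pos 22 .pp ⟨0, 0, 0, 0, 0, 0, 0, 1550385, 0, ⟨909937, 12026777⟩, 0⟩ 67 87)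 (.void 22 ⟨0, 0, 0, 0, 0, 0, 0, 100000, 0, ⟨1096528, 11419294⟩, 0⟩ 72 93)))) (.cut .d 2805635 (.pos 20 .pp ⟨965496, 0, 0, 0, 0, 0, 0, 0, 0, ⟨0, 0⟩, 0⟩ 0 0) (.cut .d 4208453 (.pos 20 .pp ⟨0, 0, 0, 0, 0, 0, 0, 7142954, 0, ⟨909937, 12026777⟩, 0⟩ 67 87) (.void 20 ⟨0, 0, 0, 0, 0, 0, 0, 100000, 0, ⟨1096528, 11419294⟩, 0⟩ 72 93)))) (.void 18 ⟨0, 0, 0, 0, 0, 0, 100000, 0, 0, ⟨0, 0⟩, 0⟩ 0 0)))),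
    by decide +kernel⟩

def covers4 : cell.Covers table row4.1 :=
  ⟨(.cut .d 0 (.cut .v 16777216 (.cut .v 8388608 (.void 2 ⟨0, 0, 0, 0, 50000, 50000, 0, 0, 0, ⟨0, 0⟩, 0⟩ 0 0) (.cut .v 12582912 (.pos 6 .mm ⟨0, 0, 0, 0, 0, 5007742, 0, 0, 0, ⟨0, 0⟩, 0⟩ 0 0) (.cut .d (-8388608) (.void 7 ⟨0, 0, 0, 0, 0, 100000, 0, 0, 0, ⟨0, 0⟩, 0⟩ 0 0) (.cut .d (-4194304) (.void 7 ⟨0, 0, 0, 0, 0, 100000, 0, 0, 0, ⟨0, 0⟩, 0⟩ 0 0) (.cut .v 14680064 (.cut .d (-2097152) (.pos 10 .mm ⟨0, 0, 0, 0, 0, 469587, 0, 0, 0, ⟨0, 0⟩, 0⟩ 0 0) (.pos 10 .mm ⟨0, 0, 0, 0, 0, 459222, 0, 0, 0, ⟨0, 0⟩, 0⟩ 0 0)) (.cut .d (-2097152) (.pos 11 .mm ⟨0, 0, 0, 0, 0, 481800, 0, 0, 0, ⟨0, 0⟩, 0⟩ 0 0) (.cut .v 15728640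 (.cut .d (-1048576) (.pos 12 .mm ⟨0, 0, 0, 0, 0, 476697, 0, 0, 0, ⟨0, 0⟩, 0⟩ 0 0) (.pos 12 .mm ⟨0, 0, 0, 0, 0, 477122, 0, 0, 0, ⟨0, 0⟩, 0⟩ 0 0)) (.cut .d (-1048576) (.pos 13 .mm ⟨0, 0, 0, 0, 0, 495216, 0, 0, 0, ⟨0, 0⟩, 0⟩ 0 0) (.cut .v 16252928 (.pos 14 .mm ⟨0, 0, 0, 0, 0, 247741, 0, 0, 0, ⟨0, 0⟩, 0⟩ 0 0) (.pos 15 .mm ⟨0, 0, 0, 0, 0, 0, 0, 0, 0, ⟨0, 0⟩, 0⟩ 0 0)))))))))) (.cut .v 25165824 (.cut .v 20971520 (.pos 19 .mp ⟨0, 0, 0, 0, 0, 0, 0, 0, 0, ⟨0, 0⟩, 0⟩ 0 0) (.void 20 ⟨100000, 0, 0, 0, 0, 0, 0, 0, 0, ⟨0, 0⟩, 0⟩ 0 0)) (.void 18 ⟨100000, 0, 0, 0, 0, 0, 0, 0, 0, ⟨0, 0⟩, 0⟩ 0 0))) (.cut .v 16777216 (.cut .v 8388608 (.void 2 ⟨0, 0, 0, 0, 100000, 0, 0, 0, 0, ⟨0, 0⟩,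 0⟩ 0 0) (.cut .v 12582912 (.void 6 ⟨0, 0, 0, 0, 100000, 0, 0, 0, 0, ⟨0, 0⟩, 0⟩ 0 0) (.cut .v 14680064 (.pos 10 .pm ⟨0, 0, 0, 0, 0, 0, 0, 0, 0, ⟨0, 0⟩, 0⟩ 0 0) (.cut .d 3381871 (.cut .d 1690935 (.cut .v 15728640 (.pos 12 .pm ⟨0, 0, 0, 0, 0, 0, 0, 0, 0, ⟨0, 0⟩, 0⟩ 0 0) (.cut .d 845467 (.cut .d 422733 (.pos 13 .pm ⟨0, 0, 0, 0, 0, 0, 0, 0, 0, ⟨0, 0⟩, 0⟩ 0 0) (.pos 13 .pm ⟨0, 0, 0, 0, 0, 0, 0, 0, 0, ⟨0, 0⟩, 0⟩ 0 0)) (.pos 13 .pm ⟨0, 0, 0, 0, 0, 0, 0, 421871, 0, ⟨1032789, 11645921⟩, 0⟩ 72 89))) (.pos 11 .pm ⟨0, 0, 0, 0, 0, 0, 0, 430847, 0, ⟨1224187, 11023371⟩, 0⟩ 75 97)) (.void 11 ⟨0, 0, 0, 0, 0, 0, 0, 0, 100000, ⟨0, 0⟩, 16226390⟩ 0 0))))) (.cut .v 25165824 (.cut .v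 20971520 (.cut .d 3381871 (.cut .v 18874368 (.cut .d 1690935 (.cut .d 845467 (.pos 21 .pp ⟨0, 0, 0, 0, 0, 0, 0, 219277, 0, ⟨916291, 12031024⟩, 0⟩ 69 85) (.cut .v 17825792 (.pos 23 .pp ⟨0, 0, 0, 0, 0, 0, 0, 456029, 0, ⟨1032789, 11645921⟩, 0⟩ 72 89) (.pos 24 .pp ⟨0, 0, 0, 0, 0, 0, 0, 538873, 0, ⟨1032789, 11645921⟩, 0⟩ 72 89))) (.pos 21 .pp ⟨0, 0, 0, 0, 0, 0, 0, 466731, 0, ⟨1224187, 11023371⟩, 0⟩ 75 97)) (.pos 22 .pp ⟨0, 0, 0, 0, 0, 0, 0, 608984, 0, ⟨1098424, 11355282⟩, 0⟩ 69 97)) (.cut .v 18874368 (.pos 21 .pp ⟨0, 0, 0, 0, 0, 0, 0, 0, 395500, ⟨0, 0⟩, 17278579⟩ 0 0) (.cut .d 5072807 (.pos 22 .pp ⟨0, 0, 0, 0, 0, 0, 0, 2371467, 92946, ⟨1524562, 10158157⟩, 18269873⟩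 82 105) (.void 22 ⟨0, 0, 0, 0, 0, 0, 0, 100000, 0, ⟨1856192, 9277482⟩, 0⟩ 89 113)))) (.cut .d 3381871 (.pos 20 .pp ⟨0, 0, 0, 0, 0, 0, 0, 676649, 0, ⟨1098424, 11355282⟩, 0⟩ 69 97) (.cut .d 5072807 (.pos 20 .pp ⟨0, 0, 0, 0, 0, 0, 0, 7517224, 0, ⟨1524562, 10158157⟩, 0⟩ 82 105) (.void 20 ⟨0, 0, 0, 0, 0, 0, 0, 100000, 0, ⟨1856192, 9277482⟩, 0⟩ 89 113)))) (.pos 18 .pp ⟨20071308, 0, 0, 0, 0, 0, 0, 44494837, 0, ⟨1348371, 10427944⟩, 0⟩ 69 113)))),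
    by decide +kernel⟩

def covers5 : cell.Covers table row5.1 :=
  ⟨(.cut .d 0 (.cut .v 16777216 (.cut .v 8388608 (.void 2 ⟨0, 0, 0, 0, 50000, 50000, 0, 0, 0, ⟨0, 0⟩, 0⟩ 0 0) (.cut .v 12582912 (.pos 6 .mm ⟨0, 0, 0, 0, 0, 3513086, 0, 0, 0, ⟨0, 0⟩, 0⟩ 0 0) (.cut .d (-8388608) (.void 7 ⟨0, 0, 0, 0, 0, 100000, 0, 0, 0, ⟨0, 0⟩, 0⟩ 0 0) (.cut .d (-4194304) (.void 7 ⟨0, 0, 0, 0, 0, 100000, 0, 0, 0, ⟨0, 0⟩, 0⟩ 0 0) (.cut .d (-2097152) (.void 7 ⟨0, 0, 0, 0, 0, 100000, 0, 0, 0, ⟨0, 0⟩, 0⟩ 0 0) (.cut .v 14680064 (.pos 10 .mm ⟨0, 0, 0, 0, 0, 487110, 0, 0, 0, ⟨0, 0⟩, 0⟩ 0 0) (.cut .v 15728640 (.pos 12 .mm ⟨0, 0, 0, 0, 0, 476359, 0, 0, 0, ⟨0, 0⟩, 0⟩ 0 0) (.cut .d (-1048576)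 (.pos 13 .mm ⟨0, 0, 0, 0, 0, 523838, 0, 0, 0, ⟨0, 0⟩, 0⟩ 0 0) (.pos 13 .mm ⟨0, 0, 0, 0, 0, 0, 0, 0, 0, ⟨0, 0⟩, 0⟩ 0 0))))))))) (.cut .v 25165824 (.pos 17 .mp ⟨486073, 0, 0, 0, 0, 0, 0, 0, 0, ⟨0, 0⟩, 0⟩ 0 0) (.void 18 ⟨100000, 0, 0, 0, 0, 0, 0, 0, 0, ⟨0, 0⟩, 0⟩ 0 0))) (.cut .v 16777216 (.cut .v 8388608 (.void 2 ⟨0, 0, 0, 0, 100000, 0, 0, 0, 0, ⟨0, 0⟩, 0⟩ 0 0) (.cut .v 12582912 (.pos 6 .pm ⟨0, 0, 0, 0, 0, 0, 0, 0, 436271, ⟨0, 0⟩, 13128881⟩ 0 0) (.cut .v 14680064 (.pos 10 .pm ⟨0, 0, 0, 0, 0, 0, 0, 0, 0, ⟨0, 0⟩, 0⟩ 0 0) (.cut .d 4172387 (.cut .d 2086193 (.cut .v 15728640 (.pos 12 .pm ⟨0, 0, 0, 0, 0, 0, 0, 0, 0, ⟨0, 0⟩, 0⟩ 0 0) (.cut .d 1043096 (.cut .v 16252928 (.pos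 14 .pm ⟨0, 0, 0, 0, 0, 0, 0, 0, 0, ⟨0, 0⟩, 0⟩ 0 0) (.pos 15 .pm ⟨0, 0, 0, 0, 0, 0, 0, 0, 0, ⟨0, 0⟩, 0⟩ 0 0)) (.pos 13 .pm ⟨0, 0, 0, 0, 0, 0, 0, 375780, 0, ⟨1552705, 10101324⟩, 0⟩ 84 104))) (.pos 11 .pm ⟨0, 0, 0, 0, 0, 0, 0, 439858, 0, ⟨1897304, 9159227⟩, 0⟩ 89 115)) (.void 11 ⟨0, 0, 0, 0, 0, 0, 0, 0, 100000, ⟨0, 0⟩, 16226390⟩ 0 0))))) (.cut .v 25165824 (.cut .v 20971520 (.cut .d 4172387 (.cut .v 18874368 (.cut .d 2086193 (.cut .d 1043096 (.pos 21 .pp ⟨0, 0, 0, 0, 0, 0, 0, 0, 0, ⟨0, 0⟩, 0⟩ 0 0) (.pos 21 .pp ⟨0, 0, 0, 0, 0, 0, 0, 448094, 0, ⟨1552705, 10101324⟩, 0⟩ 84 104)) (.pos 21 .pp ⟨0, 0, 0, 0, 0, 0, 0, 413135, 0, ⟨1897304, 9159227⟩, 0⟩ 89 115)) (.pos 22 .pp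 ⟨0, 0, 0, 0, 0, 0, 0, 442264, 44412, ⟨1661318, 9684553⟩, 18269873⟩ 80 115)) (.cut .v 18874368 (.pos 21 .pp ⟨0, 0, 0, 0, 0, 0, 0, 0, 787055, ⟨0, 0⟩, 17278579⟩ 0 0) (.cut .d 6258581 (.pos 22 .pp ⟨0, 0, 0, 0, 0, 0, 0, 977721, 965482, ⟨2434774, 7864914⟩, 18269873⟩ 99 127) (.void 22 ⟨0, 0, 0, 0, 0, 0, 0, 0, 100000, ⟨0, 0⟩, 18269873⟩ 0 0)))) (.cut .d 4172387 (.pos 20 .pp ⟨0, 0, 0, 0, 0, 0, 0, 537713, 0, ⟨1661318, 9684553⟩, 0⟩ 80 115) (.cut .d 6258581 (.pos 20 .pp ⟨0, 0, 0, 0, 0, 0, 0, 8345366, 0, ⟨2434774, 7864914⟩, 0⟩ 99 127) (.void 20 ⟨0, 0, 0, 0, 0, 0, 0, 100000, 0, ⟨2991491, 6654525⟩, 0⟩ 109 138)))) (.pos 18 .pp ⟨0, 0, 0, 0, 0, 0, 6136179, 18425297, 0, ⟨2079527,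 8346284⟩, 0⟩ 80 138)))),
    by decide +kernel⟩

def covers6 : cell.Covers table row6.1 :=
  ⟨(.cut .d 0 (.cut .v 16777216 (.cut .v 8388608 (.void 2 ⟨0, 0, 0, 0, 50000, 50000, 0, 0, 0, ⟨0, 0⟩, 0⟩ 0 0) (.cut .v 12582912 (.pos 6 .mm ⟨0, 0, 0, 0, 0, 2208235, 0, 0, 0, ⟨0, 0⟩, 0⟩ 0 0) (.cut .v 14680064 (.pos 10 .mm ⟨0, 0, 0, 0, 0, 1289595, 0, 0, 0, ⟨0, 0⟩, 0⟩ 0 0) (.cut .d (-8388608) (.void 11 ⟨0, 0, 0, 0, 0, 100000, 0, 0, 0, ⟨0, 0⟩, 0⟩ 0 0) (.cut .v 15728640 (.cut .s 6422528 (.pos 12 .mm ⟨0, 0, 0, 0, 0, 535844, 0, 0, 0, ⟨0, 0⟩, 0⟩ 0 0) (.pos 12 .mm ⟨0, 0, 0, 0, 0, 327697, 0, 0, 0, ⟨0, 0⟩, 0⟩ 0 0)) (.pos 13 .mm ⟨0, 0, 0, 0, 0, 77110, 0, 0, 0, ⟨0, 0⟩, 0⟩ 0 0)))))) (.cut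 .v 25165824 (.cut .d (-8388608) (.void 17 ⟨0, 0, 0, 0, 0, 100000, 0, 0, 0, ⟨0, 0⟩, 0⟩ 0 0) (.pos 17 .mp ⟨78465, 0, 0, 0, 0, 850217, 0, 0, 0, ⟨0, 0⟩, 0⟩ 0 0)) (.void 18 ⟨100000, 0, 0, 0, 0, 0, 0, 0, 0, ⟨0, 0⟩, 0⟩ 0 0))) (.cut .v 16777216 (.cut .v 8388608 (.void 2 ⟨0, 0, 0, 0, 100000, 0, 0, 0, 0, ⟨0, 0⟩, 0⟩ 0 0) (.cut .v 12582912 (.pos 6 .pm ⟨0, 0, 0, 0, 0, 0, 0, 0, 0, ⟨0, 0⟩, 0⟩ 0 0) (.cut .v 14680064 (.pos 10 .pm ⟨0, 0, 0, 0, 0, 0, 0, 0, 0, ⟨0, 0⟩, 0⟩ 0 0) (.cut .d 5472927 (.cut .d 2736463 (.cut .v 15728640 (.pos 12 .pm ⟨0, 0, 0, 0, 0, 0, 0, 1178, 0, ⟨2103839, 8628709⟩, 0⟩ 92 121) (.cut .d 1368231 (.cut .v 16252928 (.pos 14 .pm ⟨0, 0, 0, 0, 0, 0, 0, 0, 0, ⟨0, 0⟩,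 0⟩ 0 0) (.pos 15 .pm ⟨0, 0, 0, 0, 0, 0, 0, 0, 0, ⟨0, 0⟩, 0⟩ 0 0)) (.pos 13 .pm ⟨0, 0, 0, 0, 0, 0, 0, 505547, 0, ⟨2299423, 8214912⟩, 0⟩ 99 121))) (.pos 11 .pm ⟨0, 0, 0, 0, 0, 0, 0, 160035, 348549, ⟨2929085, 6770291⟩, 16226390⟩ 107 138)) (.void 11 ⟨0, 0, 0, 0, 0, 0, 0, 0, 100000, ⟨0, 0⟩, 16226390⟩ 0 0))))) (.cut .v 25165824 (.cut .d 5472927 (.cut .v 20971520 (.cut .v 18874368 (.cut .d 2736463 (.pos 21 .pp ⟨0, 0, 0, 0, 0, 0, 0, 480565, 0, ⟨2103839, 8628709⟩, 0⟩ 92 121) (.cut .d 4104695 (.pos 21 .pp ⟨0, 0, 0, 0, 0, 0, 0, 234050, 239499, ⟨2740376, 7221782⟩, 17278579⟩ 107 130) (.pos 21 .pp ⟨0, 0, 0, 0, 0, 0, 0, 0, 570343, ⟨0, 0⟩, 17278579⟩ 0 0))) (.pos 22 .pp ⟨0, 0,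 0, 0, 0, 0, 0, 0, 647731, ⟨0, 0⟩, 18269873⟩ 0 0)) (.pos 20 .pp ⟨0, 0, 0, 0, 0, 0, 0, 600707, 0, ⟨2456954, 7646130⟩, 0⟩ 92 138)) (.cut .v 20971520 (.pos 19 .pp ⟨0, 0, 0, 0, 0, 0, 0, 0, 2285879, ⟨0, 0⟩, 17739746⟩ 0 0) (.cut .d 8209390 (.pos 20 .pp ⟨0, 0, 0, 0, 0, 0, 0, 14479144, 0, ⟨3812461, 5028964⟩, 0⟩ 122 155) (.void 20 ⟨0, 0, 0, 0, 0, 0, 0, 100000, 0, ⟨4689924, 3492176⟩, 0⟩ 137 172)))) (.cut .d 5472927 (.pos 18 .pp ⟨0, 0, 0, 0, 0, 0, 0, 720848, 0, ⟨2456954, 7646130⟩, 0⟩ 92 138) (.pos 18 .pp ⟨0, 0, 0, 0, 0, 0, 0, 41517853, 0, ⟨4190823, 4235023⟩, 0⟩ 122 172))))),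
    by decide +kernel⟩

def covers7 : cell.Covers table row7.1 :=
  ⟨(.cut .d 0 (.cut .v 16777216 (.cut .v 8388608 (.void 2 ⟨0, 0, 0, 0, 50000, 50000, 0, 0, 0, ⟨0, 0⟩, 0⟩ 0 0) (.cut .v 12582912 (.pos 6 .mm ⟨0, 0, 0, 0, 0, 1041618, 0, 0, 0, ⟨0, 0⟩, 0⟩ 0 0) (.cut .d (-8388608) (.void 7 ⟨0, 0, 0, 0, 0, 100000, 0, 0, 0, ⟨0, 0⟩, 0⟩ 0 0) (.cut .d (-4194304) (.void 7 ⟨0, 0, 0, 0, 0, 100000, 0, 0, 0, ⟨0, 0⟩, 0⟩ 0 0) (.cut .v 14680064 (.pos 10 .mm ⟨0, 0, 0, 0, 0, 794697, 0, 0, 0, ⟨0, 0⟩, 0⟩ 0 0) (.cut .d (-2097152) (.void 11 ⟨0, 0, 0, 0, 0, 100000, 0, 0, 0, ⟨0, 0⟩, 0⟩ 0 0) (.cut .d (-1048576) (.pos 11 .mm ⟨0, 0, 0, 0, 0, 1745650, 0, 0, 0, ⟨0, 0⟩, 0⟩ 0 0) (.cut .v 15728640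 (.pos 12 .mm ⟨0, 0, 0, 0, 0, 630394, 0, 0, 0, ⟨0, 0⟩, 0⟩ 0 0) (.cut .s 7176192 (.pos 13 .mm ⟨0, 0, 0, 0, 0, 347067, 0, 0, 0, ⟨0, 0⟩, 0⟩ 0 0) (.cut .s 7356416 (.pos 13 .mm ⟨0, 0, 0, 0, 0, 586545, 0, 0, 0, ⟨0, 0⟩, 0⟩ 0 0) (.pos 13 .mm ⟨0, 0, 0, 0, 0, 859796, 0, 0, 0, ⟨0, 0⟩, 0⟩ 0 0))))))))))) (.cut .v 33554432 (.cut .v 25165824 (.cut .d (-8388608) (.void 17 ⟨0, 0, 0, 0, 0, 100000, 0, 0, 0, ⟨0, 0⟩, 0⟩ 0 0) (.cut .d (-4194304) (.void 17 ⟨0, 0, 0, 0, 0, 100000, 0, 0, 0, ⟨0, 0⟩, 0⟩ 0 0) (.cut .d (-2097152) (.void 17 ⟨0, 0, 0, 0, 0, 100000, 0, 0, 0, ⟨0, 0⟩, 0⟩ 0 0) (.cut .v 20971520 (.pos 19 .mp ⟨0, 0, 0, 0, 0, 1798149, 0, 0, 0, ⟨0, 0⟩, 0⟩ 0 0) (.void 20 ⟨100000, 0, 0,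 0, 0, 0, 0, 0, 0, ⟨0, 0⟩, 0⟩ 0 0))))) (.void 18 ⟨100000, 0, 0, 0, 0, 0, 0, 0, 0, ⟨0, 0⟩, 0⟩ 0 0)) (.void 41 ⟨100000, 0, 0, 0, 0, 0, 0, 0, 0, ⟨0, 0⟩, 0⟩ 0 0))) (.cut .v 16777216 (.cut .v 8388608 (.void 2 ⟨0, 0, 0, 0, 100000, 0, 0, 0, 0, ⟨0, 0⟩, 0⟩ 0 0) (.cut .d 7796284 (.cut .v 12582912 (.pos 6 .pm ⟨0, 0, 0, 0, 0, 0, 0, 0, 0, ⟨0, 0⟩, 0⟩ 0 0) (.cut .v 14680064 (.pos 10 .pm ⟨0, 0, 0, 0, 0, 0, 0, 319619, 194834, ⟨3489017, 5335016⟩, 15100357⟩ 104 169) (.cut .d 3898142 (.cut .v 15728640 (.cut .d 1949071 (.pos 12 .pm ⟨0, 0, 0, 0, 0, 0, 0, 7077, 0, ⟨2627767, 7455016⟩, 0⟩ 104 129) (.pos 12 .pm ⟨0, 0, 0, 0, 0, 0, 0, 662233, 26733, ⟨3306728, 6035022⟩, 15966684⟩ 116 142))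 (.cut .d 1949071 (.pos 13 .pm ⟨0, 0, 0, 0, 0, 0, 0, 136915, 0, ⟨2627767, 7455016⟩, 0⟩ 104 129) (.cut .s 7176192 (.pos 13 .pm ⟨0, 0, 0, 0, 0, 0, 0, 706976, 30883, ⟨3132971, 6418485⟩, 16508694⟩ 116 135) (.pos 13 .pm ⟨0, 0, 0, 0, 0, 0, 0, 687533, 93134, ⟨3493338, 5698598⟩, 16508694⟩ 122 142)))) (.cut .s 7176192 (.pos 11 .pm ⟨0, 0, 0, 0, 0, 0, 0, 0, 759143, ⟨0, 0⟩, 16226390⟩ 0 0) (.pos 11 .pm ⟨0, 0, 0, 0, 0, 0, 0, 0, 1087644, ⟨0, 0⟩, 16226390⟩ 0 0))))) (.void 3 ⟨0, 0, 0, 0, 0, 0, 0, 0, 100000, ⟨0, 0⟩, 14107901⟩ 0 0))) (.cut .v 33554432 (.cut .d 7796284 (.cut .v 25165824 (.cut .v 20971520 (.cut .d 3898142 (.cut .v 18874368 (.cut .s 7176192 (.pos 21 .pp ⟨0, 0, 0, 0,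 0, 0, 0, 763411, 18804, ⟨2766671, 7113100⟩, 17278579⟩ 104 135) (.pos 21 .pp ⟨0, 0, 0, 0, 0, 0, 0, 744294, 0, ⟨3085273, 6434265⟩, 0⟩ 109 142)) (.pos 22 .pp ⟨0, 0, 0, 0, 0, 0, 0, 871704, 0, ⟨2925240, 6722775⟩, 0⟩ 104 142)) (.cut .d 5847213 (.cut .v 18874368 (.cut .s 7176192 (.pos 21 .pp ⟨0, 0, 0, 0, 0, 0, 0, 0, 712840, ⟨0, 0⟩, 17278579⟩ 0 0) (.pos 21 .pp ⟨0, 0, 0, 0, 0, 0, 0, 0, 824911, ⟨0, 0⟩, 17278579⟩ 0 0)) (.pos 22 .pp ⟨0, 0, 0, 0, 0, 0, 0, 0, 1059239, ⟨0, 0⟩, 18269873⟩ 0 0)) (.pos 19 .pp ⟨0, 0, 0, 0, 0, 0, 0, 0, 2571706, ⟨0, 0⟩, 17739746⟩ 0 0))) (.cut .d 3898142 (.pos 20 .pp ⟨0, 0, 0, 0, 0, 0, 0, 968560, 0, ⟨2925240, 6722775⟩, 0⟩ 104 142) (.pos 20 .pp ⟨0, 0,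 0, 0, 0, 0, 0, 716076, 1567521, ⟨4330494, 4060353⟩, 19632256⟩ 128 169))) (.pos 18 .pp ⟨0, 0, 0, 0, 0, 0, 0, 7849481, 0, ⟨3489017, 5335016⟩, 0⟩ 104 169)) (.cut .v 25165824 (.pos 17 .pp ⟨0, 0, 0, 0, 0, 0, 0, 6865468, 6563355, ⟨5977851, 1411620⟩, 18567042⟩ 152 252) (.pos 18 .pp ⟨0, 0, 0, 0, 0, 0, 0, 41114604, 4050113, ⟨5977851, 1411620⟩, 22080058⟩ 152 252))) (.pos 41 .pp ⟨0, 566340, 0, 0, 0, 0, 103699496, 0, 0, ⟨0, 0⟩, 0⟩ 0 0)))),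
    by decide +kernel⟩

def covers8 : cell.Covers table row8.1 :=
  ⟨(.cut .d 0 (.cut .v 16777216 (.cut .v 8388608 (.pos 2 .mm ⟨0, 0, 0, 0, 99446451, 100354119, 0, 0, 0, ⟨0, 0⟩, 0⟩ 0 0) (.cut .d (-8388608) (.void 3 ⟨0, 0, 0, 0, 0, 100000, 0, 0, 0, ⟨0, 0⟩, 0⟩ 0 0) (.cut .v 12582912 (.pos 6 .mm ⟨0, 0, 0, 0, 0, 778746, 0, 0, 0, ⟨0, 0⟩, 0⟩ 0 0) (.cut .d (-4194304) (.void 7 ⟨0, 0, 0, 0, 0, 100000, 0, 0, 0, ⟨0, 0⟩, 0⟩ 0 0) (.cut .d (-2097152) (.void 7 ⟨0, 0, 0, 0, 0, 100000, 0, 0, 0, ⟨0, 0⟩, 0⟩ 0 0) (.cut .d (-1048576) (.void 7 ⟨0, 0, 0, 0, 0, 100000, 0, 0, 0, ⟨0, 0⟩, 0⟩ 0 0) (.cut .v 14680064 (.pos 10 .mm ⟨0, 0, 0, 0, 0, 848152, 0, 0, 0, ⟨0, 0⟩, 0⟩ 0 0) (.cut .d (-524288)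 (.pos 11 .mm ⟨0, 0, 0, 0, 0, 2762681, 0, 0, 0, ⟨0, 0⟩, 0⟩ 0 0) (.cut .v 15728640 (.pos 12 .mm ⟨0, 0, 0, 0, 0, 1327946, 0, 0, 0, ⟨0, 0⟩, 0⟩ 0 0) (.cut .d (-262144) (.pos 13 .mm ⟨0, 0, 0, 0, 0, 2324272, 0, 0, 0, ⟨0, 0⟩, 0⟩ 0 0) (.cut .s 7798784 (.pos 13 .mm ⟨0, 0, 0, 0, 0, 1081502, 0, 0, 0, ⟨0, 0⟩, 0⟩ 0 0) (.pos 13 .mm ⟨0, 0, 0, 0, 0, 1641811, 0, 0, 0, ⟨0, 0⟩, 0⟩ 0 0)))))))))))) (.cut .v 33554432 (.cut .v 25165824 (.cut .v 20971520 (.cut .d (-8388608) (.void 19 ⟨0, 0, 0, 0, 0, 100000, 0, 0, 0, ⟨0, 0⟩, 0⟩ 0 0) (.cut .d (-4194304) (.void 19 ⟨0, 0, 0, 0, 0, 100000, 0, 0, 0, ⟨0, 0⟩, 0⟩ 0 0) (.cut .d (-2097152) (.void 19 ⟨0, 0, 0, 0, 0, 100000, 0, 0, 0, ⟨0, 0⟩, 0⟩ 0 0)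 (.cut .d (-1048576) (.void 19 ⟨0, 0, 0, 0, 0, 100000, 0, 0, 0, ⟨0, 0⟩, 0⟩ 0 0) (.cut .v 18874368 (.cut .d (-524288) (.pos 21 .mp ⟨0, 0, 0, 0, 0, 3550967, 0, 0, 0, ⟨0, 0⟩, 0⟩ 0 0) (.pos 21 .mp ⟨360493, 0, 0, 0, 0, 2012387, 0, 0, 0, ⟨0, 0⟩, 0⟩ 0 0)) (.pos 22 .mp ⟨5761690, 0, 0, 0, 0, 0, 0, 0, 0, ⟨0, 0⟩, 0⟩ 0 0)))))) (.void 20 ⟨100000, 0, 0, 0, 0, 0, 0, 0, 0, ⟨0, 0⟩, 0⟩ 0 0)) (.void 18 ⟨100000, 0, 0, 0, 0, 0, 0, 0, 0, ⟨0, 0⟩, 0⟩ 0 0)) (.void 41 ⟨100000, 0, 0, 0, 0, 0, 0, 0, 0, ⟨0, 0⟩, 0⟩ 0 0))) (.cut .v 16777216 (.cut .v 8388608 (.void 2 ⟨0, 0, 0, 0, 100000, 0, 0, 0, 0, ⟨0, 0⟩, 0⟩ 0 0) (.cut .d 10285164 (.cut .v 12582912 (.pos 6 .pm ⟨0, 0, 0, 0, 0, 0, 0, 0, 378918,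 ⟨0, 0⟩, 13128881⟩ 0 0) (.cut .d 5142582 (.cut .v 14680064 (.pos 10 .pm ⟨0, 0, 0, 0, 0, 0, 0, 745604, 98954, ⟨3714336, 5114356⟩, 15100357⟩ 115 161) (.cut .d 2571291 (.cut .v 15728640 (.pos 12 .pm ⟨0, 0, 0, 0, 0, 0, 0, 0, 0, ⟨0, 0⟩, 0⟩ 0 0) (.pos 13 .pm ⟨0, 0, 0, 0, 0, 0, 0, 0, 0, ⟨0, 0⟩, 0⟩ 0 0)) (.pos 11 .pm ⟨0, 0, 0, 0, 0, 0, 0, 127655, 584683, ⟨4278123, 4217900⟩, 16226390⟩ 132 161))) (.pos 7 .pm ⟨0, 0, 0, 0, 0, 0, 0, 0, 3592348, ⟨0, 0⟩, 15612959⟩ 0 0))) (.void 3 ⟨0, 0, 0, 0, 0, 0, 0, 0, 100000, ⟨0, 0⟩, 14107901⟩ 0 0))) (.cut .v 33554432 (.cut .d 10285164 (.cut .v 25165824 (.cut .d 5142582 (.cut .v 20971520 (.cut .d 2571291 (.pos 19 .pp ⟨0, 0, 0, 0, 0, 0, 0, 0,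 0, ⟨0, 0⟩, 0⟩ 0 0) (.pos 19 .pp ⟨0, 0, 0, 0, 0, 0, 0, 184810, 542559, ⟨4278123, 4217900⟩, 17739746⟩ 132 161)) (.pos 20 .pp ⟨1227634, 0, 0, 0, 0, 0, 190681, 0, 0, ⟨0, 0⟩, 0⟩ 0 0)) (.cut .v 20971520 (.cut .v 18874368 (.pos 21 .pp ⟨0, 0, 0, 0, 0, 0, 0, 0, 2241540, ⟨0, 0⟩, 17278579⟩ 0 0) (.pos 22 .pp ⟨0, 0, 0, 0, 0, 0, 0, 0, 2213209, ⟨0, 0⟩, 18269873⟩ 0 0)) (.pos 20 .pp ⟨0, 0, 0, 0, 0, 0, 0, 0, 2315188, ⟨0, 0⟩, 19632256⟩ 0 0))) (.pos 18 .pp ⟨0, 0, 0, 0, 0, 0, 477716, 164710, 0, ⟨4417254, 3549600⟩, 0⟩ 115 205)) (.pos 16 .pp ⟨0, 0, 0, 0, 0, 0, 0, 0, 15754603, ⟨0, 0⟩, 19951585⟩ 0 0)) (.cut .d 10285164 (.pos 41 .pp ⟨12344126, 0, 0, 0, 0, 0, 27440850, 0, 0, ⟨0, 0⟩, 0⟩ 0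 0) (.void 41 ⟨0, 100000, 0, 0, 0, 0, 0, 0, 0, ⟨0, 0⟩, 0⟩ 0 0))))),
    by decide +kernel⟩

def covers9 : cell.Covers table row9.1 :=
  ⟨(.cut .d 0 (.cut .v 16777216 (.cut .d (-8388608) (.void 1 ⟨0, 0, 0, 0, 0, 100000, 0, 0, 0, ⟨0, 0⟩, 0⟩ 0 0) (.cut .d (-4194304) (.void 1 ⟨0, 0, 0, 0, 0, 100000, 0, 0, 0, ⟨0, 0⟩, 0⟩ 0 0) (.cut .d (-2097152) (.void 1 ⟨0, 0, 0, 0, 0, 100000, 0, 0, 0, ⟨0, 0⟩, 0⟩ 0 0) (.cut .d (-1048576) (.void 1 ⟨0, 0, 0, 0, 0, 100000, 0, 0, 0, ⟨0, 0⟩, 0⟩ 0 0) (.cut .v 8388608 (.cut .v 4194304 (.void 4 ⟨0, 0, 50000, 0, 50000, 0, 0, 0, 0, ⟨0, 0⟩, 0⟩ 0 0) (.pos 5 .mm ⟨0, 0, 0, 0, 0, 1378217, 0, 0, 1287912, ⟨0, 0⟩, 9975792⟩ 0 0)) (.cut .v 12582912 (.pos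 6 .mm ⟨0, 0, 0, 0, 0, 264000, 0, 0, 0, ⟨0, 0⟩, 0⟩ 0 0) (.cut .v 14680064 (.pos 10 .mm ⟨0, 0, 0, 0, 0, 1731908, 0, 0, 0, ⟨0, 0⟩, 0⟩ 0 0) (.cut .v 15728640 (.pos 12 .mm ⟨0, 0, 0, 0, 0, 3348351, 0, 0, 0, ⟨0, 0⟩, 0⟩ 0 0) (.cut .s 8323072 (.cut .d (-524288) (.pos 13 .mm ⟨0, 0, 0, 0, 0, 4334350, 0, 0, 0, ⟨0, 0⟩, 0⟩ 0 0) (.cut .d (-262144) (.pos 13 .mm ⟨0, 0, 0, 0, 0, 3774924, 0, 0, 0, ⟨0, 0⟩, 0⟩ 0 0) (.pos 13 .mm ⟨0, 0, 0, 0, 0, 2435042, 0, 0, 0, ⟨0, 0⟩, 0⟩ 0 0))) (.cut .s 8454144 (.cut .s 8388608 (.pos 13 .mm ⟨0, 0, 0, 0, 0, 4424297, 0, 0, 0, ⟨0, 0⟩, 0⟩ 0 0) (.pos 13 .mm ⟨0, 0, 0, 0, 0, 4835356, 0, 0, 0, ⟨0, 0⟩, 0⟩ 0 0)) (.pos 13 .mm ⟨0, 0, 0, 0, 0, 5649399, 0, 0, 0,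 ⟨0, 0⟩, 0⟩ 0 0))))))))))) (.cut .v 33554432 (.cut .v 25165824 (.cut .v 20971520 (.cut .d (-8388608) (.void 19 ⟨0, 0, 0, 0, 0, 100000, 0, 0, 0, ⟨0, 0⟩, 0⟩ 0 0) (.cut .d (-4194304) (.void 19 ⟨0, 0, 0, 0, 0, 100000, 0, 0, 0, ⟨0, 0⟩, 0⟩ 0 0) (.cut .d (-2097152) (.void 19 ⟨0, 0, 0, 0, 0, 100000, 0, 0, 0, ⟨0, 0⟩, 0⟩ 0 0) (.cut .d (-1048576) (.void 19 ⟨0, 0, 0, 0, 0, 100000, 0, 0, 0, ⟨0, 0⟩, 0⟩ 0 0) (.cut .v 18874368 (.cut .v 17825792 (.cut .d (-524288) (.cut .s 8323072 (.pos 23 .mp ⟨0, 0, 0, 0, 0, 5201500, 0, 0, 0, ⟨0, 0⟩, 0⟩ 0 0) (.pos 23 .mp ⟨0, 0, 0, 0, 0, 7741794, 0, 0, 0, ⟨0, 0⟩, 0⟩ 0 0)) (.cut .l 1593835 (.cut .v 17301504 (.cut .s 8323072 (.cut .d (-262144) (.pos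 25 .mp ⟨0, 0, 0, 0, 0, 4356662, 0, 0, 0, ⟨0, 0⟩, 0⟩ 0 0) (.pos 25 .mp ⟨0, 0, 0, 0, 0, 3289611, 0, 0, 0, ⟨0, 0⟩, 0⟩ 0 0)) (.cut .d (-262144) (.pos 25 .mp ⟨343406, 0, 0, 0, 0, 6105346, 0, 0, 0, ⟨0, 0⟩, 0⟩ 0 0) (.cut .s 8454144 (.pos 25 .mp ⟨526087, 0, 0, 0, 0, 3662826, 0, 0, 0, ⟨0, 0⟩, 0⟩ 0 0) (.pos 25 .mp ⟨1125743, 0, 0, 0, 0, 3778993, 0, 0, 0, ⟨0, 0⟩, 0⟩ 0 0)))) (.pos 26 .mp ⟨4594860, 0, 0, 0, 0, 0, 0, 0, 0, ⟨0, 0⟩, 0⟩ 0 0)) (.pos 23 .mp ⟨1119672, 0, 0, 0, 0, 1623321, 0, 0, 0, ⟨0, 0⟩, 0⟩ 0 0))) (.cut .s 8323072 (.pos 24 .mp ⟨4753546, 0, 0, 0, 0, 0, 0, 0, 0, ⟨0, 0⟩, 0⟩ 0 0) (.pos 24 .mp ⟨6449548, 0, 0, 0, 0, 0, 0, 0, 0, ⟨0, 0⟩, 0⟩ 0 0))) (.pos 22 .mp ⟨8398727, 0,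 0, 0, 0, 0, 0, 0, 0, ⟨0, 0⟩, 0⟩ 0 0)))))) (.void 20 ⟨100000, 0, 0, 0, 0, 0, 0, 0, 0, ⟨0, 0⟩, 0⟩ 0 0)) (.void 18 ⟨100000, 0, 0, 0, 0, 0, 0, 0, 0, ⟨0, 0⟩, 0⟩ 0 0)) (.void 41 ⟨100000, 0, 0, 0, 0, 0, 0, 0, 0, ⟨0, 0⟩, 0⟩ 0 0))) (.cut .v 16777216 (.cut .v 8388608 (.cut .v 4194304 (.void 4 ⟨0, 0, 0, 0, 100000, 0, 0, 0, 0, ⟨0, 0⟩, 0⟩ 0 0) (.void 5 ⟨0, 0, 0, 0, 0, 0, 0, 0, 100000, ⟨0, 0⟩, 9975792⟩ 0 0)) (.cut .d 9070610 (.cut .v 12582912 (.pos 6 .pm ⟨0, 0, 0, 0, 0, 0, 0, 0, 1023502, ⟨0, 0⟩, 13128881⟩ 0 0) (.cut .d 4535305 (.cut .v 14680064 (.pos 10 .pm ⟨0, 0, 0, 0, 0, 0, 0, 1036175, 0, ⟨4118575, 4405858⟩, 0⟩ 123 167) (.pos 11 .pm ⟨0, 0, 0, 0, 0, 0, 0, 614873, 0, ⟨4118575,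 4405858⟩, 0⟩ 123 167)) (.pos 7 .pm ⟨0, 0, 0, 0, 0, 0, 0, 0, 2106338, ⟨0, 0⟩, 15612959⟩ 0 0))) (.void 3 ⟨0, 0, 0, 0, 0, 0, 0, 0, 100000, ⟨0, 0⟩, 14107901⟩ 0 0))) (.cut .v 33554432 (.cut .d 9070610 (.cut .v 25165824 (.cut .v 20971520 (.cut .d 4535305 (.pos 19 .pp ⟨414118, 0, 0, 0, 0, 0, 0, 0, 0, ⟨0, 0⟩, 0⟩ 0 0) (.pos 19 .pp ⟨0, 0, 0, 0, 0, 0, 0, 0, 1983817, ⟨0, 0⟩, 17739746⟩ 0 0)) (.pos 20 .pp ⟨506042, 0, 0, 0, 0, 0, 0, 0, 0, ⟨0, 0⟩, 0⟩ 0 0)) (.pos 18 .pp ⟨5201767, 0, 0, 0, 0, 0, 0, 0, 0, ⟨0, 0⟩, 0⟩ 0 0)) (.cut .v 25165824 (.pos 17 .pp ⟨0, 0, 0, 0, 0, 0, 0, 0, 12710978, ⟨0, 0⟩, 18567042⟩ 0 0) (.pos 18 .pp ⟨0, 14651186, 0, 0, 0, 0, 0, 0, 888585, ⟨0, 0⟩, 22080058⟩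 0 0))) (.cut .d 9070610 (.cut .d 4535305 (.pos 41 .pp ⟨90680421, 0, 0, 0, 0, 0, 0, 0, 0, ⟨0, 0⟩, 0⟩ 0 0) (.pos 41 .pp ⟨0, 0, 0, 0, 0, 0, 997418, 0, 0, ⟨0, 0⟩, 0⟩ 0 0)) (.void 41 ⟨0, 100000, 0, 0, 0, 0, 0, 0, 0, ⟨0, 0⟩, 0⟩ 0 0))))),
    by decide +kernel⟩

def covers10 : cell.Covers table row10.1 :=
  ⟨(.cut .d 0 (.cut .v 16777216 (.cut .d (-8388608) (.void 1 ⟨0, 0, 0, 0, 0, 100000, 0, 0, 0, ⟨0, 0⟩, 0⟩ 0 0) (.cut .d (-4194304) (.void 1 ⟨0, 0, 0, 0, 0, 100000, 0, 0, 0, ⟨0, 0⟩, 0⟩ 0 0) (.cut .d (-2097152) (.void 1 ⟨0, 0, 0, 0, 0, 100000, 0, 0, 0, ⟨0, 0⟩, 0⟩ 0 0) (.cut .d (-1048576) (.void 1 ⟨0, 0, 0, 0, 0, 100000, 0, 0, 0, ⟨0, 0⟩, 0⟩ 0 0) (.cut .v 8388608 (.cut .v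 4194304 (.void 4 ⟨0, 0, 50000, 0, 50000, 0, 0, 0, 0, ⟨0, 0⟩, 0⟩ 0 0) (.pos 5 .mm ⟨0, 0, 0, 0, 0, 2297926, 0, 0, 1819013, ⟨0, 0⟩, 9975792⟩ 0 0)) (.cut .v 12582912 (.pos 6 .mm ⟨0, 0, 0, 0, 0, 851303, 0, 0, 0, ⟨0, 0⟩, 0⟩ 0 0) (.cut .d (-524288) (.pos 7 .mm ⟨0, 0, 0, 0, 0, 10060668, 0, 0, 0, ⟨0, 0⟩, 0⟩ 0 0) (.cut .s 8814592 (.cut .d (-262144) (.pos 7 .mm ⟨0, 0, 0, 0, 0, 8106167, 0, 0, 0, ⟨0, 0⟩, 0⟩ 0 0) (.pos 7 .mm ⟨0, 0, 0, 0, 0, 5896505, 0, 0, 0, ⟨0, 0⟩, 0⟩ 0 0)) (.pos 7 .mm ⟨0, 0, 0, 0, 0, 8590287, 0, 0, 0, ⟨0, 0⟩, 0⟩ 0 0))))))))) (.cut .v 33554432 (.cut .v 25165824 (.cut .v 20971520 (.cut .d (-8388608) (.void 19 ⟨0, 0, 0, 0, 0, 100000, 0, 0, 0, ⟨0, 0⟩, 0⟩ 0 0)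 (.cut .d (-4194304) (.void 19 ⟨0, 0, 0, 0, 0, 100000, 0, 0, 0, ⟨0, 0⟩, 0⟩ 0 0) (.cut .d (-2097152) (.void 19 ⟨0, 0, 0, 0, 0, 100000, 0, 0, 0, ⟨0, 0⟩, 0⟩ 0 0) (.cut .d (-1048576) (.void 19 ⟨0, 0, 0, 0, 0, 100000, 0, 0, 0, ⟨0, 0⟩, 0⟩ 0 0) (.cut .v 18874368 (.cut .d (-524288) (.cut .v 17825792 (.cut .s 8814592 (.pos 23 .mp ⟨1151765, 0, 0, 0, 0, 8766335, 0, 0, 0, ⟨0, 0⟩, 0⟩ 0 0) (.pos 23 .mp ⟨2491196, 0, 0, 0, 0, 9950079, 0, 0, 0, ⟨0, 0⟩, 0⟩ 0 0)) (.pos 24 .mp ⟨11140062, 0, 0, 0, 0, 0, 0, 0, 0, ⟨0, 0⟩, 0⟩ 0 0)) (.cut .v 17825792 (.cut .s 8814592 (.cut .v 17301504 (.cut .d (-262144) (.pos 25 .mp ⟨662748, 0, 0, 0, 0, 7669259, 0, 0, 0, ⟨0, 0⟩, 0⟩ 0 0) (.cut .d (-131072)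 (.pos 25 .mp ⟨2129485, 0, 0, 0, 0, 4728958, 0, 0, 0, ⟨0, 0⟩, 0⟩ 0 0) (.pos 25 .mp ⟨1535609, 0, 0, 0, 0, 3540052, 0, 0, 0, ⟨0, 0⟩, 0⟩ 0 0))) (.pos 26 .mp ⟨6381560, 0, 0, 0, 0, 0, 0, 0, 0, ⟨0, 0⟩, 0⟩ 0 0)) (.cut .v 17301504 (.cut .d (-262144) (.pos 25 .mp ⟨1498695, 0, 0, 0, 0, 9101595, 0, 0, 0, ⟨0, 0⟩, 0⟩ 0 0) (.cut .d (-131072) (.cut .s 8929280 (.pos 25 .mp ⟨2212481, 0, 0, 0, 0, 6938138, 0, 0, 0, ⟨0, 0⟩, 0⟩ 0 0) (.pos 25 .mp ⟨2874399, 0, 0, 0, 0, 7277328, 0, 0, 0, ⟨0, 0⟩, 0⟩ 0 0)) (.pos 25 .mp ⟨2864103, 0, 0, 0, 0, 3731856, 0, 0, 0, ⟨0, 0⟩, 0⟩ 0 0))) (.pos 26 .mp ⟨8132383, 0, 0, 0, 0, 0, 0, 0, 0, ⟨0, 0⟩, 0⟩ 0 0))) (.pos 24 .mp ⟨8115146, 0, 0, 0, 0, 0, 0, 0, 0, ⟨0,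 0⟩, 0⟩ 0 0))) (.pos 22 .mp ⟨13152881, 0, 0, 0, 0, 0, 0, 0, 0, ⟨0, 0⟩, 0⟩ 0 0)))))) (.void 20 ⟨100000, 0, 0, 0, 0, 0, 0, 0, 0, ⟨0, 0⟩, 0⟩ 0 0)) (.void 18 ⟨100000, 0, 0, 0, 0, 0, 0, 0, 0, ⟨0, 0⟩, 0⟩ 0 0)) (.void 41 ⟨100000, 0, 0, 0, 0, 0, 0, 0, 0, ⟨0, 0⟩, 0⟩ 0 0))) (.cut .v 16777216 (.cut .v 8388608 (.cut .v 4194304 (.void 4 ⟨0, 0, 0, 0, 100000, 0, 0, 0, 0, ⟨0, 0⟩, 0⟩ 0 0) (.pos 5 .pm ⟨0, 0, 0, 0, 0, 0, 0, 0, 2801564, ⟨0, 0⟩, 9975792⟩ 0 0)) (.cut .d 8004398 (.cut .v 12582912 (.pos 6 .pm ⟨0, 0, 0, 0, 0, 0, 0, 0, 1207480, ⟨0, 0⟩, 13128881⟩ 0 0) (.cut .d 4002199 (.pos 7 .pm ⟨0, 0, 0, 0, 0, 0, 0, 0, 0, ⟨0, 0⟩, 0⟩ 0 0) (.pos 7 .pm ⟨0, 0, 0, 0, 0, 0, 0, 0, 1991134, ⟨0,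 0⟩, 15612959⟩ 0 0))) (.void 3 ⟨0, 0, 0, 0, 0, 0, 0, 0, 100000, ⟨0, 0⟩, 14107901⟩ 0 0))) (.cut .v 33554432 (.cut .d 8004398 (.cut .v 25165824 (.cut .v 20971520 (.cut .d 4002199 (.pos 19 .pp ⟨2006437, 0, 0, 0, 0, 0, 0, 0, 0, ⟨0, 0⟩, 0⟩ 0 0) (.pos 19 .pp ⟨0, 0, 0, 0, 0, 0, 0, 4652, 1595786, ⟨6015615, 1463728⟩, 17739746⟩ 162 216)) (.pos 20 .pp ⟨3935002, 0, 0, 0, 0, 0, 473021, 0, 0, ⟨0, 0⟩, 0⟩ 0 0)) (.pos 18 .pp ⟨12708713, 0, 0, 0, 0, 0, 900551, 0, 0, ⟨0, 0⟩, 0⟩ 0 0)) (.cut .v 25165824 (.pos 17 .pp ⟨0, 0, 0, 0, 0, 0, 0, 0, 7732311, ⟨0, 0⟩, 18567042⟩ 0 0) (.pos 18 .pp ⟨0, 12489891, 0, 0, 0, 0, 1269428, 0, 0, ⟨0, 0⟩, 0⟩ 0 0))) (.cut .v 50331648 (.cut .d 8004398 (.cut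 .d 4002199 (.pos 42 .pp ⟨77587487, 0, 0, 0, 0, 0, 0, 0, 0, ⟨0, 0⟩, 0⟩ 0 0) (.pos 42 .pp ⟨0, 0, 0, 0, 0, 0, 1692571, 0, 0, ⟨0, 0⟩, 0⟩ 0 0)) (.void 42 ⟨0, 100000, 0, 0, 0, 0, 0, 0, 0, ⟨0, 0⟩, 0⟩ 0 0)) (.void 43 ⟨38573, 61427, 0, 0, 0, 0, 0, 0, 0, ⟨0, 0⟩, 0⟩ 0 0))))),
    by decide +kernel⟩

def covers11 : cell.Covers table row11.1 :=
  ⟨(.cut .d 0 (.cut .v 16777216 (.cut .d (-8388608) (.void 1 ⟨0, 0, 0, 0, 0, 100000, 0, 0, 0, ⟨0, 0⟩, 0⟩ 0 0) (.cut .d (-4194304) (.void 1 ⟨0, 0, 0, 0, 0, 100000, 0, 0, 0, ⟨0, 0⟩, 0⟩ 0 0) (.cut .d (-2097152) (.void 1 ⟨0, 0, 0, 0, 0, 100000, 0, 0, 0, ⟨0, 0⟩, 0⟩ 0 0) (.cut .d (-1048576) (.void 1 ⟨0, 0, 0, 0, 0, 100000, 0, 0, 0, ⟨0, 0⟩,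 0⟩ 0 0) (.cut .v 8388608 (.cut .v 4194304 (.void 4 ⟨0, 0, 100000, 0, 0, 0, 0, 0, 0, ⟨0, 0⟩, 0⟩ 0 0) (.pos 5 .mm ⟨0, 0, 0, 0, 0, 1639233, 0, 0, 698238, ⟨0, 0⟩, 9975792⟩ 0 0)) (.cut .v 12582912 (.pos 6 .mm ⟨0, 0, 0, 0, 0, 2773687, 0, 0, 0, ⟨0, 0⟩, 0⟩ 0 0) (.cut .d (-524288) (.pos 7 .mm ⟨0, 0, 0, 0, 0, 17591044, 0, 0, 0, ⟨0, 0⟩, 0⟩ 0 0) (.cut .s 9306112 (.cut .s 9175040 (.pos 7 .mm ⟨0, 0, 0, 0, 0, 10182128, 0, 0, 0, ⟨0, 0⟩, 0⟩ 0 0) (.pos 7 .mm ⟨0, 0, 0, 0, 0, 11741400, 0, 0, 0, ⟨0, 0⟩, 0⟩ 0 0)) (.pos 7 .mm ⟨0, 0, 0, 0, 0, 15034857, 0, 0, 0, ⟨0, 0⟩, 0⟩ 0 0))))))))) (.cut .v 33554432 (.cut .v 25165824 (.cut .v 20971520 (.cut .d (-8388608) (.void 19 ⟨0, 0, 0, 0, 0, 100000,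 0, 0, 0, ⟨0, 0⟩, 0⟩ 0 0) (.cut .d (-4194304) (.void 19 ⟨0, 0, 0, 0, 0, 100000, 0, 0, 0, ⟨0, 0⟩, 0⟩ 0 0) (.cut .d (-2097152) (.void 19 ⟨0, 0, 0, 0, 0, 100000, 0, 0, 0, ⟨0, 0⟩, 0⟩ 0 0) (.cut .d (-1048576) (.void 19 ⟨0, 0, 0, 0, 0, 100000, 0, 0, 0, ⟨0, 0⟩, 0⟩ 0 0) (.cut .v 18874368 (.cut .d (-524288) (.cut .v 17825792 (.cut .s 9306112 (.pos 23 .mp ⟨4169981, 0, 0, 0, 0, 11720107, 0, 0, 0, ⟨0, 0⟩, 0⟩ 0 0) (.pos 23 .mp ⟨6455589, 0, 0, 0, 0, 13954042, 0, 0, 0, ⟨0, 0⟩, 0⟩ 0 0)) (.pos 24 .mp ⟨18386783, 0, 0, 0, 0, 0, 0, 0, 0, ⟨0, 0⟩, 0⟩ 0 0)) (.cut .s 9306112 (.cut .v 17825792 (.cut .s 9175040 (.cut .v 17301504 (.cut .d (-262144) (.pos 25 .mp ⟨3449751, 0, 0, 0, 0, 8548958,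 0, 0, 0, ⟨0, 0⟩, 0⟩ 0 0) (.cut .d (-131072) (.pos 25 .mp ⟨4014319, 0, 0, 0, 0, 6993100, 0, 0, 0, ⟨0, 0⟩, 0⟩ 0 0) (.pos 25 .mp ⟨3776714, 0, 0, 0, 0, 4696269, 0, 0, 0, ⟨0, 0⟩, 0⟩ 0 0))) (.pos 26 .mp ⟨9662725, 0, 0, 0, 0, 155557, 0, 0, 0, ⟨0, 0⟩, 0⟩ 0 0)) (.cut .v 17301504 (.cut .d (-262144) (.pos 25 .mp ⟨4172461, 0, 0, 0, 0, 9474612, 0, 0, 0, ⟨0, 0⟩, 0⟩ 0 0) (.cut .d (-131072) (.pos 25 .mp ⟨5245937, 0, 0, 0, 0, 6943679, 0, 0, 0, ⟨0, 0⟩, 0⟩ 0 0) (.pos 25 .mp ⟨4722929, 0, 0, 0, 0, 4985938, 0, 0, 0, ⟨0, 0⟩, 0⟩ 0 0))) (.pos 26 .mp ⟨11095139, 0, 0, 0, 0, 0, 0, 0, 0, ⟨0, 0⟩, 0⟩ 0 0))) (.pos 24 .mp ⟨11432123, 0, 0, 0, 0, 0, 0, 0, 0, ⟨0, 0⟩, 0⟩ 0 0)) (.cut .v 17825792 (.cut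 .v 17301504 (.cut .l 1593835 (.cut .d (-262144) (.pos 25 .mp ⟨4950057, 0, 0, 0, 0, 13282087, 0, 0, 0, ⟨0, 0⟩, 0⟩ 0 0) (.cut .l 1027604 (.cut .d (-131072) (.cut .s 9437184 (.pos 25 .mp ⟨5295696, 0, 0, 0, 0, 9504702, 0, 0, 0, ⟨0, 0⟩, 0⟩ 0 0) (.pos 25 .mp ⟨6296291, 0, 0, 0, 0, 10402742, 0, 0, 0, ⟨0, 0⟩, 0⟩ 0 0)) (.cut .s 9437184 (.pos 25 .mp ⟨5765862, 0, 0, 0, 0, 5331115, 0, 0, 0, ⟨0, 0⟩, 0⟩ 0 0) (.pos 25 .mp ⟨6881515, 0, 0, 0, 0, 5775094, 0, 0, 0, ⟨0, 0⟩, 0⟩ 0 0))) (.pos 25 .mp ⟨7216683, 0, 0, 0, 0, 3848912, 0, 0, 0, ⟨0, 0⟩, 0⟩ 0 0))) (.pos 25 .mp ⟨2802951, 0, 0, 0, 0, 12021808, 0, 0, 0, ⟨0, 0⟩, 0⟩ 0 0)) (.cut .s 9437184 (.pos 26 .mp ⟨12540327, 0, 0, 0, 0, 0, 0,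 0, 0, ⟨0, 0⟩, 0⟩ 0 0) (.pos 26 .mp ⟨14116186, 0, 0, 0, 0, 0, 0, 0, 0, ⟨0, 0⟩, 0⟩ 0 0))) (.pos 24 .mp ⟨14561678, 0, 0, 0, 0, 0, 0, 0, 0, ⟨0, 0⟩, 0⟩ 0 0)))) (.pos 22 .mp ⟨21488001, 0, 0, 0, 0, 0, 0, 0, 0, ⟨0, 0⟩, 0⟩ 0 0)))))) (.void 20 ⟨100000, 0, 0, 0, 0, 0, 0, 0, 0, ⟨0, 0⟩, 0⟩ 0 0)) (.void 18 ⟨100000, 0, 0, 0, 0, 0, 0, 0, 0, ⟨0, 0⟩, 0⟩ 0 0)) (.void 41 ⟨100000, 0, 0, 0, 0, 0, 0, 0, 0, ⟨0, 0⟩, 0⟩ 0 0))) (.cut .v 16777216 (.cut .v 8388608 (.cut .v 4194304 (.void 4 ⟨0, 0, 50000, 0, 50000, 0, 0, 0, 0, ⟨0, 0⟩, 0⟩ 0 0) (.pos 5 .pm ⟨0, 0, 0, 0, 0, 0, 0, 0, 1113459, ⟨0, 0⟩, 9975792⟩ 0 0)) (.cut .d 7172869 (.cut .v 12582912 (.pos 6 .pm ⟨0, 0, 0, 0, 0, 0, 0, 2091592, 865726,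 ⟨5382913, 2218263⟩, 13128881⟩ 138 225) (.cut .d 3586434 (.pos 7 .pm ⟨0, 0, 0, 0, 0, 0, 0, 0, 0, ⟨0, 0⟩, 0⟩ 0 0) (.pos 7 .pm ⟨0, 0, 0, 0, 0, 0, 0, 545985, 1975110, ⟨6200466, 1214457⟩, 15612959⟩ 167 225))) (.pos 3 .pm ⟨0, 0, 0, 0, 0, 0, 0, 0, 10585852, ⟨0, 0⟩, 14107901⟩ 0 0))) (.cut .v 33554432 (.cut .d 7172869 (.cut .d 3586434 (.cut .v 25165824 (.cut .v 20971520 (.cut .v 18874368 (.cut .s 9306112 (.pos 21 .pp ⟨3370498, 0, 0, 0, 0, 0, 0, 0, 0, ⟨0, 0⟩, 0⟩ 0 0) (.pos 21 .pp ⟨5564254, 0, 0, 0, 0, 0, 0, 0, 0, ⟨0, 0⟩, 0⟩ 0 0)) (.pos 22 .pp ⟨8510913, 0, 0, 0, 0, 0, 0, 0, 0, ⟨0, 0⟩, 0⟩ 0 0)) (.pos 20 .pp ⟨14465992, 0, 0, 0, 0, 0, 0, 0, 0, ⟨0, 0⟩, 0⟩ 0 0)) (.pos 18 .pp ⟨33642847,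 0, 0, 0, 0, 0, 0, 0, 0, ⟨0, 0⟩, 0⟩ 0 0)) (.pos 16 .pp ⟨0, 0, 0, 0, 0, 0, 0, 2374787, 848714, ⟨6200466, 1214457⟩, 19951585⟩ 167 225)) (.cut .d 10759303 (.pos 16 .pp ⟨0, 117287, 0, 0, 0, 0, 0, 0, 3891911, ⟨0, 0⟩, 19951585⟩ 0 0) (.void 16 ⟨0, 86187, 0, 0, 0, 0, 0, 0, 13813, ⟨0, 0⟩, 19951585⟩ 0 0))) (.cut .v 50331648 (.cut .d 7172869 (.cut .d 3586434 (.pos 42 .pp ⟨117279484, 0, 0, 0, 0, 0, 0, 0, 0, ⟨0, 0⟩, 0⟩ 0 0) (.pos 42 .pp ⟨0, 0, 0, 0, 0, 0, 2281194, 0, 0, ⟨0, 0⟩, 0⟩ 0 0)) (.void 42 ⟨0, 100000, 0, 0, 0, 0, 0, 0, 0, ⟨0, 0⟩, 0⟩ 0 0)) (.void 43 ⟨38048, 61952, 0, 0, 0, 0, 0, 0, 0, ⟨0, 0⟩, 0⟩ 0 0))))),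
    by decide +kernel⟩

def covers12 : cell.Covers table row12.1 :=
  ⟨(.cut .d 0 (.cut .v 16777216 (.cut .d (-8388608) (.void 1 ⟨0, 0, 0, 0, 0, 100000, 0, 0, 0, ⟨0, 0⟩, 0⟩ 0 0) (.cut .d (-4194304) (.void 1 ⟨0, 0, 0, 0, 0, 100000, 0, 0, 0, ⟨0, 0⟩, 0⟩ 0 0) (.cut .d (-2097152) (.void 1 ⟨0, 0, 0, 0, 0, 100000, 0, 0, 0, ⟨0, 0⟩, 0⟩ 0 0) (.cut .d (-1048576) (.void 1 ⟨0, 0, 0, 0, 0, 100000, 0, 0, 0, ⟨0, 0⟩, 0⟩ 0 0) (.cut .v 8388608 (.cut .v 4194304 (.void 4 ⟨0, 0, 100000, 0, 0, 0, 0, 0, 0, ⟨0, 0⟩, 0⟩ 0 0) (.pos 5 .mm ⟨0, 0, 0, 0, 0, 1665051, 0, 0, 0, ⟨0, 0⟩, 0⟩ 0 0)) (.cut .v 12582912 (.pos 6 .mm ⟨0, 0, 0, 0, 0, 7528156, 0, 0, 0, ⟨0, 0⟩, 0⟩ 0 0) (.cut .d (-524288) (.pos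 7 .mm ⟨0, 0, 0, 0, 0, 30495182, 0, 0, 0, ⟨0, 0⟩, 0⟩ 0 0) (.cut .s 9830400 (.pos 7 .mm ⟨0, 0, 0, 0, 0, 19617984, 0, 0, 0, ⟨0, 0⟩, 0⟩ 0 0) (.pos 7 .mm ⟨0, 0, 0, 0, 0, 25353975, 0, 0, 0, ⟨0, 0⟩, 0⟩ 0 0))))))))) (.cut .v 67108864 (.cut .v 33554432 (.cut .v 25165824 (.cut .v 20971520 (.cut .d (-8388608) (.void 19 ⟨0, 0, 0, 0, 0, 100000, 0, 0, 0, ⟨0, 0⟩, 0⟩ 0 0) (.cut .d (-4194304) (.void 19 ⟨0, 0, 0, 0, 0, 100000, 0, 0, 0, ⟨0, 0⟩, 0⟩ 0 0) (.cut .d (-2097152) (.void 19 ⟨0, 0, 0, 0, 0, 100000, 0, 0, 0, ⟨0, 0⟩, 0⟩ 0 0) (.cut .d (-1048576) (.void 19 ⟨0, 0, 0, 0, 0, 100000, 0, 0, 0, ⟨0, 0⟩, 0⟩ 0 0) (.cut .v 18874368 (.cut .d (-524288) (.cut .v 17825792 (.cut .s 9830400 (.pos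 23 .mp ⟨9153458, 0, 0, 0, 0, 16839855, 0, 0, 0, ⟨0, 0⟩, 0⟩ 0 0) (.pos 23 .mp ⟨12411010, 0, 0, 0, 0, 22614431, 0, 0, 0, ⟨0, 0⟩, 0⟩ 0 0)) (.void 24 ⟨100000, 0, 0, 0, 0, 0, 0, 0, 0, ⟨0, 0⟩, 0⟩ 0 0)) (.cut .v 17825792 (.cut .s 9830400 (.cut .d (-262144) (.cut .v 17301504 (.cut .s 9699328 (.pos 25 .mp ⟨6063195, 0, 0, 0, 0, 14207391, 0, 0, 0, ⟨0, 0⟩, 0⟩ 0 0) (.pos 25 .mp ⟨7176944, 0, 0, 0, 0, 15503811, 0, 0, 0, ⟨0, 0⟩, 0⟩ 0 0)) (.cut .s 9699328 (.pos 26 .mp ⟨14896930, 0, 0, 0, 0, 1552939, 0, 0, 0, ⟨0, 0⟩, 0⟩ 0 0) (.pos 26 .mp ⟨16099493, 0, 0, 0, 0, 2650398, 0, 0, 0, ⟨0, 0⟩, 0⟩ 0 0))) (.cut .v 17301504 (.cut .l 1593835 (.cut .l 1027604 (.cut .d (-131072) (.cut .s 9699328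 (.pos 25 .mp ⟨7378484, 0, 0, 0, 0, 11428109, 0, 0, 0, ⟨0, 0⟩, 0⟩ 0 0) (.pos 25 .mp ⟨8600244, 0, 0, 0, 0, 12564561, 0, 0, 0, ⟨0, 0⟩, 0⟩ 0 0)) (.cut .d (-65536) (.cut .v 17039360 (.cut .s 9699328 (.pos 44 .mp ⟨6106344, 0, 0, 0, 0, 11202957, 0, 0, 0, ⟨0, 0⟩, 0⟩ 0 0) (.pos 44 .mp ⟨7202279, 0, 0, 0, 0, 12449219, 0, 0, 0, ⟨0, 0⟩, 0⟩ 0 0)) (.pos 45 .mp ⟨15258762, 0, 0, 0, 0, 0, 0, 0, 0, ⟨0, 0⟩, 0⟩ 0 0)) (.pos 25 .mp ⟨7601808, 0, 0, 0, 0, 0, 0, 0, 0, ⟨0, 0⟩, 0⟩ 0 0))) (.pos 25 .mp ⟨10381033, 0, 0, 0, 0, 3723766, 0, 0, 0, ⟨0, 0⟩, 0⟩ 0 0)) (.pos 25 .mp ⟨0, 0, 0, 0, 0, 0, 0, 0, 0, ⟨0, 0⟩, 0⟩ 0 0)) (.pos 26 .mp ⟨15747600, 0, 0, 0, 0, 0, 0, 0, 0, ⟨0, 0⟩, 0⟩ 0 0))) (.cut .d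 (-262144) (.cut .v 17301504 (.cut .l 1593835 (.pos 25 .mp ⟨9764534, 0, 0, 0, 0, 19131712, 0, 0, 0, ⟨0, 0⟩, 0⟩ 0 0) (.pos 25 .mp ⟨428103, 0, 0, 0, 0, 28217635, 0, 0, 0, ⟨0, 0⟩, 0⟩ 0 0)) (.cut .s 9961472 (.pos 26 .mp ⟨18472030, 0, 0, 0, 0, 2350080, 0, 0, 0, ⟨0, 0⟩, 0⟩ 0 0) (.pos 26 .mp ⟨21064457, 0, 0, 0, 0, 1995627, 0, 0, 0, ⟨0, 0⟩, 0⟩ 0 0))) (.cut .v 17301504 (.cut .l 1593835 (.cut .d (-131072) (.cut .l 1027604 (.cut .s 9961472 (.pos 25 .mp ⟨9916259, 0, 0, 0, 0, 13855673, 0, 0, 0, ⟨0, 0⟩, 0⟩ 0 0) (.pos 25 .mp ⟨11348527, 0, 0, 0, 0, 15259120, 0, 0, 0, ⟨0, 0⟩, 0⟩ 0 0)) (.pos 25 .mp ⟨12684964, 0, 0, 0, 0, 7626267, 0, 0, 0, ⟨0, 0⟩, 0⟩ 0 0)) (.cut .d (-65536) (.cut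 .v 17039360 (.cut .s 9961472 (.pos 44 .mp ⟨8402532, 0, 0, 0, 0, 13815605, 0, 0, 0, ⟨0, 0⟩, 0⟩ 0 0) (.pos 44 .mp ⟨9712176, 0, 0, 0, 0, 15280963, 0, 0, 0, ⟨0, 0⟩, 0⟩ 0 0)) (.pos 45 .mp ⟨18658580, 0, 0, 0, 0, 0, 0, 0, 0, ⟨0, 0⟩, 0⟩ 0 0)) (.pos 25 .mp ⟨10408233, 0, 0, 0, 0, 0, 0, 0, 0, ⟨0, 0⟩, 0⟩ 0 0))) (.pos 25 .mp ⟨0, 0, 0, 0, 0, 0, 0, 0, 0, ⟨0, 0⟩, 0⟩ 0 0)) (.pos 26 .mp ⟨19761863, 0, 0, 0, 0, 0, 0, 0, 0, ⟨0, 0⟩, 0⟩ 0 0)))) (.cut .s 9830400 (.pos 24 .mp ⟨18361226, 0, 0, 0, 0, 0, 0, 0, 0, ⟨0, 0⟩, 0⟩ 0 0) (.pos 24 .mp ⟨23162205, 0, 0, 0, 0, 0, 0, 0, 0, ⟨0, 0⟩, 0⟩ 0 0)))) (.pos 22 .mp ⟨34043203, 0, 0, 0, 0, 0, 0, 0, 0, ⟨0, 0⟩, 0⟩ 0 0)))))) (.void 20 ⟨100000, 0, 0, 0,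 0, 0, 0, 0, 0, ⟨0, 0⟩, 0⟩ 0 0)) (.void 18 ⟨100000, 0, 0, 0, 0, 0, 0, 0, 0, ⟨0, 0⟩, 0⟩ 0 0)) (.void 41 ⟨100000, 0, 0, 0, 0, 0, 0, 0, 0, ⟨0, 0⟩, 0⟩ 0 0)) (.void 52 ⟨100000, 0, 0, 0, 0, 0, 0, 0, 0, ⟨0, 0⟩, 0⟩ 0 0))) (.cut .v 16777216 (.cut .v 8388608 (.cut .v 4194304 (.void 4 ⟨0, 0, 50000, 0, 50000, 0, 0, 0, 0, ⟨0, 0⟩, 0⟩ 0 0) (.pos 5 .pm ⟨0, 0, 0, 0, 0, 0, 0, 0, 3732821, ⟨0, 0⟩, 9975792⟩ 0 0)) (.cut .d 6320185 (.cut .v 12582912 (.pos 6 .pm ⟨0, 0, 0, 0, 0, 0, 0, 3695904, 389813, ⟨5689148, 1813700⟩, 13128881⟩ 146 233) (.pos 7 .pm ⟨0, 0, 0, 0, 0, 0, 0, 0, 0, ⟨0, 0⟩, 0⟩ 0 0)) (.cut .d 9480278 (.cut .v 12582912 (.pos 6 .pm ⟨0, 0, 0, 0, 0, 0, 0, 0, 8828739, ⟨0, 0⟩, 13128881⟩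 0 0) (.pos 7 .pm ⟨0, 0, 0, 0, 0, 0, 0, 0, 7717892, ⟨0, 0⟩, 15612959⟩ 0 0)) (.void 3 ⟨0, 71668, 0, 0, 0, 0, 0, 0, 28332, ⟨0, 0⟩, 14107901⟩ 0 0)))) (.cut .v 67108864 (.cut .v 33554432 (.cut .d 6320185 (.cut .d 3160092 (.cut .v 25165824 (.cut .v 20971520 (.cut .v 18874368 (.cut .v 17825792 (.pos 23 .pp ⟨7791939, 0, 0, 0, 0, 0, 0, 0, 0, ⟨0, 0⟩, 0⟩ 0 0) (.pos 24 .pp ⟨11050826, 0, 0, 0, 0, 0, 0, 0, 0, ⟨0, 0⟩, 0⟩ 0 0)) (.pos 22 .pp ⟨14819014, 0, 0, 0, 0, 0, 0, 0, 0, ⟨0, 0⟩, 0⟩ 0 0)) (.pos 20 .pp ⟨23893191, 0, 0, 0, 0, 0, 0, 0, 0, ⟨0, 0⟩, 0⟩ 0 0)) (.pos 18 .pp ⟨52316466, 0, 0, 0, 0, 0, 0, 0, 0, ⟨0, 0⟩, 0⟩ 0 0)) (.pos 16 .pp ⟨0, 0, 0, 0, 0, 0, 0, 6253367, 0, ⟨6384735, 975722⟩,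 0⟩ 173 233)) (.pos 16 .pp ⟨0, 9233748, 0, 0, 0, 0, 0, 0, 2730304, ⟨0, 0⟩, 19951585⟩ 0 0)) (.cut .v 50331648 (.cut .d 6320185 (.cut .d 3160092 (.pos 42 .pp ⟨167988535, 0, 0, 0, 0, 0, 0, 0, 0, ⟨0, 0⟩, 0⟩ 0 0) (.pos 42 .pp ⟨0, 0, 0, 0, 0, 0, 2943949, 0, 0, ⟨0, 0⟩, 0⟩ 0 0)) (.void 42 ⟨0, 100000, 0, 0, 0, 0, 0, 0, 0, ⟨0, 0⟩, 0⟩ 0 0)) (.void 43 ⟨37646, 62354, 0, 0, 0, 0, 0, 0, 0, ⟨0, 0⟩, 0⟩ 0 0))) (.void 52 ⟨37646, 62354, 0, 0, 0, 0, 0, 0, 0, ⟨0, 0⟩, 0⟩ 0 0)))),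
    by decide +kernel⟩

def covers13 : cell.Covers table row13.1 :=
  ⟨(.cut .d 0 (.cut .v 16777216 (.cut .d (-8388608) (.void 1 ⟨0, 0, 0, 0, 0, 100000, 0, 0, 0, ⟨0, 0⟩, 0⟩ 0 0) (.cut .d (-4194304) (.void 1 ⟨0, 0, 0, 0, 0, 100000, 0, 0, 0, ⟨0, 0⟩, 0⟩ 0 0) (.cut .d (-2097152) (.void 1 ⟨0, 0, 0, 0, 0, 100000, 0, 0, 0, ⟨0, 0⟩, 0⟩ 0 0) (.cut .d (-1048576) (.void 1 ⟨0, 0, 0, 0, 0, 100000, 0, 0, 0, ⟨0, 0⟩, 0⟩ 0 0) (.cut .d (-524288) (.void 1 ⟨0, 0, 0, 0, 0, 100000, 0, 0, 0, ⟨0, 0⟩, 0⟩ 0 0) (.cut .v 8388608 (.cut .v 4194304 (.void 4 ⟨0, 0, 100000, 0, 0, 0, 0, 0, 0, ⟨0, 0⟩, 0⟩ 0 0) (.pos 5 .mm ⟨0, 0, 0, 0, 0, 2687118, 0, 0, 0, ⟨0, 0⟩, 0⟩ 0 0)) (.cut .s 10289152 (.pos 3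 .mm ⟨0, 0, 0, 0, 0, 30842457, 0, 0, 0, ⟨0, 0⟩, 0⟩ 0 0) (.pos 3 .mm ⟨0, 0, 0, 0, 0, 36994590, 0, 0, 0, ⟨0, 0⟩, 0⟩ 0 0)))))))) (.cut .v 67108864 (.cut .v 33554432 (.cut .v 25165824 (.cut .v 20971520 (.cut .d (-8388608) (.void 19 ⟨0, 0, 0, 0, 0, 100000, 0, 0, 0, ⟨0, 0⟩, 0⟩ 0 0) (.cut .d (-4194304) (.void 19 ⟨0, 0, 0, 0, 0, 100000, 0, 0, 0, ⟨0, 0⟩, 0⟩ 0 0) (.cut .d (-2097152) (.void 19 ⟨0, 0, 0, 0, 0, 100000, 0, 0, 0, ⟨0, 0⟩, 0⟩ 0 0) (.cut .d (-1048576) (.void 19 ⟨0, 0, 0, 0, 0, 100000, 0, 0, 0, ⟨0, 0⟩, 0⟩ 0 0) (.cut .d (-524288) (.void 19 ⟨0, 0, 0, 0, 0, 100000, 0, 0, 0, ⟨0, 0⟩, 0⟩ 0 0) (.cut .v 18874368 (.cut .v 17825792 (.cut .d (-262144) (.cut .s 10289152 (.cut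 .l 1593835 (.pos 23 .mp ⟨14457238, 0, 0, 0, 0, 21400372, 0, 0, 0, ⟨0, 0⟩, 0⟩ 0 0) (.cut .v 17301504 (.pos 25 .mp ⟨3388084, 0, 0, 0, 0, 30960603, 0, 0, 0, ⟨0, 0⟩, 0⟩ 0 0) (.cut .s 10190848 (.pos 26 .mp ⟨21049384, 0, 0, 0, 0, 5052953, 0, 0, 0, ⟨0, 0⟩, 0⟩ 0 0) (.pos 26 .mp ⟨23130637, 0, 0, 0, 0, 5137060, 0, 0, 0, ⟨0, 0⟩, 0⟩ 0 0)))) (.cut .l 1593835 (.pos 23 .mp ⟨17818906, 0, 0, 0, 0, 24195858, 0, 0, 0, ⟨0, 0⟩, 0⟩ 0 0) (.cut .v 17301504 (.pos 25 .mp ⟨2604193, 0, 0, 0, 0, 38937743, 0, 0, 0, ⟨0, 0⟩, 0⟩ 0 0) (.cut .s 10387456 (.pos 26 .mp ⟨25056108, 0, 0, 0, 0, 5739682, 0, 0, 0, ⟨0, 0⟩, 0⟩ 0 0) (.pos 26 .mp ⟨27043314, 0, 0, 0, 0, 6493512, 0, 0, 0, ⟨0, 0⟩, 0⟩ 0 0)))))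 (.cut .l 1593835 (.cut .s 10289152 (.cut .v 17301504 (.cut .d (-131072) (.cut .s 10190848 (.pos 25 .mp ⟨12215534, 0, 0, 0, 0, 16764007, 0, 0, 0, ⟨0, 0⟩, 0⟩ 0 0) (.pos 25 .mp ⟨13349254, 0, 0, 0, 0, 18181942, 0, 0, 0, ⟨0, 0⟩, 0⟩ 0 0)) (.cut .d (-65536) (.cut .v 17039360 (.cut .s 10190848 (.pos 44 .mp ⟨11181409, 0, 0, 0, 0, 15985557, 0, 0, 0, ⟨0, 0⟩, 0⟩ 0 0) (.pos 44 .mp ⟨12401605, 0, 0, 0, 0, 17158771, 0, 0, 0, ⟨0, 0⟩, 0⟩ 0 0)) (.pos 45 .mp ⟨22940104, 0, 0, 0, 0, 0, 0, 0, 0, ⟨0, 0⟩, 0⟩ 0 0)) (.pos 25 .mp ⟨13143824, 0, 0, 0, 0, 0, 0, 0, 0, ⟨0, 0⟩, 0⟩ 0 0))) (.pos 26 .mp ⟨24967408, 0, 0, 0, 0, 0, 0, 0, 0, ⟨0, 0⟩, 0⟩ 0 0)) (.cut .v 17301504 (.cut .d (-131072) (.cut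 .s 10387456 (.pos 25 .mp ⟨14544701, 0, 0, 0, 0, 19736802, 0, 0, 0, ⟨0, 0⟩, 0⟩ 0 0) (.pos 25 .mp ⟨15820699, 0, 0, 0, 0, 21396475, 0, 0, 0, ⟨0, 0⟩, 0⟩ 0 0)) (.cut .d (-65536) (.cut .v 17039360 (.cut .s 10387456 (.pos 44 .mp ⟨13692675, 0, 0, 0, 0, 18444437, 0, 0, 0, ⟨0, 0⟩, 0⟩ 0 0) (.pos 44 .mp ⟨15057743, 0, 0, 0, 0, 19829779, 0, 0, 0, ⟨0, 0⟩, 0⟩ 0 0)) (.pos 45 .mp ⟨26936164, 0, 0, 0, 0, 0, 0, 0, 0, ⟨0, 0⟩, 0⟩ 0 0)) (.pos 25 .mp ⟨15965571, 0, 0, 0, 0, 0, 0, 0, 0, ⟨0, 0⟩, 0⟩ 0 0))) (.pos 26 .mp ⟨29290329, 0, 0, 0, 0, 0, 0, 0, 0, ⟨0, 0⟩, 0⟩ 0 0))) (.pos 23 .mp ⟨17757522, 0, 0, 0, 0, 0, 0, 0, 0, ⟨0, 0⟩, 0⟩ 0 0))) (.cut .s 10289152 (.pos 24 .mp ⟨27831723, 0, 0, 0, 0,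 0, 0, 0, 0, ⟨0, 0⟩, 0⟩ 0 0) (.pos 24 .mp ⟨32719688, 0, 0, 0, 0, 0, 0, 0, 0, ⟨0, 0⟩, 0⟩ 0 0))) (.pos 22 .mp ⟨38960863, 0, 0, 0, 0, 0, 0, 0, 0, ⟨0, 0⟩, 0⟩ 0 0))))))) (.void 20 ⟨100000, 0, 0, 0, 0, 0, 0, 0, 0, ⟨0, 0⟩, 0⟩ 0 0)) (.void 18 ⟨100000, 0, 0, 0, 0, 0, 0, 0, 0, ⟨0, 0⟩, 0⟩ 0 0)) (.void 41 ⟨100000, 0, 0, 0, 0, 0, 0, 0, 0, ⟨0, 0⟩, 0⟩ 0 0)) (.void 52 ⟨100000, 0, 0, 0, 0, 0, 0, 0, 0, ⟨0, 0⟩, 0⟩ 0 0))) (.cut .v 16777216 (.cut .v 8388608 (.cut .v 4194304 (.void 4 ⟨0, 0, 50000, 0, 50000, 0, 0, 0, 0, ⟨0, 0⟩, 0⟩ 0 0) (.pos 5 .pm ⟨0, 0, 0, 0, 0, 0, 0, 0, 5467327, ⟨0, 0⟩, 9975792⟩ 0 0)) (.cut .d 5556092 (.cut .d 2778046 (.pos 3 .pm ⟨0, 0, 0, 0, 0, 0, 0, 0, 0, ⟨0, 0⟩,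 0⟩ 0 0) (.pos 3 .pm ⟨0, 0, 0, 0, 0, 0, 0, 1399063, 3207772, ⟨6511257, 822016⟩, 14107901⟩ 179 234)) (.cut .d 8334138 (.cut .v 12582912 (.pos 6 .pm ⟨0, 0, 0, 0, 0, 0, 0, 0, 9928211, ⟨0, 0⟩, 13128881⟩ 0 0) (.pos 7 .pm ⟨0, 2365936, 0, 0, 0, 0, 0, 0, 5459688, ⟨0, 0⟩, 15612959⟩ 0 0)) (.cut .v 12582912 (.void 6 ⟨0, 0, 0, 0, 0, 0, 0, 0, 100000, ⟨0, 0⟩, 13128881⟩ 0 0) (.pos 7 .pm ⟨0, 15012959, 0, 0, 0, 0, 0, 0, 8315651, ⟨0, 0⟩, 15612959⟩ 0 0))))) (.cut .v 67108864 (.cut .d 5556092 (.cut .d 2778046 (.cut .v 33554432 (.cut .d 1389023 (.cut .v 25165824 (.cut .v 20971520 (.cut .v 18874368 (.pos 21 .pp ⟨16333562, 0, 0, 0, 0, 0, 0, 0, 0, ⟨0, 0⟩, 0⟩ 0 0) (.pos 22 .pp ⟨26908742,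 0, 0, 0, 0, 0, 0, 0, 0, ⟨0, 0⟩, 0⟩ 0 0)) (.pos 20 .pp ⟨40569465, 0, 0, 0, 0, 0, 0, 0, 0, ⟨0, 0⟩, 0⟩ 0 0)) (.pos 18 .pp ⟨88256958, 0, 0, 0, 0, 0, 0, 0, 0, ⟨0, 0⟩, 0⟩ 0 0)) (.pos 16 .pp ⟨0, 0, 0, 0, 0, 0, 0, 0, 0, ⟨0, 0⟩, 0⟩ 0 0)) (.cut .d 1389023 (.void 41 ⟨100000, 0, 0, 0, 0, 0, 0, 0, 0, ⟨0, 0⟩, 0⟩ 0 0) (.pos 41 .pp ⟨181349464, 0, 0, 0, 0, 0, 0, 0, 0, ⟨0, 0⟩, 0⟩ 0 0))) (.pos 40 .pp ⟨0, 0, 0, 0, 0, 0, 2230043, 0, 0, ⟨0, 0⟩, 0⟩ 0 0)) (.pos 40 .pp ⟨0, 14918262, 0, 0, 0, 0, 0, 0, 0, ⟨0, 0⟩, 0⟩ 0 0)) (.void 52 ⟨37538, 62462, 0, 0, 0, 0, 0, 0, 0, ⟨0, 0⟩, 0⟩ 0 0)))),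
    by decide +kernel⟩

def covers14 : cell.Covers table row14.1 :=
  ⟨(.cut .d 0 (.cut .v 16777216 (.cut .d (-8388608) (.void 1 ⟨0, 0, 0, 0, 0, 100000, 0, 0, 0, ⟨0, 0⟩, 0⟩ 0 0) (.cut .d (-4194304) (.void 1 ⟨0, 0, 0, 0, 0, 100000, 0, 0, 0, ⟨0, 0⟩, 0⟩ 0 0) (.cut .d (-2097152) (.void 1 ⟨0, 0, 0, 0, 0, 100000, 0, 0, 0, ⟨0, 0⟩, 0⟩ 0 0) (.cut .d (-1048576) (.void 1 ⟨0, 0, 0, 0, 0, 100000, 0, 0, 0, ⟨0, 0⟩, 0⟩ 0 0) (.cut .d (-524288) (.void 1 ⟨0, 0, 0, 0, 0, 100000, 0, 0, 0, ⟨0, 0⟩, 0⟩ 0 0) (.cut .v 8388608 (.cut .v 4194304 (.void 4 ⟨0, 0, 100000, 0, 0, 0, 0, 0, 0, ⟨0, 0⟩, 0⟩ 0 0) (.pos 5 .mm ⟨0, 0, 0, 0, 0, 5456477, 0, 0, 0, ⟨0, 0⟩, 0⟩ 0 0)) (.cut .s 10682368 (.pos 3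 .mm ⟨0, 0, 0, 0, 0, 44223851, 0, 0, 0, ⟨0, 0⟩, 0⟩ 0 0) (.pos 3 .mm ⟨0, 0, 0, 0, 0, 52652619, 0, 0, 0, ⟨0, 0⟩, 0⟩ 0 0)))))))) (.cut .v 67108864 (.cut .v 33554432 (.cut .v 25165824 (.cut .v 20971520 (.cut .d (-8388608) (.void 19 ⟨0, 0, 0, 0, 0, 100000, 0, 0, 0, ⟨0, 0⟩, 0⟩ 0 0) (.cut .d (-4194304) (.void 19 ⟨100000, 0, 0, 0, 0, 0, 0, 0, 0, ⟨0, 0⟩, 0⟩ 0 0) (.cut .d (-2097152) (.void 19 ⟨100000, 0, 0, 0, 0, 0, 0, 0, 0, ⟨0, 0⟩, 0⟩ 0 0) (.cut .d (-1048576) (.void 19 ⟨0, 0, 0, 0, 0, 100000, 0, 0, 0, ⟨0, 0⟩, 0⟩ 0 0) (.cut .d (-524288) (.void 19 ⟨0, 0, 0, 0, 0, 100000, 0, 0, 0, ⟨0, 0⟩, 0⟩ 0 0) (.cut .v 18874368 (.cut .v 17825792 (.cut .d (-262144) (.cut .l 1593835 (.pos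 23 .mp ⟨19922518, 0, 0, 0, 0, 74530471, 0, 0, 0, ⟨0, 0⟩, 0⟩ 0 0) (.cut .s 10682368 (.cut .v 17301504 (.pos 25 .mp ⟨2170555, 0, 0, 0, 0, 47610522, 0, 0, 0, ⟨0, 0⟩, 0⟩ 0 0) (.cut .d (-393216) (.cut .s 10584064 (.pos 26 .mp ⟨25904128, 0, 0, 0, 0, 14011028, 0, 0, 0, ⟨0, 0⟩, 0⟩ 0 0) (.pos 26 .mp ⟨23911259, 0, 0, 0, 0, 24980997, 0, 0, 0, ⟨0, 0⟩, 0⟩ 0 0)) (.pos 26 .mp ⟨29058571, 0, 0, 0, 0, 7358407, 0, 0, 0, ⟨0, 0⟩, 0⟩ 0 0))) (.cut .v 17301504 (.pos 25 .mp ⟨3259494, 0, 0, 0, 0, 55465594, 0, 0, 0, ⟨0, 0⟩, 0⟩ 0 0) (.cut .d (-393216) (.pos 26 .mp ⟨26104886, 0, 0, 0, 0, 31669798, 0, 0, 0, ⟨0, 0⟩, 0⟩ 0 0) (.cut .s 10780672 (.pos 26 .mp ⟨31564803, 0, 0, 0, 0, 10336908, 0, 0,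 0, ⟨0, 0⟩, 0⟩ 0 0) (.pos 26 .mp ⟨34240434, 0, 0, 0, 0, 11029151, 0, 0, 0, ⟨0, 0⟩, 0⟩ 0 0)))))) (.cut .l 1593835 (.cut .s 10682368 (.cut .v 17301504 (.cut .d (-131072) (.cut .s 10584064 (.pos 25 .mp ⟨17190918, 0, 0, 0, 0, 23185887, 0, 0, 0, ⟨0, 0⟩, 0⟩ 0 0) (.cut .v 17039360 (.pos 44 .mp ⟨16751966, 0, 0, 0, 0, 27754488, 0, 0, 0, ⟨0, 0⟩, 0⟩ 0 0) (.pos 45 .mp ⟨25934171, 0, 0, 0, 0, 13025806, 0, 0, 0, ⟨0, 0⟩, 0⟩ 0 0))) (.cut .d (-65536) (.cut .v 17039360 (.cut .s 10584064 (.pos 44 .mp ⟨16579014, 0, 0, 0, 0, 21251607, 0, 0, 0, ⟨0, 0⟩, 0⟩ 0 0) (.pos 44 .mp ⟨18162834, 0, 0, 0, 0, 22864325, 0, 0, 0, ⟨0, 0⟩, 0⟩ 0 0)) (.pos 45 .mp ⟨31533109, 0, 0, 0, 0, 0, 0, 0, 0, ⟨0, 0⟩,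 0⟩ 0 0)) (.pos 25 .mp ⟨19230707, 0, 0, 0, 0, 0, 0, 0, 0, ⟨0, 0⟩, 0⟩ 0 0))) (.pos 26 .mp ⟨34259400, 0, 0, 0, 0, 0, 0, 0, 0, ⟨0, 0⟩, 0⟩ 0 0)) (.cut .v 17301504 (.cut .d (-131072) (.cut .l 1027604 (.pos 25 .mp ⟨20200557, 0, 0, 0, 0, 35202622, 0, 0, 0, ⟨0, 0⟩, 0⟩ 0 0) (.cut .s 10780672 (.pos 25 .mp ⟨18827470, 0, 0, 0, 0, 28666682, 0, 0, 0, ⟨0, 0⟩, 0⟩ 0 0) (.pos 25 .mp ⟨20481314, 0, 0, 0, 0, 30904103, 0, 0, 0, ⟨0, 0⟩, 0⟩ 0 0))) (.cut .v 17039360 (.cut .d (-65536) (.cut .s 10780672 (.pos 44 .mp ⟨19686950, 0, 0, 0, 0, 24818338, 0, 0, 0, ⟨0, 0⟩, 0⟩ 0 0) (.pos 44 .mp ⟨21157747, 0, 0, 0, 0, 27099319, 0, 0, 0, ⟨0, 0⟩, 0⟩ 0 0)) (.pos 44 .mp ⟨21846789, 0, 0, 0, 0, 0, 0, 0,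 0, ⟨0, 0⟩, 0⟩ 0 0)) (.pos 45 .mp ⟨36597197, 0, 0, 0, 0, 0, 0, 0, 0, ⟨0, 0⟩, 0⟩ 0 0))) (.pos 26 .mp ⟨39946942, 0, 0, 0, 0, 0, 0, 0, 0, ⟨0, 0⟩, 0⟩ 0 0))) (.cut .v 17301504 (.pos 25 .mp ⟨23196734, 0, 0, 0, 0, 8346824, 0, 0, 0, ⟨0, 0⟩, 0⟩ 0 0) (.pos 26 .mp ⟨32274004, 0, 0, 0, 0, 0, 0, 0, 0, ⟨0, 0⟩, 0⟩ 0 0)))) (.cut .d (-262144) (.pos 24 .mp ⟨44725345, 0, 0, 0, 0, 0, 0, 0, 0, ⟨0, 0⟩, 0⟩ 0 0) (.pos 24 .mp ⟨38436987, 0, 0, 0, 0, 0, 0, 0, 0, ⟨0, 0⟩, 0⟩ 0 0))) (.pos 22 .mp ⟨53187124, 0, 0, 0, 0, 0, 0, 0, 0, ⟨0, 0⟩, 0⟩ 0 0))))))) (.void 20 ⟨100000, 0, 0, 0, 0, 0, 0, 0, 0, ⟨0, 0⟩, 0⟩ 0 0)) (.void 18 ⟨100000, 0, 0, 0, 0, 0, 0, 0, 0, ⟨0, 0⟩, 0⟩ 0 0)) (.void 41 ⟨100000, 0, 0,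 0, 0, 0, 0, 0, 0, ⟨0, 0⟩, 0⟩ 0 0)) (.void 52 ⟨100000, 0, 0, 0, 0, 0, 0, 0, 0, ⟨0, 0⟩, 0⟩ 0 0))) (.cut .v 16777216 (.cut .v 8388608 (.cut .v 4194304 (.void 4 ⟨0, 0, 50000, 0, 50000, 0, 0, 0, 0, ⟨0, 0⟩, 0⟩ 0 0) (.pos 5 .pm ⟨0, 0, 0, 0, 0, 0, 0, 0, 7451142, ⟨0, 0⟩, 9975792⟩ 0 0)) (.cut .d 5033166 (.pos 3 .pm ⟨0, 0, 0, 0, 0, 0, 0, 0, 0, ⟨0, 0⟩, 0⟩ 0 0) (.cut .v 12582912 (.cut .d 7549749 (.pos 6 .pm ⟨0, 0, 0, 0, 0, 0, 0, 0, 6208017, ⟨0, 0⟩, 13128881⟩ 0 0) (.pos 6 .pm ⟨0, 21219413, 0, 0, 0, 0, 0, 0, 7448763, ⟨0, 0⟩, 13128881⟩ 0 0)) (.cut .d 7549749 (.pos 7 .pm ⟨0, 0, 0, 0, 0, 0, 0, 6458228, 1226107, ⟨7081273, 132400⟩, 15612959⟩ 224 291) (.pos 7 .pm ⟨0, 22975527, 0, 0,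 0, 0, 0, 0, 4750647, ⟨0, 0⟩, 15612959⟩ 0 0))))) (.cut .v 67108864 (.cut .d 5033166 (.cut .d 2516583 (.cut .v 33554432 (.cut .d 1258291 (.cut .v 25165824 (.cut .v 20971520 (.cut .v 18874368 (.pos 21 .pp ⟨23231022, 0, 0, 0, 0, 0, 0, 0, 0, ⟨0, 0⟩, 0⟩ 0 0) (.pos 22 .pp ⟨36741542, 0, 0, 0, 0, 0, 0, 0, 0, ⟨0, 0⟩, 0⟩ 0 0)) (.pos 20 .pp ⟨54616274, 0, 0, 0, 0, 0, 0, 0, 0, ⟨0, 0⟩, 0⟩ 0 0)) (.pos 18 .pp ⟨115626760, 0, 0, 0, 0, 0, 0, 0, 0, ⟨0, 0⟩, 0⟩ 0 0)) (.pos 16 .pp ⟨0, 0, 0, 0, 0, 0, 0, 0, 0, ⟨0, 0⟩, 0⟩ 0 0)) (.cut .d 1258291 (.void 41 ⟨100000, 0, 0, 0, 0, 0, 0, 0, 0, ⟨0, 0⟩, 0⟩ 0 0) (.pos 41 .pp ⟨252164262, 0, 0, 0, 0, 0, 0, 0, 0, ⟨0, 0⟩, 0⟩ 0 0))) (.pos 40 .pp ⟨0, 0,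 0, 0, 0, 0, 0, 11606529, 0, ⟨6633983, 668512⟩, 0⟩ 184 240)) (.pos 40 .pp ⟨0, 15620016, 0, 0, 0, 0, 0, 0, 0, ⟨0, 0⟩, 0⟩ 0 0)) (.void 52 ⟨37231, 62769, 0, 0, 0, 0, 0, 0, 0, ⟨0, 0⟩, 0⟩ 0 0)))),
    by decide +kernel⟩

def covers15 : cell.Covers table row15.1 :=
  ⟨(.cut .d 0 (.cut .v 16777216 (.cut .v 8388608 (.pos 2 .mm ⟨0, 0, 164117861, 0, 0, 0, 0, 0, 0, ⟨0, 0⟩, 0⟩ 0 0) (.cut .d (-8388608) (.void 3 ⟨0, 0, 0, 0, 0, 100000, 0, 0, 0, ⟨0, 0⟩, 0⟩ 0 0) (.cut .d (-4194304) (.void 3 ⟨0, 0, 0, 0, 0, 100000, 0, 0, 0, ⟨0, 0⟩, 0⟩ 0 0) (.cut .d (-2097152) (.void 3 ⟨0, 0, 0, 0, 0, 100000, 0, 0, 0, ⟨0, 0⟩, 0⟩ 0 0) (.cut .d (-1048576) (.void 3 ⟨0, 0, 0, 0, 0, 100000, 0, 0, 0, ⟨0,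 0⟩, 0⟩ 0 0) (.cut .s 11108352 (.cut .s 10993664 (.pos 3 .mm ⟨0, 0, 0, 0, 0, 61804970, 0, 0, 0, ⟨0, 0⟩, 0⟩ 0 0) (.pos 3 .mm ⟨0, 0, 0, 0, 0, 68299570, 0, 0, 0, ⟨0, 0⟩, 0⟩ 0 0)) (.pos 3 .mm ⟨0, 0, 0, 0, 0, 82362432, 0, 0, 0, ⟨0, 0⟩, 0⟩ 0 0))))))) (.cut .v 67108864 (.cut .v 33554432 (.cut .v 25165824 (.cut .v 20971520 (.cut .d (-8388608) (.void 19 ⟨0, 0, 0, 0, 0, 100000, 0, 0, 0, ⟨0, 0⟩, 0⟩ 0 0) (.cut .d (-4194304) (.void 19 ⟨100000, 0, 0, 0, 0, 0, 0, 0, 0, ⟨0, 0⟩, 0⟩ 0 0) (.cut .d (-2097152) (.void 19 ⟨100000, 0, 0, 0, 0, 0, 0, 0, 0, ⟨0, 0⟩, 0⟩ 0 0) (.cut .d (-1048576) (.void 19 ⟨0, 0, 0, 0, 0, 100000, 0, 0, 0, ⟨0, 0⟩, 0⟩ 0 0) (.cut .d (-524288) (.void 19 ⟨0, 0, 0,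 0, 0, 100000, 0, 0, 0, ⟨0, 0⟩, 0⟩ 0 0) (.cut .v 18874368 (.cut .v 17825792 (.cut .d (-262144) (.cut .l 1593835 (.void 23 ⟨0, 0, 0, 0, 0, 100000, 0, 0, 0, ⟨0, 0⟩, 0⟩ 0 0) (.cut .s 11108352 (.cut .v 17301504 (.pos 25 .mp ⟨0, 0, 0, 0, 0, 71737471, 0, 0, 0, ⟨0, 0⟩, 0⟩ 0 0) (.cut .d (-393216) (.pos 26 .mp ⟨30948584, 0, 0, 0, 0, 37857396, 0, 0, 0, ⟨0, 0⟩, 0⟩ 0 0) (.cut .s 10993664 (.pos 26 .mp ⟨37263570, 0, 0, 0, 0, 11560550, 0, 0, 0, ⟨0, 0⟩, 0⟩ 0 0) (.pos 26 .mp ⟨41031714, 0, 0, 0, 0, 12216347, 0, 0, 0, ⟨0, 0⟩, 0⟩ 0 0)))) (.cut .v 17301504 (.pos 25 .mp ⟨0, 0, 0, 0, 0, 87110819, 0, 0, 0, ⟨0, 0⟩, 0⟩ 0 0) (.cut .s 11223040 (.cut .d (-393216) (.void 26 ⟨0, 0, 0, 0, 0, 100000,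 0, 0, 0, ⟨0, 0⟩, 0⟩ 0 0) (.pos 26 .mp ⟨44997700, 0, 0, 0, 0, 13137002, 0, 0, 0, ⟨0, 0⟩, 0⟩ 0 0)) (.pos 26 .mp ⟨51694519, 0, 0, 0, 0, 15222368, 0, 0, 0, ⟨0, 0⟩, 0⟩ 0 0))))) (.cut .s 11108352 (.cut .l 1593835 (.cut .v 17301504 (.cut .d (-131072) (.cut .s 10993664 (.pos 25 .mp ⟨22237844, 0, 0, 0, 0, 34625026, 0, 0, 0, ⟨0, 0⟩, 0⟩ 0 0) (.pos 25 .mp ⟨24379628, 0, 0, 0, 0, 37844809, 0, 0, 0, ⟨0, 0⟩, 0⟩ 0 0)) (.cut .s 10993664 (.cut .d (-65536) (.cut .v 17039360 (.pos 44 .mp ⟨22640183, 0, 0, 0, 0, 29406983, 0, 0, 0, ⟨0, 0⟩, 0⟩ 0 0) (.pos 45 .mp ⟨41203173, 0, 0, 0, 0, 0, 0, 0, 0, ⟨0, 0⟩, 0⟩ 0 0)) (.pos 25 .mp ⟨23511386, 0, 0, 0, 0, 21188062, 0, 0, 0, ⟨0, 0⟩, 0⟩ 0 0)) (.pos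 25 .mp ⟨30487510, 0, 0, 0, 0, 18351295, 0, 0, 0, ⟨0, 0⟩, 0⟩ 0 0))) (.pos 26 .mp ⟨46482548, 0, 0, 0, 0, 0, 0, 0, 0, ⟨0, 0⟩, 0⟩ 0 0)) (.cut .v 17301504 (.pos 25 .mp ⟨28458866, 0, 0, 0, 0, 15975391, 0, 0, 0, ⟨0, 0⟩, 0⟩ 0 0) (.pos 26 .mp ⟨42028351, 0, 0, 0, 0, 0, 0, 0, 0, ⟨0, 0⟩, 0⟩ 0 0))) (.cut .l 1593835 (.cut .v 17301504 (.cut .d (-131072) (.cut .s 11223040 (.pos 25 .mp ⟨26673971, 0, 0, 0, 0, 41388888, 0, 0, 0, ⟨0, 0⟩, 0⟩ 0 0) (.pos 25 .mp ⟨29129494, 0, 0, 0, 0, 45252596, 0, 0, 0, ⟨0, 0⟩, 0⟩ 0 0)) (.cut .s 11223040 (.pos 25 .mp ⟨33275140, 0, 0, 0, 0, 20507129, 0, 0, 0, ⟨0, 0⟩, 0⟩ 0 0) (.pos 25 .mp ⟨36259955, 0, 0, 0, 0, 22839919, 0, 0, 0, ⟨0, 0⟩, 0⟩ 0 0))) (.pos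 26 .mp ⟨55321882, 0, 0, 0, 0, 0, 0, 0, 0, ⟨0, 0⟩, 0⟩ 0 0)) (.pos 23 .mp ⟨39311677, 0, 0, 0, 0, 12396183, 0, 0, 0, ⟨0, 0⟩, 0⟩ 0 0)))) (.cut .s 11108352 (.pos 24 .mp ⟨52667353, 0, 0, 0, 0, 0, 0, 0, 0, ⟨0, 0⟩, 0⟩ 0 0) (.pos 24 .mp ⟨62591419, 0, 0, 0, 0, 0, 0, 0, 0, ⟨0, 0⟩, 0⟩ 0 0))) (.pos 22 .mp ⟨73808715, 0, 0, 0, 0, 0, 0, 0, 0, ⟨0, 0⟩, 0⟩ 0 0))))))) (.void 20 ⟨100000, 0, 0, 0, 0, 0, 0, 0, 0, ⟨0, 0⟩, 0⟩ 0 0)) (.void 18 ⟨100000, 0, 0, 0, 0, 0, 0, 0, 0, ⟨0, 0⟩, 0⟩ 0 0)) (.void 41 ⟨100000, 0, 0, 0, 0, 0, 0, 0, 0, ⟨0, 0⟩, 0⟩ 0 0)) (.void 52 ⟨100000, 0, 0, 0, 0, 0, 0, 0, 0, ⟨0, 0⟩, 0⟩ 0 0))) (.cut .v 16777216 (.cut .v 8388608 (.cut .v 4194304 (.pos 4 .pm ⟨0, 0, 29367878,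 0, 0, 0, 0, 0, 59500401, ⟨0, 0⟩, 3966728⟩ 0 0) (.cut .d 4548041 (.pos 5 .pm ⟨0, 0, 0, 0, 0, 0, 0, 0, 0, ⟨0, 0⟩, 0⟩ 0 0) (.cut .d 6822062 (.pos 5 .pm ⟨0, 0, 0, 0, 0, 0, 0, 0, 8064499, ⟨0, 0⟩, 9975792⟩ 0 0) (.pos 5 .pm ⟨0, 0, 0, 0, 0, 0, 0, 0, 28034828, ⟨0, 0⟩, 9975792⟩ 0 0)))) (.cut .d 4548041 (.pos 3 .pm ⟨0, 0, 0, 0, 0, 0, 0, 0, 0, ⟨0, 0⟩, 0⟩ 0 0) (.cut .v 12582912 (.cut .d 6822062 (.cut .v 10485760 (.pos 8 .pm ⟨0, 0, 0, 0, 0, 0, 0, 0, 4683042, ⟨0, 0⟩, 12543895⟩ 0 0) (.pos 9 .pm ⟨0, 2608643, 0, 0, 0, 0, 0, 0, 0, ⟨0, 0⟩, 0⟩ 0 0)) (.cut .d 7959072 (.cut .v 10485760 (.cut .s 11108352 (.pos 8 .pm ⟨0, 19014328, 0, 0, 0, 0, 0, 0, 6775198, ⟨0, 0⟩, 12543895⟩ 0 0) (.cut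 .v 9437184 (.pos 57 .pm ⟨0, 23783339, 0, 0, 0, 0, 0, 0, 7086111, ⟨0, 0⟩, 12217800⟩ 0 0) (.cut .d 7390567 (.pos 58 .pm ⟨0, 25852698, 0, 0, 0, 0, 0, 0, 5416788, ⟨0, 0⟩, 12918751⟩ 0 0) (.void 58 ⟨0, 93569, 0, 0, 0, 0, 0, 0, 6431, ⟨0, 0⟩, 12918751⟩ 0 0)))) (.cut .s 11108352 (.pos 9 .pm ⟨0, 20258178, 0, 0, 0, 0, 0, 0, 5875158, ⟨0, 0⟩, 13882102⟩ 0 0) (.cut .s 11223040 (.pos 9 .pm ⟨0, 25354095, 0, 0, 0, 0, 0, 0, 5278366, ⟨0, 0⟩, 13882102⟩ 0 0) (.pos 9 .pm ⟨0, 33168999, 0, 0, 0, 0, 0, 0, 0, ⟨0, 0⟩, 0⟩ 0 0)))) (.void 6 ⟨0, 92902, 0, 0, 0, 0, 0, 0, 7098, ⟨0, 0⟩, 13128881⟩ 0 0))) (.cut .d 6822062 (.pos 7 .pm ⟨0, 0, 0, 0, 0, 0, 0, 11058016, 0, ⟨7108982, 101840⟩, 0⟩ 230 302)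 (.pos 7 .pm ⟨0, 31932663, 0, 0, 0, 0, 0, 0, 0, ⟨0, 0⟩, 0⟩ 0 0))))) (.cut .v 67108864 (.cut .d 4548041 (.cut .d 2274020 (.cut .v 33554432 (.cut .d 1137010 (.cut .v 25165824 (.cut .v 20971520 (.cut .v 18874368 (.pos 21 .pp ⟨30933957, 0, 0, 0, 0, 0, 0, 0, 0, ⟨0, 0⟩, 0⟩ 0 0) (.pos 22 .pp ⟨49587357, 0, 0, 0, 0, 0, 0, 0, 0, ⟨0, 0⟩, 0⟩ 0 0)) (.pos 20 .pp ⟨73587059, 0, 0, 0, 0, 0, 0, 0, 0, ⟨0, 0⟩, 0⟩ 0 0)) (.pos 18 .pp ⟨153452080, 0, 0, 0, 0, 0, 0, 0, 0, ⟨0, 0⟩, 0⟩ 0 0)) (.pos 16 .pp ⟨2738014, 0, 0, 0, 0, 0, 0, 0, 0, ⟨0, 0⟩, 0⟩ 0 0)) (.cut .d 1137010 (.void 41 ⟨100000, 0, 0, 0, 0, 0, 0, 0, 0, ⟨0, 0⟩, 0⟩ 0 0) (.pos 41 .pp ⟨344748370, 0, 0, 0, 0, 0, 0, 0, 0, ⟨0, 0⟩, 0⟩ 0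 0))) (.pos 40 .pp ⟨0, 0, 0, 0, 0, 0, 0, 0, 0, ⟨0, 0⟩, 0⟩ 0 0)) (.pos 40 .pp ⟨0, 16436626, 0, 0, 0, 0, 0, 0, 0, ⟨0, 0⟩, 0⟩ 0 0)) (.void 52 ⟨36792, 63208, 0, 0, 0, 0, 0, 0, 0, ⟨0, 0⟩, 0⟩ 0 0)))),
    by decide +kernel⟩

def covers16 : cell.Covers table row16.1 :=
  ⟨(.cut .d 0 (.cut .v 16777216 (.cut .v 8388608 (.pos 2 .mm ⟨0, 0, 187458000, 0, 0, 0, 0, 0, 0, ⟨0, 0⟩, 0⟩ 0 0) (.cut .d (-8388608) (.void 3 ⟨0, 0, 0, 0, 0, 100000, 0, 0, 0, ⟨0, 0⟩, 0⟩ 0 0) (.cut .d (-4194304) (.void 3 ⟨0, 0, 0, 0, 0, 100000, 0, 0, 0, ⟨0, 0⟩, 0⟩ 0 0) (.cut .d (-2097152) (.void 3 ⟨0, 0, 0, 0, 0, 100000, 0, 0, 0, ⟨0, 0⟩, 0⟩ 0 0) (.cut .d (-1048576) (.void 3 ⟨0, 0, 0, 0, 0, 100000, 0, 0, 0,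 ⟨0, 0⟩, 0⟩ 0 0) (.cut .s 11534336 (.pos 3 .mm ⟨0, 0, 0, 0, 0, 97949875, 0, 0, 0, ⟨0, 0⟩, 0⟩ 0 0) (.pos 3 .mm ⟨0, 0, 0, 0, 0, 115099123, 0, 0, 0, ⟨0, 0⟩, 0⟩ 0 0))))))) (.cut .v 67108864 (.cut .v 33554432 (.cut .v 25165824 (.cut .d (-8388608) (.void 17 ⟨0, 0, 0, 0, 0, 100000, 0, 0, 0, ⟨0, 0⟩, 0⟩ 0 0) (.cut .v 20971520 (.cut .d (-4194304) (.void 19 ⟨100000, 0, 0, 0, 0, 0, 0, 0, 0, ⟨0, 0⟩, 0⟩ 0 0) (.cut .d (-2097152) (.void 19 ⟨100000, 0, 0, 0, 0, 0, 0, 0, 0, ⟨0, 0⟩, 0⟩ 0 0) (.cut .d (-1048576) (.void 19 ⟨100000, 0, 0, 0, 0, 0, 0, 0, 0, ⟨0, 0⟩, 0⟩ 0 0) (.cut .d (-524288) (.void 19 ⟨0, 0, 0, 0, 0, 100000, 0, 0, 0, ⟨0, 0⟩, 0⟩ 0 0) (.cut .v 18874368 (.cut .d (-262144)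 (.cut .v 17825792 (.cut .d (-393216) (.void 23 ⟨0, 0, 0, 0, 0, 100000, 0, 0, 0, ⟨0, 0⟩, 0⟩ 0 0) (.cut .l 1593835 (.void 23 ⟨0, 0, 0, 0, 0, 100000, 0, 0, 0, ⟨0, 0⟩, 0⟩ 0 0) (.cut .v 17301504 (.pos 25 .mp ⟨0, 0, 0, 0, 0, 116749004, 0, 0, 0, ⟨0, 0⟩, 0⟩ 0 0) (.cut .s 11534336 (.pos 26 .mp ⟨57957712, 0, 0, 0, 0, 13994179, 0, 0, 0, ⟨0, 0⟩, 0⟩ 0 0) (.pos 26 .mp ⟨66851175, 0, 0, 0, 0, 17257497, 0, 0, 0, ⟨0, 0⟩, 0⟩ 0 0))))) (.pos 24 .mp ⟨89310681, 0, 0, 0, 0, 0, 0, 0, 0, ⟨0, 0⟩, 0⟩ 0 0)) (.cut .v 17825792 (.cut .s 11534336 (.cut .l 1593835 (.cut .v 17301504 (.cut .d (-131072) (.pos 25 .mp ⟨31755556, 0, 0, 0, 0, 55515422, 0, 0, 0, ⟨0, 0⟩, 0⟩ 0 0) (.pos 25 .mp ⟨41987117,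 0, 0, 0, 0, 25060099, 0, 0, 0, ⟨0, 0⟩, 0⟩ 0 0)) (.pos 26 .mp ⟨65509853, 0, 0, 0, 0, 0, 0, 0, 0, ⟨0, 0⟩, 0⟩ 0 0)) (.pos 23 .mp ⟨46975280, 0, 0, 0, 0, 15626830, 0, 0, 0, ⟨0, 0⟩, 0⟩ 0 0)) (.cut .v 17301504 (.cut .l 1593835 (.cut .d (-131072) (.pos 25 .mp ⟨36798395, 0, 0, 0, 0, 64707026, 0, 0, 0, ⟨0, 0⟩, 0⟩ 0 0) (.cut .s 11632640 (.pos 25 .mp ⟨45106825, 0, 0, 0, 0, 32156075, 0, 0, 0, ⟨0, 0⟩, 0⟩ 0 0) (.pos 25 .mp ⟨48409755, 0, 0, 0, 0, 34917658, 0, 0, 0, ⟨0, 0⟩, 0⟩ 0 0))) (.pos 25 .mp ⟨28298323, 0, 0, 0, 0, 64435237, 0, 0, 0, ⟨0, 0⟩, 0⟩ 0 0)) (.pos 26 .mp ⟨72889590, 0, 0, 0, 0, 0, 0, 0, 0, ⟨0, 0⟩, 0⟩ 0 0))) (.pos 24 .mp ⟨73274898, 0, 0, 0, 0, 0, 0, 0, 0, ⟨0, 0⟩, 0⟩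 0 0))) (.pos 22 .mp ⟨100008473, 0, 0, 0, 0, 0, 0, 0, 0, ⟨0, 0⟩, 0⟩ 0 0)))))) (.void 20 ⟨100000, 0, 0, 0, 0, 0, 0, 0, 0, ⟨0, 0⟩, 0⟩ 0 0))) (.void 18 ⟨100000, 0, 0, 0, 0, 0, 0, 0, 0, ⟨0, 0⟩, 0⟩ 0 0)) (.void 41 ⟨100000, 0, 0, 0, 0, 0, 0, 0, 0, ⟨0, 0⟩, 0⟩ 0 0)) (.void 52 ⟨100000, 0, 0, 0, 0, 0, 0, 0, 0, ⟨0, 0⟩, 0⟩ 0 0))) (.cut .v 16777216 (.cut .v 8388608 (.cut .v 4194304 (.cut .v 2097152 (.void 63 ⟨0, 0, 50000, 0, 50000, 0, 0, 0, 0, ⟨0, 0⟩, 0⟩ 0 0) (.void 64 ⟨0, 0, 45679, 0, 0, 0, 0, 0, 54321, ⟨0, 0⟩, 7053950⟩ 0 0)) (.cut .d 4024593 (.pos 5 .pm ⟨0, 0, 0, 0, 0, 0, 0, 0, 0, ⟨0, 0⟩, 0⟩ 0 0) (.cut .d 6036890 (.pos 5 .pm ⟨0, 0, 0, 0, 0, 0, 0, 0, 966797, ⟨0, 0⟩, 9975792⟩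 0 0) (.cut .v 6291456 (.void 55 ⟨0, 0, 0, 0, 0, 0, 0, 0, 100000, ⟨0, 0⟩, 9283521⟩ 0 0) (.cut .d 7043038 (.cut .d 6539964 (.cut .s 11534336 (.pos 56 .pm ⟨0, 0, 0, 0, 0, 0, 0, 0, 7797013, ⟨0, 0⟩, 11040029⟩ 0 0) (.cut .s 11632640 (.pos 56 .pm ⟨0, 21774274, 0, 0, 0, 0, 0, 0, 8005932, ⟨0, 0⟩, 11040029⟩ 0 0) (.cut .d 6288427 (.pos 56 .pm ⟨0, 0, 0, 0, 0, 0, 0, 0, 432693, ⟨0, 0⟩, 11040029⟩ 0 0) (.pos 56 .pm ⟨0, 31024784, 0, 0, 0, 0, 0, 0, 1844541, ⟨0, 0⟩, 11040029⟩ 0 0)))) (.pos 56 .pm ⟨0, 43244971, 0, 0, 0, 0, 0, 0, 7377910, ⟨0, 0⟩, 11040029⟩ 0 0)) (.void 56 ⟨0, 77649, 0, 0, 0, 0, 0, 0, 22351, ⟨0, 0⟩, 11040029⟩ 0 0)))))) (.cut .d 4024593 (.pos 3 .pm ⟨0, 0, 0, 0, 0, 0,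 0, 0, 0, ⟨0, 0⟩, 0⟩ 0 0) (.cut .d 6036890 (.pos 3 .pm ⟨0, 0, 0, 0, 0, 0, 0, 0, 0, ⟨0, 0⟩, 0⟩ 0 0) (.cut .d 7043038 (.cut .v 12582912 (.cut .v 10485760 (.cut .l 1593835 (.cut .d 6539964 (.cut .s 11534336 (.pos 8 .pm ⟨0, 0, 0, 0, 0, 0, 0, 0, 0, ⟨0, 0⟩, 0⟩ 0 0) (.cut .v 9437184 (.cut .s 11632640 (.cut .v 8912896 (.cut .s 11583488 (.pos 67 .pm ⟨0, 26656784, 0, 0, 0, 0, 0, 0, 2672119, ⟨0, 0⟩, 12044454⟩ 0 0) (.pos 67 .pm ⟨0, 28380690, 0, 0, 0, 0, 0, 0, 2053093, ⟨0, 0⟩, 12044454⟩ 0 0)) (.pos 68 .pm ⟨0, 19033028, 0, 0, 0, 0, 0, 0, 0, ⟨0, 0⟩, 0⟩ 0 0)) (.pos 57 .pm ⟨0, 30541214, 0, 0, 0, 0, 0, 0, 1214891, ⟨0, 0⟩, 12217800⟩ 0 0)) (.pos 58 .pm ⟨0, 18517527, 0, 0, 0, 0, 0,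 0, 0, ⟨0, 0⟩, 0⟩ 0 0))) (.cut .s 11534336 (.cut .v 9437184 (.cut .s 11436032 (.pos 57 .pm ⟨0, 22457841, 0, 0, 0, 0, 0, 0, 7287525, ⟨0, 0⟩, 12217800⟩ 0 0) (.cut .d 6791501 (.cut .v 8912896 (.pos 67 .pm ⟨0, 23290958, 0, 0, 0, 0, 0, 0, 7384961, ⟨0, 0⟩, 12044454⟩ 0 0) (.cut .l 1027604 (.cut .l 744488 (.cut .l 602930 (.cut .d 6665732 (.cut .s 11485184 (.pos 68 .pm ⟨0, 0, 0, 0, 0, 0, 0, 0, 1389263, ⟨0, 0⟩, 12404386⟩ 0 0) (.cut .s 11509760 (.pos 68 .pm ⟨0, 28088908, 0, 0, 0, 0, 0, 0, 3184472, ⟨0, 0⟩, 12404386⟩ 0 0) (.pos 68 .pm ⟨0, 29112989, 0, 0, 0, 0, 0, 0, 2680938, ⟨0, 0⟩, 12404386⟩ 0 0))) (.cut .s 11485184 (.pos 68 .pm ⟨0, 28659066, 0, 0, 0, 0, 0, 0, 3489533, ⟨0,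 0⟩, 12404386⟩ 0 0) (.pos 68 .pm ⟨0, 30801101, 0, 0, 0, 0, 0, 0, 3276279, ⟨0, 0⟩, 12404386⟩ 0 0))) (.pos 68 .pm ⟨0, 28391063, 0, 0, 0, 0, 0, 0, 3084649, ⟨0, 0⟩, 12404386⟩ 0 0)) (.pos 68 .pm ⟨0, 27784340, 0, 0, 0, 0, 0, 0, 2377139, ⟨0, 0⟩, 12404386⟩ 0 0)) (.pos 68 .pm ⟨0, 27332384, 0, 0, 0, 0, 0, 0, 2264871, ⟨0, 0⟩, 12404386⟩ 0 0))) (.pos 57 .pm ⟨0, 107724850, 0, 0, 0, 0, 0, 0, 7153998, ⟨0, 0⟩, 12217800⟩ 0 0))) (.cut .v 9961472 (.cut .d 6791501 (.cut .s 11436032 (.pos 59 .pm ⟨0, 24889513, 0, 0, 0, 0, 0, 0, 3364310, ⟨0, 0⟩, 12754147⟩ 0 0) (.pos 59 .pm ⟨0, 28290303, 0, 0, 0, 0, 0, 0, 2465852, ⟨0, 0⟩, 12754147⟩ 0 0)) (.pos 59 .pm ⟨0, 32713710, 0, 0, 0, 0, 0, 0, 4418993,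 ⟨0, 0⟩, 12754147⟩ 0 0)) (.pos 60 .pm ⟨0, 31148365, 0, 0, 0, 0, 0, 0, 0, ⟨0, 0⟩, 0⟩ 0 0))) (.cut .v 9437184 (.cut .s 11632640 (.cut .d 6791501 (.cut .d 6665732 (.cut .v 8912896 (.cut .s 11583488 (.pos 67 .pm ⟨0, 30571831, 0, 0, 0, 0, 0, 0, 3278872, ⟨0, 0⟩, 12044454⟩ 0 0) (.pos 67 .pm ⟨0, 107950586, 0, 0, 0, 0, 0, 0, 7411042, ⟨0, 0⟩, 12044454⟩ 0 0)) (.pos 68 .pm ⟨0, 30238003, 0, 0, 0, 0, 0, 0, 2111718, ⟨0, 0⟩, 12404386⟩ 0 0)) (.pos 57 .pm ⟨0, 135521048, 0, 0, 0, 0, 0, 0, 7208989, ⟨0, 0⟩, 12217800⟩ 0 0)) (.void 57 ⟨0, 94540, 0, 0, 0, 0, 0, 0, 5460, ⟨0, 0⟩, 12217800⟩ 0 0)) (.void 57 ⟨0, 100000, 0, 0, 0, 0, 0, 0, 0, ⟨0, 0⟩, 0⟩ 0 0)) (.pos 58 .pm ⟨0, 36913401, 0, 0,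 0, 0, 0, 0, 0, ⟨0, 0⟩, 0⟩ 0 0)))) (.pos 8 .pm ⟨0, 25746242, 0, 0, 0, 0, 0, 0, 0, ⟨0, 0⟩, 0⟩ 0 0)) (.pos 9 .pm ⟨0, 30232590, 0, 0, 0, 0, 0, 0, 0, ⟨0, 0⟩, 0⟩ 0 0)) (.pos 7 .pm ⟨0, 32233540, 0, 0, 0, 0, 0, 0, 0, ⟨0, 0⟩, 0⟩ 0 0)) (.void 3 ⟨0, 94198, 0, 0, 0, 0, 0, 0, 5802, ⟨0, 0⟩, 14107901⟩ 0 0))))) (.cut .v 67108864 (.cut .d 4024593 (.cut .d 2012296 (.cut .v 33554432 (.cut .d 1006148 (.cut .v 25165824 (.cut .v 20971520 (.cut .v 18874368 (.pos 21 .pp ⟨44147377, 0, 0, 0, 0, 0, 0, 0, 0, ⟨0, 0⟩, 0⟩ 0 0) (.pos 22 .pp ⟨68402754, 0, 0, 0, 0, 0, 0, 0, 0, ⟨0, 0⟩, 0⟩ 0 0)) (.pos 20 .pp ⟨98495148, 0, 0, 0, 0, 0, 0, 0, 0, ⟨0, 0⟩, 0⟩ 0 0)) (.pos 18 .pp ⟨197326797, 0, 0, 0, 0,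 0, 0, 0, 0, ⟨0, 0⟩, 0⟩ 0 0)) (.pos 16 .pp ⟨15437781, 0, 0, 0, 0, 0, 0, 0, 0, ⟨0, 0⟩, 0⟩ 0 0)) (.cut .v 50331648 (.cut .d 1006148 (.void 42 ⟨100000, 0, 0, 0, 0, 0, 0, 0, 0, ⟨0, 0⟩, 0⟩ 0 0) (.pos 42 .pp ⟨266904754, 0, 0, 0, 0, 0, 0, 0, 0, ⟨0, 0⟩, 0⟩ 0 0)) (.void 43 ⟨40285, 59715, 0, 0, 0, 0, 0, 0, 0, ⟨0, 0⟩, 0⟩ 0 0))) (.pos 40 .pp ⟨0, 0, 0, 0, 0, 0, 0, 0, 0, ⟨0, 0⟩, 0⟩ 0 0)) (.pos 40 .pp ⟨0, 17365852, 0, 0, 0, 0, 0, 0, 0, ⟨0, 0⟩, 0⟩ 0 0)) (.void 52 ⟨36578, 63422, 0, 0, 0, 0, 0, 0, 0, ⟨0, 0⟩, 0⟩ 0 0)))),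
    by decide +kernel⟩

def covers17 : cell.Covers table row17.1 :=
  ⟨(.cut .d 0 (.cut .v 16777216 (.cut .v 8388608 (.void 2 ⟨0, 0, 100000, 0, 0, 0, 0, 0, 0, ⟨0, 0⟩, 0⟩ 0 0) (.cut .d (-8388608) (.void 3 ⟨0, 0, 0, 0, 0, 100000, 0, 0, 0, ⟨0, 0⟩, 0⟩ 0 0) (.cut .d (-4194304) (.void 3 ⟨0, 0, 0, 0, 0, 100000, 0, 0, 0, ⟨0, 0⟩, 0⟩ 0 0) (.cut .d (-2097152) (.void 3 ⟨0, 0, 0, 0, 0, 100000, 0, 0, 0, ⟨0, 0⟩, 0⟩ 0 0) (.cut .d (-1048576) (.void 3 ⟨0, 0, 0, 0, 0, 100000, 0, 0, 0, ⟨0, 0⟩, 0⟩ 0 0) (.cut .d (-524288) (.void 3 ⟨0, 0, 0, 0, 0, 100000, 0, 0, 0, ⟨0, 0⟩, 0⟩ 0 0) (.cut .s 11993088 (.pos 3 .mm ⟨0, 0, 0, 0, 0, 134062781, 0, 0, 0, ⟨0, 0⟩, 0⟩ 0 0) (.cut .s 12124160 (.pos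 3 .mm ⟨0, 0, 0, 0, 0, 150306168, 0, 0, 0, ⟨0, 0⟩, 0⟩ 0 0) (.pos 3 .mm ⟨0, 0, 0, 0, 0, 166626016, 0, 0, 0, ⟨0, 0⟩, 0⟩ 0 0))))))))) (.cut .v 268435456 (.cut .v 67108864 (.cut .v 33554432 (.cut .v 25165824 (.cut .d (-8388608) (.void 17 ⟨100000, 0, 0, 0, 0, 0, 0, 0, 0, ⟨0, 0⟩, 0⟩ 0 0) (.cut .v 20971520 (.cut .d (-4194304) (.void 19 ⟨100000, 0, 0, 0, 0, 0, 0, 0, 0, ⟨0, 0⟩, 0⟩ 0 0) (.cut .d (-2097152) (.void 19 ⟨100000, 0, 0, 0, 0, 0, 0, 0, 0, ⟨0, 0⟩, 0⟩ 0 0) (.cut .d (-1048576) (.void 19 ⟨100000, 0, 0, 0, 0, 0, 0, 0, 0, ⟨0, 0⟩, 0⟩ 0 0) (.cut .d (-524288) (.void 19 ⟨0, 0, 0, 0, 0, 100000, 0, 0, 0, ⟨0, 0⟩, 0⟩ 0 0) (.cut .v 18874368 (.cut .d (-262144) (.cut .v 17825792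 (.cut .d (-393216) (.void 23 ⟨0, 0, 0, 0, 0, 100000, 0, 0, 0, ⟨0, 0⟩, 0⟩ 0 0) (.cut .d (-327680) (.void 23 ⟨0, 0, 0, 0, 0, 100000, 0, 0, 0, ⟨0, 0⟩, 0⟩ 0 0) (.cut .l 1593835 (.void 23 ⟨0, 0, 0, 0, 0, 100000, 0, 0, 0, ⟨0, 0⟩, 0⟩ 0 0) (.cut .l 2160066 (.void 23 ⟨0, 0, 0, 0, 0, 100000, 0, 0, 0, ⟨0, 0⟩, 0⟩ 0 0) (.cut .v 17301504 (.pos 25 .mp ⟨0, 0, 0, 0, 0, 171759442, 0, 0, 0, ⟨0, 0⟩, 0⟩ 0 0) (.cut .s 11993088 (.pos 26 .mp ⟨72319831, 0, 0, 0, 0, 32604896, 0, 0, 0, ⟨0, 0⟩, 0⟩ 0 0) (.cut .s 12124160 (.pos 26 .mp ⟨76684995, 0, 0, 0, 0, 47119489, 0, 0, 0, ⟨0, 0⟩, 0⟩ 0 0) (.pos 26 .mp ⟨69601862, 0, 0, 0, 0, 90306099, 0, 0, 0, ⟨0, 0⟩, 0⟩ 0 0)))))))) (.void 24 ⟨100000, 0,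 0, 0, 0, 0, 0, 0, 0, ⟨0, 0⟩, 0⟩ 0 0)) (.cut .v 17825792 (.cut .s 11993088 (.cut .s 11862016 (.cut .v 17301504 (.cut .l 1593835 (.cut .d (-131072) (.pos 25 .mp ⟨42444420, 0, 0, 0, 0, 71716328, 0, 0, 0, ⟨0, 0⟩, 0⟩ 0 0) (.cut .s 11796480 (.pos 25 .mp ⟨50759607, 0, 0, 0, 0, 38831500, 0, 0, 0, ⟨0, 0⟩, 0⟩ 0 0) (.pos 25 .mp ⟨53189444, 0, 0, 0, 0, 40907907, 0, 0, 0, ⟨0, 0⟩, 0⟩ 0 0))) (.pos 25 .mp ⟨32698324, 0, 0, 0, 0, 74610834, 0, 0, 0, ⟨0, 0⟩, 0⟩ 0 0)) (.pos 26 .mp ⟨81682802, 0, 0, 0, 0, 1384960, 0, 0, 0, ⟨0, 0⟩, 0⟩ 0 0)) (.cut .v 17301504 (.cut .d (-131072) (.cut .l 1593835 (.pos 25 .mp ⟨46661735, 0, 0, 0, 0, 78686942, 0, 0, 0, ⟨0, 0⟩, 0⟩ 0 0) (.pos 25 .mp ⟨40381010,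 0, 0, 0, 0, 80970183, 0, 0, 0, ⟨0, 0⟩, 0⟩ 0 0)) (.cut .s 11927552 (.pos 25 .mp ⟨55711675, 0, 0, 0, 0, 43147390, 0, 0, 0, ⟨0, 0⟩, 0⟩ 0 0) (.cut .d (-65536) (.pos 25 .mp ⟨58329914, 0, 0, 0, 0, 47376233, 0, 0, 0, ⟨0, 0⟩, 0⟩ 0 0) (.pos 25 .mp ⟨52736073, 0, 0, 0, 0, 50533694, 0, 0, 0, ⟨0, 0⟩, 0⟩ 0 0)))) (.pos 26 .mp ⟨89076928, 0, 0, 0, 0, 2222151, 0, 0, 0, ⟨0, 0⟩, 0⟩ 0 0))) (.cut .s 12124160 (.cut .v 17301504 (.cut .d (-131072) (.cut .s 12058624 (.pos 25 .mp ⟨45632306, 0, 0, 0, 0, 85866899, 0, 0, 0, ⟨0, 0⟩, 0⟩ 0 0) (.cut .l 1593835 (.pos 25 .mp ⟨53577087, 0, 0, 0, 0, 83664219, 0, 0, 0, ⟨0, 0⟩, 0⟩ 0 0) (.pos 25 .mp ⟨46388869, 0, 0, 0, 0, 90541120, 0, 0, 0, ⟨0, 0⟩, 0⟩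 0 0))) (.cut .l 1593835 (.cut .v 17039360 (.cut .d (-65536) (.pos 44 .mp ⟨44398433, 0, 0, 0, 0, 86719744, 0, 0, 0, ⟨0, 0⟩, 0⟩ 0 0) (.cut .s 12058624 (.pos 44 .mp ⟨53397154, 0, 0, 0, 0, 55880651, 0, 0, 0, ⟨0, 0⟩, 0⟩ 0 0) (.pos 44 .mp ⟨55787856, 0, 0, 0, 0, 59033331, 0, 0, 0, ⟨0, 0⟩, 0⟩ 0 0))) (.pos 45 .mp ⟨95162009, 0, 0, 0, 0, 0, 0, 0, 0, ⟨0, 0⟩, 0⟩ 0 0)) (.pos 25 .mp ⟨0, 0, 0, 0, 0, 0, 0, 0, 0, ⟨0, 0⟩, 0⟩ 0 0))) (.pos 26 .mp ⟨97233593, 0, 0, 0, 0, 3171452, 0, 0, 0, ⟨0, 0⟩, 0⟩ 0 0)) (.cut .v 17301504 (.cut .d (-131072) (.cut .l 1593835 (.pos 25 .mp ⟨56052102, 0, 0, 0, 0, 95773191, 0, 0, 0, ⟨0, 0⟩, 0⟩ 0 0) (.cut .s 12189696 (.pos 25 .mp ⟨48530112, 0, 0, 0, 0, 95251734,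 0, 0, 0, ⟨0, 0⟩, 0⟩ 0 0) (.pos 25 .mp ⟨50745468, 0, 0, 0, 0, 100216093, 0, 0, 0, ⟨0, 0⟩, 0⟩ 0 0))) (.cut .l 1593835 (.cut .v 17039360 (.cut .l 1027604 (.cut .d (-65536) (.pos 44 .mp ⟨51952156, 0, 0, 0, 0, 94328779, 0, 0, 0, ⟨0, 0⟩, 0⟩ 0 0) (.cut .d (-32768) (.cut .s 12189696 (.pos 44 .mp ⟨54241560, 0, 0, 0, 0, 77231423, 0, 0, 0, ⟨0, 0⟩, 0⟩ 0 0) (.pos 44 .mp ⟨56413898, 0, 0, 0, 0, 81838562, 0, 0, 0, ⟨0, 0⟩, 0⟩ 0 0)) (.pos 44 .mp ⟨57388509, 0, 0, 0, 0, 0, 0, 0, 0, ⟨0, 0⟩, 0⟩ 0 0))) (.pos 44 .mp ⟨45897694, 0, 0, 0, 0, 87783385, 0, 0, 0, ⟨0, 0⟩, 0⟩ 0 0)) (.cut .s 12189696 (.pos 45 .mp ⟨91915371, 0, 0, 0, 0, 17069664, 0, 0, 0, ⟨0, 0⟩, 0⟩ 0 0) (.pos 45 .mp ⟨96291238,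 0, 0, 0, 0, 17816001, 0, 0, 0, ⟨0, 0⟩, 0⟩ 0 0))) (.pos 25 .mp ⟨0, 0, 0, 0, 0, 0, 0, 0, 0, ⟨0, 0⟩, 0⟩ 0 0))) (.cut .s 12189696 (.pos 26 .mp ⟨87933698, 0, 0, 0, 0, 30277816, 0, 0, 0, ⟨0, 0⟩, 0⟩ 0 0) (.pos 26 .mp ⟨92162707, 0, 0, 0, 0, 31640149, 0, 0, 0, ⟨0, 0⟩, 0⟩ 0 0))))) (.cut .s 11993088 (.pos 24 .mp ⟨92313742, 0, 0, 0, 0, 0, 0, 0, 0, ⟨0, 0⟩, 0⟩ 0 0) (.pos 24 .mp ⟨110746900, 0, 0, 0, 0, 0, 0, 0, 0, ⟨0, 0⟩, 0⟩ 0 0)))) (.pos 22 .mp ⟨143433874, 0, 0, 0, 0, 0, 0, 0, 0, ⟨0, 0⟩, 0⟩ 0 0)))))) (.void 20 ⟨100000, 0, 0, 0, 0, 0, 0, 0, 0, ⟨0, 0⟩, 0⟩ 0 0))) (.void 18 ⟨100000, 0, 0, 0, 0, 0, 0, 0, 0, ⟨0, 0⟩, 0⟩ 0 0)) (.void 41 ⟨100000, 0, 0, 0, 0, 0, 0, 0, 0, ⟨0, 0⟩, 0⟩ 0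 0)) (.void 52 ⟨100000, 0, 0, 0, 0, 0, 0, 0, 0, ⟨0, 0⟩, 0⟩ 0 0)) (.void 77 ⟨92493, 0, 0, 7507, 0, 0, 0, 0, 0, ⟨0, 0⟩, 0⟩ 0 0))) (.cut .v 16777216 (.cut .v 8388608 (.cut .v 4194304 (.cut .v 2097152 (.void 63 ⟨0, 0, 50000, 0, 50000, 0, 0, 0, 0, ⟨0, 0⟩, 0⟩ 0 0) (.pos 64 .pm ⟨0, 0, 2139665, 0, 0, 0, 0, 0, 9932542, ⟨0, 0⟩, 7053950⟩ 0 0)) (.cut .d 3608508 (.pos 5 .pm ⟨0, 0, 7224398, 0, 0, 0, 0, 0, 0, ⟨0, 0⟩, 0⟩ 0 0) (.cut .d 5412762 (.pos 5 .pm ⟨0, 0, 0, 0, 0, 0, 0, 0, 0, ⟨0, 0⟩, 0⟩ 0 0) (.cut .v 6291456 (.pos 55 .pm ⟨0, 41074008, 0, 0, 0, 0, 0, 0, 6940276, ⟨0, 0⟩, 9283521⟩ 0 0) (.cut .d 6314889 (.cut .d 5863825 (.pos 56 .pm ⟨0, 26753686, 0, 0, 0, 0, 0, 0, 0, ⟨0, 0⟩,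 0⟩ 0 0) (.cut .s 11993088 (.cut .v 7340032 (.pos 65 .pm ⟨0, 35241133, 0, 0, 0, 0, 0, 0, 4029738, ⟨0, 0⟩, 10677565⟩ 0 0) (.pos 66 .pm ⟨0, 31135873, 0, 0, 0, 0, 0, 0, 128455, ⟨0, 0⟩, 11473790⟩ 0 0)) (.pos 56 .pm ⟨0, 43696225, 0, 0, 0, 0, 0, 0, 0, ⟨0, 0⟩, 0⟩ 0 0))) (.cut .s 11993088 (.cut .s 11862016 (.cut .s 11796480 (.pos 56 .pm ⟨0, 39741853, 0, 0, 0, 0, 0, 0, 2480410, ⟨0, 0⟩, 11040029⟩ 0 0) (.pos 56 .pm ⟨0, 194244406, 0, 0, 0, 0, 0, 0, 7982665, ⟨0, 0⟩, 11040029⟩ 0 0)) (.void 56 ⟨0, 95502, 0, 0, 0, 0, 0, 0, 4498, ⟨0, 0⟩, 11040029⟩ 0 0)) (.void 56 ⟨0, 0, 0, 100000, 0, 0, 0, 0, 0, ⟨0, 0⟩, 0⟩ 0 0))))))) (.cut .d 3608508 (.pos 3 .pm ⟨0, 0, 0, 0, 0, 0, 0, 0, 0, ⟨0, 0⟩,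 0⟩ 0 0) (.cut .d 5412762 (.pos 3 .pm ⟨0, 0, 0, 0, 0, 0, 0, 0, 0, ⟨0, 0⟩, 0⟩ 0 0) (.cut .d 6314889 (.cut .s 11993088 (.pos 3 .pm ⟨0, 28723358, 0, 0, 0, 0, 0, 0, 0, ⟨0, 0⟩, 0⟩ 0 0) (.pos 3 .pm ⟨0, 44658488, 0, 0, 0, 0, 0, 0, 0, ⟨0, 0⟩, 0⟩ 0 0)) (.pos 3 .pm ⟨0, 58770050, 0, 0, 0, 0, 0, 0, 0, ⟨0, 0⟩, 0⟩ 0 0))))) (.cut .v 268435456 (.cut .v 67108864 (.cut .d 3608508 (.cut .d 1804254 (.cut .v 33554432 (.cut .d 902127 (.cut .v 25165824 (.cut .v 20971520 (.cut .v 18874368 (.pos 21 .pp ⟨62690205, 0, 0, 0, 0, 0, 0, 0, 0, ⟨0, 0⟩, 0⟩ 0 0) (.pos 22 .pp ⟨92072589, 0, 0, 0, 0, 0, 0, 0, 0, ⟨0, 0⟩, 0⟩ 0 0)) (.pos 20 .pp ⟨133021718, 0, 0, 0, 0, 0, 0, 0, 0, ⟨0, 0⟩, 0⟩ 0 0)) (.pos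 18 .pp ⟨264014905, 0, 0, 0, 0, 0, 0, 0, 0, ⟨0, 0⟩, 0⟩ 0 0)) (.pos 16 .pp ⟨29479419, 0, 0, 0, 0, 0, 0, 0, 0, ⟨0, 0⟩, 0⟩ 0 0)) (.cut .v 50331648 (.cut .d 902127 (.void 42 ⟨100000, 0, 0, 0, 0, 0, 0, 0, 0, ⟨0, 0⟩, 0⟩ 0 0) (.pos 42 .pp ⟨353819486, 0, 0, 0, 0, 0, 0, 0, 0, ⟨0, 0⟩, 0⟩ 0 0)) (.void 43 ⟨39378, 60622, 0, 0, 0, 0, 0, 0, 0, ⟨0, 0⟩, 0⟩ 0 0))) (.pos 40 .pp ⟨0, 0, 0, 0, 0, 0, 0, 0, 0, ⟨0, 0⟩, 0⟩ 0 0)) (.pos 40 .pp ⟨0, 18513602, 0, 0, 0, 0, 0, 0, 0, ⟨0, 0⟩, 0⟩ 0 0)) (.void 52 ⟨36034, 63966, 0, 0, 0, 0, 0, 0, 0, ⟨0, 0⟩, 0⟩ 0 0)) (.void 77 ⟨0, 0, 0, 100000, 0, 0, 0, 0, 0, ⟨0, 0⟩, 0⟩ 0 0)))),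
    by decide +kernel⟩

def covers18 : cell.Covers table row18.1 :=
  ⟨(.cut .d 0 (.cut .v 16777216 (.cut .v 8388608 (.void 2 ⟨0, 0, 100000, 0, 0, 0, 0, 0, 0, ⟨0, 0⟩, 0⟩ 0 0) (.cut .d (-8388608) (.void 3 ⟨0, 0, 0, 0, 0, 100000, 0, 0, 0, ⟨0, 0⟩, 0⟩ 0 0) (.cut .d (-4194304) (.void 3 ⟨0, 0, 0, 0, 0, 100000, 0, 0, 0, ⟨0, 0⟩, 0⟩ 0 0) (.cut .d (-2097152) (.void 3 ⟨0, 0, 0, 0, 0, 100000, 0, 0, 0, ⟨0, 0⟩, 0⟩ 0 0) (.cut .d (-1048576) (.void 3 ⟨0, 0, 0, 0, 0, 100000, 0, 0, 0, ⟨0, 0⟩, 0⟩ 0 0) (.cut .d (-524288) (.void 3 ⟨0, 0, 0, 0, 0, 100000, 0, 0, 0, ⟨0, 0⟩, 0⟩ 0 0) (.cut .d (-262144) (.pos 3 .mm ⟨0, 0, 0, 0, 0, 261634444, 0, 0, 0, ⟨0, 0⟩, 0⟩ 0 0) (.cut .s 12484608 (.pos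 3 .mm ⟨0, 0, 0, 0, 0, 189387990, 0, 0, 0, ⟨0, 0⟩, 0⟩ 0 0) (.pos 3 .mm ⟨0, 0, 0, 0, 0, 226020561, 0, 0, 0, ⟨0, 0⟩, 0⟩ 0 0))))))))) (.cut .v 268435456 (.cut .v 67108864 (.cut .v 33554432 (.cut .v 25165824 (.cut .d (-8388608) (.void 17 ⟨100000, 0, 0, 0, 0, 0, 0, 0, 0, ⟨0, 0⟩, 0⟩ 0 0) (.cut .v 20971520 (.cut .d (-4194304) (.void 19 ⟨100000, 0, 0, 0, 0, 0, 0, 0, 0, ⟨0, 0⟩, 0⟩ 0 0) (.cut .d (-2097152) (.void 19 ⟨100000, 0, 0, 0, 0, 0, 0, 0, 0, ⟨0, 0⟩, 0⟩ 0 0) (.cut .d (-1048576) (.void 19 ⟨100000, 0, 0, 0, 0, 0, 0, 0, 0, ⟨0, 0⟩, 0⟩ 0 0) (.cut .d (-524288) (.void 19 ⟨0, 0, 0, 0, 0, 100000, 0, 0, 0, ⟨0, 0⟩, 0⟩ 0 0) (.cut .v 18874368 (.cut .d (-262144) (.cut .v 17825792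 (.cut .v 17301504 (.pos 25 .mp ⟨0, 0, 0, 0, 0, 276007427, 0, 0, 0, ⟨0, 0⟩, 0⟩ 0 0) (.cut .s 12484608 (.pos 26 .mp ⟨82970590, 0, 0, 0, 0, 111236353, 0, 0, 0, ⟨0, 0⟩, 0⟩ 0 0) (.void 26 ⟨0, 0, 0, 0, 0, 100000, 0, 0, 0, ⟨0, 0⟩, 0⟩ 0 0))) (.void 24 ⟨100000, 0, 0, 0, 0, 0, 0, 0, 0, ⟨0, 0⟩, 0⟩ 0 0)) (.cut .v 17825792 (.cut .s 12484608 (.cut .v 17301504 (.cut .d (-131072) (.cut .l 1593835 (.cut .s 12369920 (.pos 25 .mp ⟨61278804, 0, 0, 0, 0, 103515954, 0, 0, 0, ⟨0, 0⟩, 0⟩ 0 0) (.pos 25 .mp ⟨66207347, 0, 0, 0, 0, 112180602, 0, 0, 0, ⟨0, 0⟩, 0⟩ 0 0)) (.cut .v 17039360 (.pos 44 .mp ⟨0, 0, 0, 0, 0, 198353965, 0, 0, 0, ⟨0, 0⟩, 0⟩ 0 0) (.cut .v 17170432 (.pos 78 .mp ⟨0, 0, 0,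 0, 0, 201996219, 0, 0, 0, ⟨0, 0⟩, 0⟩ 0 0) (.cut .s 12369920 (.cut .d (-196608) (.pos 79 .mp ⟨42405194, 0, 0, 0, 0, 131527015, 0, 0, 0, ⟨0, 0⟩, 0⟩ 0 0) (.pos 79 .mp ⟨77429544, 0, 0, 0, 0, 62408384, 0, 0, 0, ⟨0, 0⟩, 0⟩ 0 0)) (.cut .s 12427264 (.pos 79 .mp ⟨60456881, 0, 0, 0, 0, 109261025, 0, 0, 0, ⟨0, 0⟩, 0⟩ 0 0) (.pos 79 .mp ⟨62816019, 0, 0, 0, 0, 114084839, 0, 0, 0, ⟨0, 0⟩, 0⟩ 0 0)))))) (.cut .l 1593835 (.cut .s 12369920 (.cut .v 17039360 (.cut .l 1027604 (.cut .d (-65536) (.pos 44 .mp ⟨56626815, 0, 0, 0, 0, 102208137, 0, 0, 0, ⟨0, 0⟩, 0⟩ 0 0) (.cut .d (-32768) (.cut .l 744488 (.cut .l 602930 (.cut .d (-49152) (.pos 44 .mp ⟨58052807, 0, 0, 0, 0, 106393705, 0, 0,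 0, ⟨0, 0⟩, 0⟩ 0 0) (.cut .v 16908288 (.pos 53 .mp ⟨56450769, 0, 0, 0, 0, 88120544, 0, 0, 0, ⟨0, 0⟩, 0⟩ 0 0) (.pos 54 .mp ⟨67777917, 0, 0, 0, 0, 71464027, 0, 0, 0, ⟨0, 0⟩, 0⟩ 0 0))) (.pos 44 .mp ⟨64362809, 0, 0, 0, 0, 67920727, 0, 0, 0, ⟨0, 0⟩, 0⟩ 0 0)) (.pos 44 .mp ⟨63230462, 0, 0, 0, 0, 0, 0, 0, 0, ⟨0, 0⟩, 0⟩ 0 0)) (.pos 44 .mp ⟨60212869, 0, 0, 0, 0, 0, 0, 0, 0, ⟨0, 0⟩, 0⟩ 0 0))) (.pos 44 .mp ⟨49832236, 0, 0, 0, 0, 97283642, 0, 0, 0, ⟨0, 0⟩, 0⟩ 0 0)) (.cut .s 12312576 (.pos 45 .mp ⟨98334276, 0, 0, 0, 0, 22199698, 0, 0, 0, ⟨0, 0⟩, 0⟩ 0 0) (.pos 45 .mp ⟨101014699, 0, 0, 0, 0, 25025202, 0, 0, 0, ⟨0, 0⟩, 0⟩ 0 0))) (.cut .v 17039360 (.cut .l 1027604 (.cut .d (-65536)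 (.pos 44 .mp ⟨60982304, 0, 0, 0, 0, 110926390, 0, 0, 0, ⟨0, 0⟩, 0⟩ 0 0) (.cut .d (-32768) (.cut .l 744488 (.cut .s 12427264 (.cut .v 16908288 (.pos 53 .mp ⟨60683634, 0, 0, 0, 0, 93958297, 0, 0, 0, ⟨0, 0⟩, 0⟩ 0 0) (.pos 54 .mp ⟨76491250, 0, 0, 0, 0, 70607574, 0, 0, 0, ⟨0, 0⟩, 0⟩ 0 0)) (.cut .v 16908288 (.pos 53 .mp ⟨62883669, 0, 0, 0, 0, 98575129, 0, 0, 0, ⟨0, 0⟩, 0⟩ 0 0) (.pos 54 .mp ⟨78115102, 0, 0, 0, 0, 75970473, 0, 0, 0, ⟨0, 0⟩, 0⟩ 0 0))) (.pos 44 .mp ⟨68001612, 0, 0, 0, 0, 22655473, 0, 0, 0, ⟨0, 0⟩, 0⟩ 0 0)) (.pos 44 .mp ⟨64726025, 0, 0, 0, 0, 0, 0, 0, 0, ⟨0, 0⟩, 0⟩ 0 0))) (.pos 44 .mp ⟨53461841, 0, 0, 0, 0, 106991333, 0, 0, 0, ⟨0, 0⟩, 0⟩ 0 0)) (.cut .s 12427264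 (.pos 45 .mp ⟨103929879, 0, 0, 0, 0, 27837650, 0, 0, 0, ⟨0, 0⟩, 0⟩ 0 0) (.pos 45 .mp ⟨107138744, 0, 0, 0, 0, 30540190, 0, 0, 0, ⟨0, 0⟩, 0⟩ 0 0)))) (.pos 25 .mp ⟨69337392, 0, 0, 0, 0, 0, 0, 0, 0, ⟨0, 0⟩, 0⟩ 0 0))) (.cut .d (-131072) (.cut .l 1593835 (.pos 26 .mp ⟨140639861, 0, 0, 0, 0, 0, 0, 0, 0, ⟨0, 0⟩, 0⟩ 0 0) (.cut .d (-196608) (.cut .s 12369920 (.pos 26 .mp ⟨91837559, 0, 0, 0, 0, 47165157, 0, 0, 0, ⟨0, 0⟩, 0⟩ 0 0) (.cut .s 12427264 (.pos 26 .mp ⟨90852885, 0, 0, 0, 0, 62137329, 0, 0, 0, ⟨0, 0⟩, 0⟩ 0 0) (.pos 26 .mp ⟨94031451, 0, 0, 0, 0, 65838182, 0, 0, 0, ⟨0, 0⟩, 0⟩ 0 0))) (.pos 26 .mp ⟨118699213, 0, 0, 0, 0, 0, 0, 0, 0, ⟨0, 0⟩, 0⟩ 0 0))) (.pos 26 .mp ⟨117444029,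 0, 0, 0, 0, 0, 0, 0, 0, ⟨0, 0⟩, 0⟩ 0 0))) (.cut .d (-131072) (.cut .v 17301504 (.cut .l 1593835 (.pos 25 .mp ⟨71441547, 0, 0, 0, 0, 142025347, 0, 0, 0, ⟨0, 0⟩, 0⟩ 0 0) (.cut .v 17039360 (.pos 44 .mp ⟨0, 0, 0, 0, 0, 236347131, 0, 0, 0, ⟨0, 0⟩, 0⟩ 0 0) (.cut .s 12599296 (.cut .s 12541952 (.pos 45 .mp ⟨64109997, 0, 0, 0, 0, 121082545, 0, 0, 0, ⟨0, 0⟩, 0⟩ 0 0) (.pos 45 .mp ⟨66561248, 0, 0, 0, 0, 126580782, 0, 0, 0, ⟨0, 0⟩, 0⟩ 0 0)) (.cut .s 12656640 (.pos 45 .mp ⟨69082757, 0, 0, 0, 0, 132379343, 0, 0, 0, ⟨0, 0⟩, 0⟩ 0 0) (.pos 45 .mp ⟨71677438, 0, 0, 0, 0, 138477092, 0, 0, 0, ⟨0, 0⟩, 0⟩ 0 0))))) (.cut .l 1593835 (.void 26 ⟨100000, 0, 0, 0, 0, 0, 0, 0, 0, ⟨0, 0⟩, 0⟩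 0 0) (.cut .v 17563648 (.cut .s 12599296 (.cut .s 12541952 (.pos 48 .mp ⟨95925558, 0, 0, 0, 0, 69237040, 0, 0, 0, ⟨0, 0⟩, 0⟩ 0 0) (.pos 48 .mp ⟨99435148, 0, 0, 0, 0, 72929760, 0, 0, 0, ⟨0, 0⟩, 0⟩ 0 0)) (.cut .s 12656640 (.pos 48 .mp ⟨103273143, 0, 0, 0, 0, 76449648, 0, 0, 0, ⟨0, 0⟩, 0⟩ 0 0) (.pos 48 .mp ⟨107477759, 0, 0, 0, 0, 79728004, 0, 0, 0, ⟨0, 0⟩, 0⟩ 0 0))) (.pos 49 .mp ⟨152166304, 0, 0, 0, 0, 0, 0, 0, 0, ⟨0, 0⟩, 0⟩ 0 0)))) (.cut .l 1593835 (.cut .v 17301504 (.cut .s 12599296 (.cut .v 17039360 (.cut .d (-65536) (.cut .s 12541952 (.pos 44 .mp ⟨66816114, 0, 0, 0, 0, 108382706, 0, 0, 0, ⟨0, 0⟩, 0⟩ 0 0) (.pos 44 .mp ⟨63013442, 0, 0, 0, 0, 127920752, 0, 0, 0,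 ⟨0, 0⟩, 0⟩ 0 0)) (.cut .d (-32768) (.cut .l 1027604 (.cut .l 744488 (.cut .s 12541952 (.cut .v 16908288 (.pos 53 .mp ⟨65142419, 0, 0, 0, 0, 103414861, 0, 0, 0, ⟨0, 0⟩, 0⟩ 0 0) (.pos 54 .mp ⟨80111758, 0, 0, 0, 0, 81095921, 0, 0, 0, ⟨0, 0⟩, 0⟩ 0 0)) (.cut .s 12570624 (.pos 44 .mp ⟨68591286, 0, 0, 0, 0, 107140800, 0, 0, 0, ⟨0, 0⟩, 0⟩ 0 0) (.pos 44 .mp ⟨69795468, 0, 0, 0, 0, 109708423, 0, 0, 0, ⟨0, 0⟩, 0⟩ 0 0))) (.pos 44 .mp ⟨70096877, 0, 0, 0, 0, 86558368, 0, 0, 0, ⟨0, 0⟩, 0⟩ 0 0)) (.pos 44 .mp ⟨0, 0, 0, 0, 0, 0, 0, 0, 0, ⟨0, 0⟩, 0⟩ 0 0)) (.pos 44 .mp ⟨69467503, 0, 0, 0, 0, 0, 0, 0, 0, ⟨0, 0⟩, 0⟩ 0 0))) (.cut .s 12541952 (.pos 45 .mp ⟨110702565, 0, 0, 0, 0, 33030989,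 0, 0, 0, ⟨0, 0⟩, 0⟩ 0 0) (.pos 45 .mp ⟨114685119, 0, 0, 0, 0, 35202896, 0, 0, 0, ⟨0, 0⟩, 0⟩ 0 0))) (.cut .v 17039360 (.cut .d (-65536) (.cut .s 12656640 (.pos 44 .mp ⟨65282217, 0, 0, 0, 0, 133871861, 0, 0, 0, ⟨0, 0⟩, 0⟩ 0 0) (.pos 44 .mp ⟨67612316, 0, 0, 0, 0, 140238529, 0, 0, 0, ⟨0, 0⟩, 0⟩ 0 0)) (.cut .d (-32768) (.cut .s 12656640 (.cut .s 12627968 (.pos 44 .mp ⟨71016176, 0, 0, 0, 0, 112327580, 0, 0, 0, ⟨0, 0⟩, 0⟩ 0 0) (.pos 44 .mp ⟨72253752, 0, 0, 0, 0, 114997024, 0, 0, 0, ⟨0, 0⟩, 0⟩ 0 0)) (.pos 44 .mp ⟨74597829, 0, 0, 0, 0, 119204072, 0, 0, 0, ⟨0, 0⟩, 0⟩ 0 0)) (.pos 44 .mp ⟨74455317, 0, 0, 0, 0, 0, 0, 0, 0, ⟨0, 0⟩, 0⟩ 0 0))) (.cut .s 12656640 (.pos 45 .mp ⟨119152880,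 0, 0, 0, 0, 36943087, 0, 0, 0, ⟨0, 0⟩, 0⟩ 0 0) (.pos 45 .mp ⟨124175211, 0, 0, 0, 0, 38132670, 0, 0, 0, ⟨0, 0⟩, 0⟩ 0 0)))) (.pos 26 .mp ⟨142139296, 0, 0, 0, 0, 0, 0, 0, 0, ⟨0, 0⟩, 0⟩ 0 0)) (.pos 23 .mp ⟨87031307, 0, 0, 0, 0, 0, 0, 0, 0, ⟨0, 0⟩, 0⟩ 0 0)))) (.cut .s 12484608 (.pos 24 .mp ⟨131079637, 0, 0, 0, 0, 0, 0, 0, 0, ⟨0, 0⟩, 0⟩ 0 0) (.pos 24 .mp ⟨153103738, 0, 0, 0, 0, 0, 0, 0, 0, ⟨0, 0⟩, 0⟩ 0 0)))) (.pos 22 .mp ⟨197486685, 0, 0, 0, 0, 0, 0, 0, 0, ⟨0, 0⟩, 0⟩ 0 0)))))) (.void 20 ⟨100000, 0, 0, 0, 0, 0, 0, 0, 0, ⟨0, 0⟩, 0⟩ 0 0))) (.void 18 ⟨100000, 0, 0, 0, 0, 0, 0, 0, 0, ⟨0, 0⟩, 0⟩ 0 0)) (.void 41 ⟨100000, 0, 0, 0, 0, 0, 0, 0, 0, ⟨0, 0⟩, 0⟩ 0 0)) (.void 52 ⟨100000,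 0, 0, 0, 0, 0, 0, 0, 0, ⟨0, 0⟩, 0⟩ 0 0)) (.void 77 ⟨92234, 0, 0, 7766, 0, 0, 0, 0, 0, ⟨0, 0⟩, 0⟩ 0 0))) (.cut .v 16777216 (.cut .v 8388608 (.cut .v 4194304 (.cut .v 2097152 (.pos 63 .pm ⟨0, 0, 20385184, 0, 0, 0, 0, 0, 43077272, ⟨0, 0⟩, 2804900⟩ 0 0) (.cut .d 3095263 (.pos 64 .pm ⟨0, 0, 9953503, 0, 0, 0, 0, 0, 0, ⟨0, 0⟩, 0⟩ 0 0) (.pos 64 .pm ⟨0, 20321420, 0, 0, 0, 0, 0, 0, 10429769, ⟨0, 0⟩, 7053950⟩ 0 0))) (.cut .d 3095263 (.pos 5 .pm ⟨0, 0, 15518311, 0, 0, 0, 0, 0, 0, ⟨0, 0⟩, 0⟩ 0 0) (.cut .d 4642894 (.pos 5 .pm ⟨0, 0, 0, 0, 0, 0, 0, 0, 0, ⟨0, 0⟩, 0⟩ 0 0) (.cut .d 5416710 (.cut .v 6291456 (.pos 55 .pm ⟨0, 37444366, 0, 0, 0, 0, 0, 0, 0, ⟨0, 0⟩, 0⟩ 0 0) (.pos 56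 .pm ⟨0, 40047135, 0, 0, 0, 0, 0, 0, 0, ⟨0, 0⟩, 0⟩ 0 0)) (.cut .v 6291456 (.pos 55 .pm ⟨0, 59441253, 0, 0, 0, 0, 0, 0, 0, ⟨0, 0⟩, 0⟩ 0 0) (.pos 56 .pm ⟨0, 64324647, 0, 0, 0, 0, 0, 0, 0, ⟨0, 0⟩, 0⟩ 0 0)))))) (.cut .d 3095263 (.pos 3 .pm ⟨0, 0, 0, 0, 0, 0, 0, 0, 0, ⟨0, 0⟩, 0⟩ 0 0) (.cut .d 4642894 (.pos 3 .pm ⟨0, 0, 0, 0, 0, 0, 0, 0, 0, ⟨0, 0⟩, 0⟩ 0 0) (.pos 3 .pm ⟨0, 61663467, 0, 0, 0, 0, 0, 0, 0, ⟨0, 0⟩, 0⟩ 0 0)))) (.cut .v 268435456 (.cut .v 67108864 (.cut .d 3095263 (.cut .d 1547631 (.cut .v 33554432 (.cut .d 773815 (.cut .v 25165824 (.cut .v 20971520 (.cut .v 18874368 (.pos 21 .pp ⟨81154198, 0, 0, 0, 0, 0, 0, 0, 0, ⟨0, 0⟩, 0⟩ 0 0) (.pos 22 .pp ⟨128231833, 0,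 0, 0, 0, 0, 0, 0, 0, ⟨0, 0⟩, 0⟩ 0 0)) (.pos 20 .pp ⟨180241920, 0, 0, 0, 0, 0, 0, 0, 0, ⟨0, 0⟩, 0⟩ 0 0)) (.pos 18 .pp ⟨344867695, 0, 0, 0, 0, 0, 0, 0, 0, ⟨0, 0⟩, 0⟩ 0 0)) (.pos 16 .pp ⟨52933098, 0, 0, 0, 0, 0, 0, 0, 0, ⟨0, 0⟩, 0⟩ 0 0)) (.cut .v 50331648 (.cut .d 773815 (.void 42 ⟨100000, 0, 0, 0, 0, 0, 0, 0, 0, ⟨0, 0⟩, 0⟩ 0 0) (.pos 42 .pp ⟨480360795, 0, 0, 0, 0, 0, 0, 0, 0, ⟨0, 0⟩, 0⟩ 0 0)) (.pos 43 .pp ⟨1743074585, 998353985, 0, 0, 0, 0, 0, 0, 0, ⟨0, 0⟩, 0⟩ 0 0))) (.pos 40 .pp ⟨0, 5097594, 0, 0, 0, 0, 0, 0, 0, ⟨0, 0⟩, 0⟩ 0 0)) (.pos 40 .pp ⟨0, 19438375, 0, 0, 0, 0, 0, 0, 0, ⟨0, 0⟩, 0⟩ 0 0)) (.void 52 ⟨35775, 64225, 0, 0, 0, 0, 0, 0, 0, ⟨0, 0⟩, 0⟩ 0 0)) (.void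 77 ⟨0, 0, 0, 100000, 0, 0, 0, 0, 0, ⟨0, 0⟩, 0⟩ 0 0)))),
    by decide +kernel⟩

def covers19 : cell.Covers table row19.1 :=
  ⟨(.cut .d 0 (.cut .v 16777216 (.cut .v 8388608 (.void 2 ⟨0, 0, 100000, 0, 0, 0, 0, 0, 0, ⟨0, 0⟩, 0⟩ 0 0) (.cut .d (-8388608) (.void 3 ⟨0, 0, 0, 0, 0, 100000, 0, 0, 0, ⟨0, 0⟩, 0⟩ 0 0) (.cut .d (-4194304) (.void 3 ⟨0, 0, 0, 0, 0, 100000, 0, 0, 0, ⟨0, 0⟩, 0⟩ 0 0) (.cut .d (-2097152) (.void 3 ⟨0, 0, 0, 0, 0, 100000, 0, 0, 0, ⟨0, 0⟩, 0⟩ 0 0) (.cut .d (-1048576) (.void 3 ⟨0, 0, 0, 0, 0, 100000, 0, 0, 0, ⟨0, 0⟩, 0⟩ 0 0) (.cut .d (-524288) (.void 3 ⟨0, 0, 0, 0, 0, 100000, 0, 0, 0, ⟨0, 0⟩, 0⟩ 0 0) (.cut .d (-262144) (.void 3 ⟨0, 0, 0, 0, 0, 100000,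 0, 0, 0, ⟨0, 0⟩, 0⟩ 0 0) (.cut .v 12582912 (.pos 6 .mm ⟨0, 0, 0, 0, 0, 173352023, 0, 0, 0, ⟨0, 0⟩, 0⟩ 0 0) (.cut .v 14680064 (.pos 10 .mm ⟨0, 0, 0, 0, 0, 245504562, 0, 0, 0, ⟨0, 0⟩, 0⟩ 0 0) (.cut .v 15728640 (.pos 12 .mm ⟨0, 0, 0, 0, 0, 275043747, 0, 0, 0, ⟨0, 0⟩, 0⟩ 0 0) (.cut .s 12976128 (.cut .s 12845056 (.pos 13 .mm ⟨0, 0, 0, 0, 0, 253025702, 0, 0, 0, ⟨0, 0⟩, 0⟩ 0 0) (.pos 13 .mm ⟨0, 0, 0, 0, 0, 279603084, 0, 0, 0, ⟨0, 0⟩, 0⟩ 0 0)) (.cut .s 13107200 (.pos 13 .mm ⟨0, 0, 0, 0, 0, 308849249, 0, 0, 0, ⟨0, 0⟩, 0⟩ 0 0) (.pos 13 .mm ⟨0, 0, 0, 0, 0, 340685547, 0, 0, 0, ⟨0, 0⟩, 0⟩ 0 0))))))))))))) (.cut .v 268435456 (.cut .v 67108864 (.cut .v 33554432 (.cut .v 25165824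 (.cut .d (-8388608) (.void 17 ⟨100000, 0, 0, 0, 0, 0, 0, 0, 0, ⟨0, 0⟩, 0⟩ 0 0) (.cut .d (-4194304) (.void 17 ⟨100000, 0, 0, 0, 0, 0, 0, 0, 0, ⟨0, 0⟩, 0⟩ 0 0) (.cut .v 20971520 (.cut .d (-2097152) (.void 19 ⟨100000, 0, 0, 0, 0, 0, 0, 0, 0, ⟨0, 0⟩, 0⟩ 0 0) (.cut .d (-1048576) (.void 19 ⟨100000, 0, 0, 0, 0, 0, 0, 0, 0, ⟨0, 0⟩, 0⟩ 0 0) (.cut .d (-524288) (.void 19 ⟨100000, 0, 0, 0, 0, 0, 0, 0, 0, ⟨0, 0⟩, 0⟩ 0 0) (.cut .d (-262144) (.void 19 ⟨0, 0, 0, 0, 0, 100000, 0, 0, 0, ⟨0, 0⟩, 0⟩ 0 0) (.cut .v 18874368 (.cut .v 17825792 (.cut .d (-131072) (.cut .l 1593835 (.pos 23 .mp ⟨88451001, 0, 0, 0, 0, 330337207, 0, 0, 0, ⟨0, 0⟩, 0⟩ 0 0) (.cut .s 12976128 (.cut .v 17301504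 (.cut .v 17039360 (.pos 44 .mp ⟨0, 0, 0, 0, 0, 288908641, 0, 0, 0, ⟨0, 0⟩, 0⟩ 0 0) (.cut .s 12845056 (.cut .s 12779520 (.pos 45 .mp ⟨74372082, 0, 0, 0, 0, 146734650, 0, 0, 0, ⟨0, 0⟩, 0⟩ 0 0) (.cut .s 12812288 (.pos 45 .mp ⟨77659769, 0, 0, 0, 0, 149723251, 0, 0, 0, ⟨0, 0⟩, 0⟩ 0 0) (.pos 45 .mp ⟨79338834, 0, 0, 0, 0, 153356688, 0, 0, 0, ⟨0, 0⟩, 0⟩ 0 0))) (.cut .d (-196608) (.pos 45 .mp ⟨0, 0, 0, 0, 0, 329864322, 0, 0, 0, ⟨0, 0⟩, 0⟩ 0 0) (.cut .s 12910592 (.pos 45 .mp ⟨81042181, 0, 0, 0, 0, 158332989, 0, 0, 0, ⟨0, 0⟩, 0⟩ 0 0) (.pos 45 .mp ⟨84524234, 0, 0, 0, 0, 166292554, 0, 0, 0, ⟨0, 0⟩, 0⟩ 0 0))))) (.cut .v 17563648 (.cut .s 12845056 (.cut .d (-196608) (.cut .s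 12779520 (.pos 48 .mp ⟨106404783, 0, 0, 0, 0, 100378397, 0, 0, 0, ⟨0, 0⟩, 0⟩ 0 0) (.pos 48 .mp ⟨111452516, 0, 0, 0, 0, 105235671, 0, 0, 0, ⟨0, 0⟩, 0⟩ 0 0)) (.pos 48 .mp ⟨133497996, 0, 0, 0, 0, 47326761, 0, 0, 0, ⟨0, 0⟩, 0⟩ 0 0)) (.cut .l 2160066 (.pos 48 .mp ⟨193968392, 0, 0, 0, 0, 0, 0, 0, 0, ⟨0, 0⟩, 0⟩ 0 0) (.cut .d (-196608) (.cut .s 12910592 (.cut .d (-229376) (.void 48 ⟨0, 0, 0, 0, 0, 100000, 0, 0, 0, ⟨0, 0⟩, 0⟩ 0 0) (.pos 48 .mp ⟨111015635, 0, 0, 0, 0, 113882328, 0, 0, 0, ⟨0, 0⟩, 0⟩ 0 0)) (.pos 48 .mp ⟨103557906, 0, 0, 0, 0, 154656543, 0, 0, 0, ⟨0, 0⟩, 0⟩ 0 0)) (.pos 48 .mp ⟨132150461, 0, 0, 0, 0, 72905448, 0, 0, 0, ⟨0, 0⟩, 0⟩ 0 0)))) (.pos 49 .mp ⟨186320060,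 0, 0, 0, 0, 0, 0, 0, 0, ⟨0, 0⟩, 0⟩ 0 0))) (.cut .d (-196608) (.cut .v 17301504 (.pos 25 .mp ⟨0, 0, 0, 0, 0, 387739720, 0, 0, 0, ⟨0, 0⟩, 0⟩ 0 0) (.cut .s 13107200 (.cut .v 17563648 (.cut .s 13041664 (.pos 48 .mp ⟨108207930, 0, 0, 0, 0, 162493465, 0, 0, 0, ⟨0, 0⟩, 0⟩ 0 0) (.pos 48 .mp ⟨113032222, 0, 0, 0, 0, 170680236, 0, 0, 0, ⟨0, 0⟩, 0⟩ 0 0)) (.void 49 ⟨100000, 0, 0, 0, 0, 0, 0, 0, 0, ⟨0, 0⟩, 0⟩ 0 0)) (.pos 26 .mp ⟨121782920, 0, 0, 0, 0, 199727169, 0, 0, 0, ⟨0, 0⟩, 0⟩ 0 0))) (.cut .v 17301504 (.cut .v 17039360 (.pos 44 .mp ⟨0, 0, 0, 0, 0, 344881925, 0, 0, 0, ⟨0, 0⟩, 0⟩ 0 0) (.cut .s 13107200 (.cut .s 13041664 (.pos 45 .mp ⟨88111183, 0, 0, 0, 0, 174909978, 0, 0,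 0, ⟨0, 0⟩, 0⟩ 0 0) (.pos 45 .mp ⟨91808651, 0, 0, 0, 0, 184194984, 0, 0, 0, ⟨0, 0⟩, 0⟩ 0 0)) (.cut .s 13172736 (.pos 45 .mp ⟨95622662, 0, 0, 0, 0, 194157025, 0, 0, 0, ⟨0, 0⟩, 0⟩ 0 0) (.pos 45 .mp ⟨99559675, 0, 0, 0, 0, 204805234, 0, 0, 0, ⟨0, 0⟩, 0⟩ 0 0)))) (.cut .s 13107200 (.cut .s 13041664 (.pos 26 .mp ⟨131435444, 0, 0, 0, 0, 96890531, 0, 0, 0, ⟨0, 0⟩, 0⟩ 0 0) (.pos 26 .mp ⟨134222270, 0, 0, 0, 0, 110492448, 0, 0, 0, ⟨0, 0⟩, 0⟩ 0 0)) (.pos 26 .mp ⟨171223825, 0, 0, 0, 0, 68225979, 0, 0, 0, ⟨0, 0⟩, 0⟩ 0 0)))))) (.cut .l 1593835 (.cut .s 12976128 (.cut .v 17301504 (.cut .d (-65536) (.cut .s 12845056 (.cut .v 17039360 (.cut .l 1027604 (.pos 44 .mp ⟨75593149, 0, 0,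 0, 0, 150438448, 0, 0, 0, ⟨0, 0⟩, 0⟩ 0 0) (.pos 44 .mp ⟨55298781, 0, 0, 0, 0, 172206186, 0, 0, 0, ⟨0, 0⟩, 0⟩ 0 0)) (.cut .s 12779520 (.pos 45 .mp ⟨101675244, 0, 0, 0, 0, 90346290, 0, 0, 0, ⟨0, 0⟩, 0⟩ 0 0) (.pos 45 .mp ⟨106074885, 0, 0, 0, 0, 94596056, 0, 0, 0, ⟨0, 0⟩, 0⟩ 0 0))) (.cut .v 17039360 (.cut .s 12910592 (.pos 44 .mp ⟨75893611, 0, 0, 0, 0, 162331585, 0, 0, 0, ⟨0, 0⟩, 0⟩ 0 0) (.pos 44 .mp ⟨78941495, 0, 0, 0, 0, 170568627, 0, 0, 0, ⟨0, 0⟩, 0⟩ 0 0)) (.cut .s 12910592 (.pos 45 .mp ⟨110640408, 0, 0, 0, 0, 99328179, 0, 0, 0, ⟨0, 0⟩, 0⟩ 0 0) (.pos 45 .mp ⟨115380281, 0, 0, 0, 0, 104545185, 0, 0, 0, ⟨0, 0⟩, 0⟩ 0 0)))) (.cut .d (-32768) (.cut .l 1027604 (.cut .v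 17039360 (.cut .s 12845056 (.cut .v 16908288 (.pos 53 .mp ⟨56850922, 0, 0, 0, 0, 166838344, 0, 0, 0, ⟨0, 0⟩, 0⟩ 0 0) (.cut .s 12779520 (.pos 54 .mp ⟨86002760, 0, 0, 0, 0, 110889022, 0, 0, 0, ⟨0, 0⟩, 0⟩ 0 0) (.pos 54 .mp ⟨89522616, 0, 0, 0, 0, 116340222, 0, 0, 0, ⟨0, 0⟩, 0⟩ 0 0))) (.cut .l 744488 (.cut .d (-49152) (.pos 44 .mp ⟨82089381, 0, 0, 0, 0, 166686992, 0, 0, 0, ⟨0, 0⟩, 0⟩ 0 0) (.cut .l 602930 (.cut .v 16908288 (.cut .s 12910592 (.pos 53 .mp ⟨80890467, 0, 0, 0, 0, 141766722, 0, 0, 0, ⟨0, 0⟩, 0⟩ 0 0) (.pos 53 .mp ⟨84044551, 0, 0, 0, 0, 149574608, 0, 0, 0, ⟨0, 0⟩, 0⟩ 0 0)) (.cut .s 12910592 (.pos 54 .mp ⟨90019453, 0, 0, 0, 0, 127585707, 0, 0, 0, ⟨0, 0⟩, 0⟩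 0 0) (.pos 54 .mp ⟨93570517, 0, 0, 0, 0, 134546153, 0, 0, 0, ⟨0, 0⟩, 0⟩ 0 0))) (.pos 44 .mp ⟨89967721, 0, 0, 0, 0, 112598208, 0, 0, 0, ⟨0, 0⟩, 0⟩ 0 0))) (.pos 44 .mp ⟨91983393, 0, 0, 0, 0, 112509082, 0, 0, 0, ⟨0, 0⟩, 0⟩ 0 0))) (.pos 45 .mp ⟨161471060, 0, 0, 0, 0, 0, 0, 0, 0, ⟨0, 0⟩, 0⟩ 0 0)) (.pos 25 .mp ⟨88398034, 0, 0, 0, 0, 0, 0, 0, 0, ⟨0, 0⟩, 0⟩ 0 0)) (.pos 25 .mp ⟨91751095, 0, 0, 0, 0, 0, 0, 0, 0, ⟨0, 0⟩, 0⟩ 0 0))) (.pos 26 .mp ⟨169152627, 0, 0, 0, 0, 0, 0, 0, 0, ⟨0, 0⟩, 0⟩ 0 0)) (.cut .v 17301504 (.cut .d (-65536) (.cut .s 13107200 (.cut .l 1027604 (.cut .s 13041664 (.pos 25 .mp ⟨91664247, 0, 0, 0, 0, 175425710, 0, 0, 0, ⟨0, 0⟩, 0⟩ 0 0) (.pos 25 .mp ⟨95293178,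 0, 0, 0, 0, 185168141, 0, 0, 0, ⟨0, 0⟩, 0⟩ 0 0)) (.cut .d (-98304) (.pos 25 .mp ⟨91614370, 0, 0, 0, 0, 182065634, 0, 0, 0, ⟨0, 0⟩, 0⟩ 0 0) (.cut .v 17039360 (.pos 44 .mp ⟨73825976, 0, 0, 0, 0, 190203385, 0, 0, 0, ⟨0, 0⟩, 0⟩ 0 0) (.pos 45 .mp ⟨110037393, 0, 0, 0, 0, 126035396, 0, 0, 0, ⟨0, 0⟩, 0⟩ 0 0)))) (.cut .l 1027604 (.pos 25 .mp ⟨99034481, 0, 0, 0, 0, 211484171, 0, 0, 0, ⟨0, 0⟩, 0⟩ 0 0) (.cut .s 13172736 (.pos 25 .mp ⟨91759045, 0, 0, 0, 0, 196937984, 0, 0, 0, ⟨0, 0⟩, 0⟩ 0 0) (.pos 25 .mp ⟨95283618, 0, 0, 0, 0, 207827210, 0, 0, 0, ⟨0, 0⟩, 0⟩ 0 0)))) (.cut .l 1027604 (.cut .v 17039360 (.cut .d (-32768) (.cut .s 13107200 (.cut .v 16908288 (.pos 53 .mp ⟨58888100,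 0, 0, 0, 0, 216539180, 0, 0, 0, ⟨0, 0⟩, 0⟩ 0 0) (.cut .s 13041664 (.pos 54 .mp ⟨100768962, 0, 0, 0, 0, 136108713, 0, 0, 0, ⟨0, 0⟩, 0⟩ 0 0) (.pos 54 .mp ⟨104767312, 0, 0, 0, 0, 143860089, 0, 0, 0, ⟨0, 0⟩, 0⟩ 0 0))) (.cut .s 13172736 (.cut .s 13139968 (.pos 44 .mp ⟨96202549, 0, 0, 0, 0, 172726186, 0, 0, 0, ⟨0, 0⟩, 0⟩ 0 0) (.pos 44 .mp ⟨97959954, 0, 0, 0, 0, 178011035, 0, 0, 0, ⟨0, 0⟩, 0⟩ 0 0)) (.pos 44 .mp ⟨96023544, 0, 0, 0, 0, 194591020, 0, 0, 0, ⟨0, 0⟩, 0⟩ 0 0))) (.cut .v 16908288 (.pos 53 .mp ⟨89409380, 0, 0, 0, 0, 135940960, 0, 0, 0, ⟨0, 0⟩, 0⟩ 0 0) (.pos 54 .mp ⟨170247224, 0, 0, 0, 0, 0, 0, 0, 0, ⟨0, 0⟩, 0⟩ 0 0))) (.pos 45 .mp ⟨189500308, 0, 0, 0, 0, 0, 0,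 0, 0, ⟨0, 0⟩, 0⟩ 0 0)) (.pos 25 .mp ⟨102886926, 0, 0, 0, 0, 0, 0, 0, 0, ⟨0, 0⟩, 0⟩ 0 0))) (.pos 26 .mp ⟨201489187, 0, 0, 0, 0, 0, 0, 0, 0, ⟨0, 0⟩, 0⟩ 0 0))) (.cut .v 17301504 (.cut .s 12976128 (.pos 25 .mp ⟨96818691, 0, 0, 0, 0, 81935011, 0, 0, 0, ⟨0, 0⟩, 0⟩ 0 0) (.cut .s 13107200 (.pos 25 .mp ⟨105274627, 0, 0, 0, 0, 115786727, 0, 0, 0, ⟨0, 0⟩, 0⟩ 0 0) (.pos 25 .mp ⟨114065501, 0, 0, 0, 0, 129316792, 0, 0, 0, ⟨0, 0⟩, 0⟩ 0 0))) (.pos 26 .mp ⟨160977018, 0, 0, 0, 0, 0, 0, 0, 0, ⟨0, 0⟩, 0⟩ 0 0)))) (.cut .s 12976128 (.pos 24 .mp ⟨182948829, 0, 0, 0, 0, 0, 0, 0, 0, ⟨0, 0⟩, 0⟩ 0 0) (.pos 24 .mp ⟨217438105, 0, 0, 0, 0, 0, 0, 0, 0, ⟨0, 0⟩, 0⟩ 0 0))) (.pos 22 .mp ⟨246233318,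 0, 0, 0, 0, 0, 0, 0, 0, ⟨0, 0⟩, 0⟩ 0 0)))))) (.void 20 ⟨100000, 0, 0, 0, 0, 0, 0, 0, 0, ⟨0, 0⟩, 0⟩ 0 0)))) (.void 18 ⟨100000, 0, 0, 0, 0, 0, 0, 0, 0, ⟨0, 0⟩, 0⟩ 0 0)) (.void 41 ⟨100000, 0, 0, 0, 0, 0, 0, 0, 0, ⟨0, 0⟩, 0⟩ 0 0)) (.void 52 ⟨100000, 0, 0, 0, 0, 0, 0, 0, 0, ⟨0, 0⟩, 0⟩ 0 0)) (.void 77 ⟨91939, 0, 0, 8061, 0, 0, 0, 0, 0, ⟨0, 0⟩, 0⟩ 0 0))) (.cut .v 16777216 (.cut .v 8388608 (.cut .v 4194304 (.cut .v 2097152 (.pos 63 .pm ⟨0, 0, 16794268, 0, 0, 0, 0, 0, 22385496, ⟨0, 0⟩, 2804900⟩ 0 0) (.cut .d 2680896 (.pos 64 .pm ⟨0, 0, 15749153, 0, 0, 0, 0, 0, 0, ⟨0, 0⟩, 0⟩ 0 0) (.cut .d 4021344 (.pos 64 .pm ⟨0, 0, 0, 0, 0, 0, 0, 0, 0, ⟨0, 0⟩, 0⟩ 0 0) (.pos 64 .pm ⟨0, 48516167,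 0, 0, 0, 0, 0, 0, 0, ⟨0, 0⟩, 0⟩ 0 0)))) (.cut .d 2680896 (.pos 5 .pm ⟨0, 0, 27867755, 0, 0, 0, 0, 0, 0, ⟨0, 0⟩, 0⟩ 0 0) (.cut .d 4021344 (.pos 5 .pm ⟨0, 0, 0, 0, 0, 0, 0, 0, 0, ⟨0, 0⟩, 0⟩ 0 0) (.cut .d 4691568 (.cut .v 6291456 (.pos 55 .pm ⟨0, 46163367, 0, 0, 0, 0, 0, 0, 0, ⟨0, 0⟩, 0⟩ 0 0) (.pos 56 .pm ⟨0, 50536976, 0, 0, 0, 0, 0, 0, 0, ⟨0, 0⟩, 0⟩ 0 0)) (.cut .v 6291456 (.pos 55 .pm ⟨0, 77380652, 0, 0, 0, 0, 0, 0, 0, ⟨0, 0⟩, 0⟩ 0 0) (.pos 56 .pm ⟨0, 83487567, 0, 0, 0, 0, 0, 0, 0, ⟨0, 0⟩, 0⟩ 0 0)))))) (.cut .d 2680896 (.pos 3 .pm ⟨0, 0, 0, 0, 0, 0, 0, 0, 0, ⟨0, 0⟩, 0⟩ 0 0) (.cut .d 4021344 (.pos 3 .pm ⟨0, 4130937, 0, 0, 0, 0, 0, 0, 0, ⟨0, 0⟩, 0⟩ 0 0) (.pos 3 .pm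 ⟨0, 82852059, 0, 0, 0, 0, 0, 0, 0, ⟨0, 0⟩, 0⟩ 0 0)))) (.cut .v 268435456 (.cut .v 67108864 (.cut .d 2680896 (.cut .d 1340448 (.cut .v 33554432 (.cut .d 670224 (.cut .v 25165824 (.cut .v 20971520 (.cut .v 18874368 (.pos 21 .pp ⟨106955032, 0, 0, 0, 0, 0, 0, 0, 0, ⟨0, 0⟩, 0⟩ 0 0) (.pos 22 .pp ⟨173517824, 0, 0, 0, 0, 0, 0, 0, 0, ⟨0, 0⟩, 0⟩ 0 0)) (.pos 20 .pp ⟨242002139, 0, 0, 0, 0, 0, 0, 0, 0, ⟨0, 0⟩, 0⟩ 0 0)) (.pos 18 .pp ⟨459178997, 0, 0, 0, 0, 0, 0, 0, 0, ⟨0, 0⟩, 0⟩ 0 0)) (.pos 16 .pp ⟨77891597, 0, 0, 0, 0, 0, 0, 0, 0, ⟨0, 0⟩, 0⟩ 0 0)) (.cut .v 50331648 (.cut .d 670224 (.void 42 ⟨100000, 0, 0, 0, 0, 0, 0, 0, 0, ⟨0, 0⟩, 0⟩ 0 0) (.pos 42 .pp ⟨628587061, 0, 0, 0, 0,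 0, 0, 0, 0, ⟨0, 0⟩, 0⟩ 0 0)) (.pos 43 .pp ⟨2259841463, 1373888788, 0, 0, 0, 0, 0, 0, 0, ⟨0, 0⟩, 0⟩ 0 0))) (.pos 40 .pp ⟨0, 51753794, 0, 0, 0, 0, 0, 0, 0, ⟨0, 0⟩, 0⟩ 0 0)) (.pos 40 .pp ⟨0, 23437757, 0, 0, 0, 0, 0, 0, 0, ⟨0, 0⟩, 0⟩ 0 0)) (.void 52 ⟨35332, 64668, 0, 0, 0, 0, 0, 0, 0, ⟨0, 0⟩, 0⟩ 0 0)) (.void 77 ⟨0, 0, 0, 100000, 0, 0, 0, 0, 0, ⟨0, 0⟩, 0⟩ 0 0)))),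
    by decide +kernel⟩

def covers20 : cell.Covers table row20.1 :=
  ⟨(.cut .d 0 (.cut .v 16777216 (.cut .v 8388608 (.void 2 ⟨0, 0, 100000, 0, 0, 0, 0, 0, 0, ⟨0, 0⟩, 0⟩ 0 0) (.cut .d (-8388608) (.void 3 ⟨0, 0, 0, 0, 0, 100000, 0, 0, 0, ⟨0, 0⟩, 0⟩ 0 0) (.cut .d (-4194304) (.void 3 ⟨0, 0, 0, 0, 0, 100000, 0, 0, 0, ⟨0, 0⟩, 0⟩ 0 0) (.cut .d (-2097152) (.void 3 ⟨0, 0, 0, 0, 0, 100000, 0, 0, 0, ⟨0, 0⟩, 0⟩ 0 0) (.cut .d (-1048576) (.void 3 ⟨0, 0, 0, 0, 0, 100000, 0, 0, 0, ⟨0, 0⟩, 0⟩ 0 0) (.cut .d (-524288) (.void 3 ⟨0, 0, 0, 0, 0, 100000, 0, 0, 0, ⟨0, 0⟩, 0⟩ 0 0) (.cut .d (-262144) (.void 3 ⟨0, 0, 0, 0, 0, 100000, 0, 0, 0, ⟨0, 0⟩, 0⟩ 0 0) (.cut .d (-131072) (.pos 3 .mm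 ⟨0, 0, 0, 0, 0, 511302885, 0, 0, 0, ⟨0, 0⟩, 0⟩ 0 0) (.cut .l 1593835 (.cut .d (-65536) (.pos 3 .mm ⟨0, 0, 0, 0, 0, 486377460, 0, 0, 0, ⟨0, 0⟩, 0⟩ 0 0) (.cut .s 13500416 (.pos 3 .mm ⟨0, 0, 0, 0, 0, 377026992, 0, 0, 0, ⟨0, 0⟩, 0⟩ 0 0) (.pos 3 .mm ⟨0, 0, 0, 0, 0, 455877496, 0, 0, 0, ⟨0, 0⟩, 0⟩ 0 0))) (.pos 3 .mm ⟨0, 0, 0, 0, 0, 382012351, 0, 0, 0, ⟨0, 0⟩, 0⟩ 0 0)))))))))) (.cut .v 268435456 (.cut .v 67108864 (.cut .v 33554432 (.cut .d (-8388608) (.void 16 ⟨100000, 0, 0, 0, 0, 0, 0, 0, 0, ⟨0, 0⟩, 0⟩ 0 0) (.cut .v 25165824 (.cut .d (-4194304) (.void 17 ⟨100000, 0, 0, 0, 0, 0, 0, 0, 0, ⟨0, 0⟩, 0⟩ 0 0) (.cut .v 20971520 (.cut .d (-2097152) (.void 19 ⟨100000, 0, 0, 0,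 0, 0, 0, 0, 0, ⟨0, 0⟩, 0⟩ 0 0) (.cut .d (-1048576) (.void 19 ⟨100000, 0, 0, 0, 0, 0, 0, 0, 0, ⟨0, 0⟩, 0⟩ 0 0) (.cut .d (-524288) (.void 19 ⟨100000, 0, 0, 0, 0, 0, 0, 0, 0, ⟨0, 0⟩, 0⟩ 0 0) (.cut .d (-262144) (.void 19 ⟨0, 0, 0, 0, 0, 100000, 0, 0, 0, ⟨0, 0⟩, 0⟩ 0 0) (.cut .v 18874368 (.cut .d (-131072) (.cut .v 17825792 (.cut .d (-196608) (.void 23 ⟨0, 0, 0, 0, 0, 100000, 0, 0, 0, ⟨0, 0⟩, 0⟩ 0 0) (.cut .l 1593835 (.void 23 ⟨0, 0, 0, 0, 0, 100000, 0, 0, 0, ⟨0, 0⟩, 0⟩ 0 0) (.cut .s 13500416 (.cut .v 17301504 (.cut .l 2160066 (.pos 25 .mp ⟨107901473, 0, 0, 0, 0, 270348770, 0, 0, 0, ⟨0, 0⟩, 0⟩ 0 0) (.cut .s 13369344 (.pos 25 .mp ⟨22463051, 0, 0, 0, 0, 369264369, 0,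 0, 0, ⟨0, 0⟩, 0⟩ 0 0) (.cut .s 13434880 (.pos 25 .mp ⟨58933082, 0, 0, 0, 0, 331409344, 0, 0, 0, ⟨0, 0⟩, 0⟩ 0 0) (.pos 25 .mp ⟨56322300, 0, 0, 0, 0, 356025954, 0, 0, 0, ⟨0, 0⟩, 0⟩ 0 0)))) (.cut .s 13369344 (.pos 26 .mp ⟨159614180, 0, 0, 0, 0, 134816169, 0, 0, 0, ⟨0, 0⟩, 0⟩ 0 0) (.cut .d (-163840) (.cut .s 13434880 (.pos 26 .mp ⟨152038234, 0, 0, 0, 0, 182621371, 0, 0, 0, ⟨0, 0⟩, 0⟩ 0 0) (.pos 26 .mp ⟨158961881, 0, 0, 0, 0, 190622259, 0, 0, 0, ⟨0, 0⟩, 0⟩ 0 0)) (.pos 26 .mp ⟨203323285, 0, 0, 0, 0, 81642694, 0, 0, 0, ⟨0, 0⟩, 0⟩ 0 0)))) (.cut .l 2160066 (.cut .v 17301504 (.pos 25 .mp ⟨127776405, 0, 0, 0, 0, 324518590, 0, 0, 0, ⟨0, 0⟩, 0⟩ 0 0) (.void 26 ⟨100000, 0, 0,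 0, 0, 0, 0, 0, 0, ⟨0, 0⟩, 0⟩ 0 0)) (.cut .v 17301504 (.cut .s 13631488 (.cut .s 13565952 (.pos 25 .mp ⟨55378601, 0, 0, 0, 0, 379039855, 0, 0, 0, ⟨0, 0⟩, 0⟩ 0 0) (.pos 25 .mp ⟨56412562, 0, 0, 0, 0, 399897218, 0, 0, 0, ⟨0, 0⟩, 0⟩ 0 0)) (.pos 25 .mp ⟨6538884, 0, 0, 0, 0, 525385852, 0, 0, 0, ⟨0, 0⟩, 0⟩ 0 0)) (.cut .v 17563648 (.cut .v 17432576 (.cut .s 13631488 (.cut .d (-163840) (.pos 82 .mp ⟨140502359, 0, 0, 0, 0, 263709124, 0, 0, 0, ⟨0, 0⟩, 0⟩ 0 0) (.cut .s 13565952 (.pos 82 .mp ⟨156879602, 0, 0, 0, 0, 194144972, 0, 0, 0, ⟨0, 0⟩, 0⟩ 0 0) (.pos 82 .mp ⟨161724586, 0, 0, 0, 0, 207544027, 0, 0, 0, ⟨0, 0⟩, 0⟩ 0 0))) (.cut .d (-163840) (.void 82 ⟨0, 0, 0, 0, 0, 100000,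 0, 0, 0, ⟨0, 0⟩, 0⟩ 0 0) (.pos 82 .mp ⟨177903041, 0, 0, 0, 0, 210630543, 0, 0, 0, ⟨0, 0⟩, 0⟩ 0 0))) (.pos 83 .mp ⟨304793373, 0, 0, 0, 0, 0, 0, 0, 0, ⟨0, 0⟩, 0⟩ 0 0)) (.pos 49 .mp ⟨312231962, 0, 0, 0, 0, 0, 0, 0, 0, ⟨0, 0⟩, 0⟩ 0 0))))))) (.pos 24 .mp ⟨331868673, 0, 0, 0, 0, 0, 0, 0, 0, ⟨0, 0⟩, 0⟩ 0 0)) (.cut .v 17825792 (.cut .s 13500416 (.cut .v 17301504 (.cut .s 13369344 (.cut .d (-65536) (.cut .l 1593835 (.cut .v 17039360 (.pos 44 .mp ⟨95505288, 0, 0, 0, 0, 235990491, 0, 0, 0, ⟨0, 0⟩, 0⟩ 0 0) (.cut .s 13303808 (.pos 45 .mp ⟨142122537, 0, 0, 0, 0, 138934265, 0, 0, 0, ⟨0, 0⟩, 0⟩ 0 0) (.pos 45 .mp ⟨148172369, 0, 0, 0, 0, 144682114, 0, 0, 0, ⟨0, 0⟩, 0⟩ 0 0))) (.cut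 .s 13303808 (.pos 25 .mp ⟨117894113, 0, 0, 0, 0, 166362006, 0, 0, 0, ⟨0, 0⟩, 0⟩ 0 0) (.pos 25 .mp ⟨126133203, 0, 0, 0, 0, 165762782, 0, 0, 0, ⟨0, 0⟩, 0⟩ 0 0))) (.cut .v 17039360 (.cut .l 1593835 (.cut .l 1027604 (.cut .d (-32768) (.cut .s 13303808 (.pos 44 .mp ⟨103564595, 0, 0, 0, 0, 199002931, 0, 0, 0, ⟨0, 0⟩, 0⟩ 0 0) (.cut .s 13336576 (.pos 44 .mp ⟨108825847, 0, 0, 0, 0, 200450717, 0, 0, 0, ⟨0, 0⟩, 0⟩ 0 0) (.pos 44 .mp ⟨110822915, 0, 0, 0, 0, 204704264, 0, 0, 0, ⟨0, 0⟩, 0⟩ 0 0))) (.cut .s 13303808 (.pos 44 .mp ⟨106851416, 0, 0, 0, 0, 166860882, 0, 0, 0, ⟨0, 0⟩, 0⟩ 0 0) (.cut .s 13336576 (.pos 44 .mp ⟨108825847, 0, 0, 0, 0, 178152752, 0, 0, 0, ⟨0, 0⟩, 0⟩ 0 0)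 (.pos 44 .mp ⟨110822915, 0, 0, 0, 0, 183076896, 0, 0, 0, ⟨0, 0⟩, 0⟩ 0 0)))) (.pos 44 .mp ⟨111715438, 0, 0, 0, 0, 0, 0, 0, 0, ⟨0, 0⟩, 0⟩ 0 0)) (.pos 44 .mp ⟨0, 0, 0, 0, 0, 0, 0, 0, 0, ⟨0, 0⟩, 0⟩ 0 0)) (.pos 45 .mp ⟨210352207, 0, 0, 0, 0, 0, 0, 0, 0, ⟨0, 0⟩, 0⟩ 0 0))) (.cut .d (-65536) (.cut .l 1593835 (.cut .l 1027604 (.pos 25 .mp ⟨115531168, 0, 0, 0, 0, 353581636, 0, 0, 0, ⟨0, 0⟩, 0⟩ 0 0) (.cut .v 17039360 (.pos 44 .mp ⟨44312041, 0, 0, 0, 0, 355556689, 0, 0, 0, ⟨0, 0⟩, 0⟩ 0 0) (.cut .s 13434880 (.pos 45 .mp ⟨145035503, 0, 0, 0, 0, 167441211, 0, 0, 0, ⟨0, 0⟩, 0⟩ 0 0) (.pos 45 .mp ⟨151177040, 0, 0, 0, 0, 175710788, 0, 0, 0, ⟨0, 0⟩, 0⟩ 0 0)))) (.cut .v 17039360 (.pos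 44 .mp ⟨0, 0, 0, 0, 0, 407228360, 0, 0, 0, ⟨0, 0⟩, 0⟩ 0 0) (.cut .s 13434880 (.pos 45 .mp ⟨135793213, 0, 0, 0, 0, 175272214, 0, 0, 0, ⟨0, 0⟩, 0⟩ 0 0) (.pos 45 .mp ⟨141545237, 0, 0, 0, 0, 183426522, 0, 0, 0, ⟨0, 0⟩, 0⟩ 0 0)))) (.cut .l 1593835 (.cut .v 17039360 (.cut .l 1027604 (.cut .d (-32768) (.cut .s 13434880 (.cut .s 13402112 (.pos 44 .mp ⟨112017983, 0, 0, 0, 0, 211654624, 0, 0, 0, ⟨0, 0⟩, 0⟩ 0 0) (.pos 44 .mp ⟨113277761, 0, 0, 0, 0, 218815813, 0, 0, 0, ⟨0, 0⟩, 0⟩ 0 0)) (.cut .s 13467648 (.pos 44 .mp ⟨114670412, 0, 0, 0, 0, 226001404, 0, 0, 0, ⟨0, 0⟩, 0⟩ 0 0) (.pos 44 .mp ⟨116206783, 0, 0, 0, 0, 233190638, 0, 0, 0, ⟨0, 0⟩, 0⟩ 0 0))) (.cut .d (-16384) (.cut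 .d (-24576) (.cut .l 744488 (.cut .l 602930 (.cut .v 16908288 (.cut .s 13434880 (.pos 53 .mp ⟨106611800, 0, 0, 0, 0, 218236101, 0, 0, 0, ⟨0, 0⟩, 0⟩ 0 0) (.pos 53 .mp ⟨110452698, 0, 0, 0, 0, 229494776, 0, 0, 0, ⟨0, 0⟩, 0⟩ 0 0)) (.pos 54 .mp ⟨224510562, 0, 0, 0, 0, 16095313, 0, 0, 0, ⟨0, 0⟩, 0⟩ 0 0)) (.pos 44 .mp ⟨116722371, 0, 0, 0, 0, 0, 0, 0, 0, ⟨0, 0⟩, 0⟩ 0 0)) (.pos 44 .mp ⟨0, 0, 0, 0, 0, 0, 0, 0, 0, ⟨0, 0⟩, 0⟩ 0 0)) (.pos 44 .mp ⟨116360659, 0, 0, 0, 0, 0, 0, 0, 0, ⟨0, 0⟩, 0⟩ 0 0)) (.pos 44 .mp ⟨108034626, 0, 0, 0, 0, 0, 0, 0, 0, ⟨0, 0⟩, 0⟩ 0 0))) (.pos 44 .mp ⟨119481231, 0, 0, 0, 0, 178790779, 0, 0, 0, ⟨0, 0⟩, 0⟩ 0 0)) (.pos 45 .mp ⟨232065966, 0, 0, 0, 0, 0,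 0, 0, 0, ⟨0, 0⟩, 0⟩ 0 0)) (.pos 25 .mp ⟨0, 0, 0, 0, 0, 0, 0, 0, 0, ⟨0, 0⟩, 0⟩ 0 0)))) (.cut .s 13369344 (.pos 26 .mp ⟨222686582, 0, 0, 0, 0, 0, 0, 0, 0, ⟨0, 0⟩, 0⟩ 0 0) (.pos 26 .mp ⟨240625323, 0, 0, 0, 0, 0, 0, 0, 0, ⟨0, 0⟩, 0⟩ 0 0))) (.cut .s 13631488 (.cut .v 17301504 (.cut .d (-65536) (.cut .l 1593835 (.cut .l 1027604 (.void 25 ⟨0, 0, 0, 0, 0, 100000, 0, 0, 0, ⟨0, 0⟩, 0⟩ 0 0) (.cut .v 17039360 (.pos 44 .mp ⟨32092930, 0, 0, 0, 0, 418441087, 0, 0, 0, ⟨0, 0⟩, 0⟩ 0 0) (.cut .s 13565952 (.pos 45 .mp ⟨157555114, 0, 0, 0, 0, 184733972, 0, 0, 0, ⟨0, 0⟩, 0⟩ 0 0) (.pos 45 .mp ⟨164184602, 0, 0, 0, 0, 194496173, 0, 0, 0, ⟨0, 0⟩, 0⟩ 0 0)))) (.cut .d (-98304) (.cut .l 2160066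 (.cut .s 13565952 (.pos 25 .mp ⟨116960218, 0, 0, 0, 0, 265186918, 0, 0, 0, ⟨0, 0⟩, 0⟩ 0 0) (.pos 25 .mp ⟨121616990, 0, 0, 0, 0, 278737271, 0, 0, 0, ⟨0, 0⟩, 0⟩ 0 0)) (.pos 25 .mp ⟨130242279, 0, 0, 0, 0, 209597434, 0, 0, 0, ⟨0, 0⟩, 0⟩ 0 0)) (.pos 25 .mp ⟨131280547, 0, 0, 0, 0, 203069672, 0, 0, 0, ⟨0, 0⟩, 0⟩ 0 0))) (.cut .l 1593835 (.cut .v 17039360 (.cut .l 1027604 (.cut .d (-32768) (.cut .v 16908288 (.pos 53 .mp ⟨0, 0, 0, 0, 0, 483441413, 0, 0, 0, ⟨0, 0⟩, 0⟩ 0 0) (.cut .d (-49152) (.pos 54 .mp ⟨117153068, 0, 0, 0, 0, 274204042, 0, 0, 0, ⟨0, 0⟩, 0⟩ 0 0) (.cut .s 13565952 (.pos 54 .mp ⟨131222672, 0, 0, 0, 0, 218767853, 0, 0, 0, ⟨0, 0⟩, 0⟩ 0 0) (.pos 54 .mp ⟨136069181,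 0, 0, 0, 0, 230992920, 0, 0, 0, ⟨0, 0⟩, 0⟩ 0 0)))) (.cut .d (-16384) (.cut .d (-24576) (.cut .l 744488 (.cut .l 602930 (.cut .v 16908288 (.cut .s 13565952 (.pos 53 .mp ⟨114379525, 0, 0, 0, 0, 241446719, 0, 0, 0, ⟨0, 0⟩, 0⟩ 0 0) (.pos 53 .mp ⟨118397991, 0, 0, 0, 0, 254069246, 0, 0, 0, ⟨0, 0⟩, 0⟩ 0 0)) (.pos 54 .mp ⟨229796753, 0, 0, 0, 0, 42240289, 0, 0, 0, ⟨0, 0⟩, 0⟩ 0 0)) (.pos 44 .mp ⟨125168958, 0, 0, 0, 0, 0, 0, 0, 0, ⟨0, 0⟩, 0⟩ 0 0)) (.pos 44 .mp ⟨0, 0, 0, 0, 0, 0, 0, 0, 0, ⟨0, 0⟩, 0⟩ 0 0)) (.pos 44 .mp ⟨124647341, 0, 0, 0, 0, 0, 0, 0, 0, ⟨0, 0⟩, 0⟩ 0 0)) (.pos 44 .mp ⟨114312844, 0, 0, 0, 0, 0, 0, 0, 0, ⟨0, 0⟩, 0⟩ 0 0))) (.pos 44 .mp ⟨126898382, 0, 0, 0, 0,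 202806112, 0, 0, 0, ⟨0, 0⟩, 0⟩ 0 0)) (.pos 45 .mp ⟨251957892, 0, 0, 0, 0, 0, 0, 0, 0, ⟨0, 0⟩, 0⟩ 0 0)) (.pos 25 .mp ⟨0, 0, 0, 0, 0, 0, 0, 0, 0, ⟨0, 0⟩, 0⟩ 0 0))) (.pos 26 .mp ⟨261613629, 0, 0, 0, 0, 0, 0, 0, 0, ⟨0, 0⟩, 0⟩ 0 0)) (.cut .v 17301504 (.cut .d (-65536) (.cut .l 1593835 (.cut .s 13697024 (.cut .s 13664256 (.pos 25 .mp ⟨124120348, 0, 0, 0, 0, 295508282, 0, 0, 0, ⟨0, 0⟩, 0⟩ 0 0) (.pos 25 .mp ⟨126387987, 0, 0, 0, 0, 304043717, 0, 0, 0, ⟨0, 0⟩, 0⟩ 0 0)) (.pos 25 .mp ⟨128685723, 0, 0, 0, 0, 321011180, 0, 0, 0, ⟨0, 0⟩, 0⟩ 0 0)) (.cut .s 13697024 (.cut .d (-98304) (.pos 25 .mp ⟨116544784, 0, 0, 0, 0, 308700768, 0, 0, 0, ⟨0, 0⟩, 0⟩ 0 0) (.pos 25 .mp ⟨138017453,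 0, 0, 0, 0, 232698475, 0, 0, 0, ⟨0, 0⟩, 0⟩ 0 0)) (.pos 25 .mp ⟨111596447, 0, 0, 0, 0, 336587840, 0, 0, 0, ⟨0, 0⟩, 0⟩ 0 0))) (.cut .l 1593835 (.cut .v 17039360 (.cut .l 1027604 (.cut .d (-32768) (.cut .s 13697024 (.cut .s 13664256 (.pos 44 .mp ⟨126448377, 0, 0, 0, 0, 268414927, 0, 0, 0, ⟨0, 0⟩, 0⟩ 0 0) (.pos 44 .mp ⟨129094757, 0, 0, 0, 0, 275149148, 0, 0, 0, ⟨0, 0⟩, 0⟩ 0 0)) (.pos 44 .mp ⟨124945948, 0, 0, 0, 0, 304697791, 0, 0, 0, ⟨0, 0⟩, 0⟩ 0 0)) (.cut .d (-16384) (.cut .v 16908288 (.cut .d (-24576) (.pos 53 .mp ⟨115078052, 0, 0, 0, 0, 291417237, 0, 0, 0, ⟨0, 0⟩, 0⟩ 0 0) (.pos 53 .mp ⟨122514277, 0, 0, 0, 0, 164613956, 0, 0, 0, ⟨0, 0⟩, 0⟩ 0 0)) (.pos 54 .mp ⟨147986605,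 0, 0, 0, 0, 225755282, 0, 0, 0, ⟨0, 0⟩, 0⟩ 0 0)) (.pos 44 .mp ⟨121594376, 0, 0, 0, 0, 0, 0, 0, 0, ⟨0, 0⟩, 0⟩ 0 0))) (.pos 44 .mp ⟨105550508, 0, 0, 0, 0, 290314706, 0, 0, 0, ⟨0, 0⟩, 0⟩ 0 0)) (.pos 45 .mp ⟨275108317, 0, 0, 0, 0, 0, 0, 0, 0, ⟨0, 0⟩, 0⟩ 0 0)) (.pos 25 .mp ⟨0, 0, 0, 0, 0, 0, 0, 0, 0, ⟨0, 0⟩, 0⟩ 0 0))) (.pos 26 .mp ⟨286004784, 0, 0, 0, 0, 0, 0, 0, 0, ⟨0, 0⟩, 0⟩ 0 0)))) (.pos 24 .mp ⟨271397168, 0, 0, 0, 0, 0, 0, 0, 0, ⟨0, 0⟩, 0⟩ 0 0))) (.pos 22 .mp ⟨351055305, 0, 0, 0, 0, 0, 0, 0, 0, ⟨0, 0⟩, 0⟩ 0 0)))))) (.void 20 ⟨100000, 0, 0, 0, 0, 0, 0, 0, 0, ⟨0, 0⟩, 0⟩ 0 0))) (.void 18 ⟨100000, 0, 0, 0, 0, 0, 0, 0, 0, ⟨0, 0⟩, 0⟩ 0 0))) (.void 41 ⟨100000, 0, 0, 0,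 0, 0, 0, 0, 0, ⟨0, 0⟩, 0⟩ 0 0)) (.void 52 ⟨100000, 0, 0, 0, 0, 0, 0, 0, 0, ⟨0, 0⟩, 0⟩ 0 0)) (.void 77 ⟨91647, 0, 0, 8353, 0, 0, 0, 0, 0, ⟨0, 0⟩, 0⟩ 0 0))) (.cut .v 16777216 (.cut .v 8388608 (.cut .v 4194304 (.cut .v 2097152 (.cut .v 1048576 (.pos 92 .pm ⟨0, 0, 19063711, 0, 0, 0, 0, 0, 13897216, ⟨0, 0⟩, 1983364⟩ 0 0) (.pos 93 .pm ⟨0, 1612478, 0, 0, 0, 0, 0, 0, 0, ⟨0, 0⟩, 0⟩ 0 0)) (.cut .d 2242500 (.pos 64 .pm ⟨0, 0, 25508578, 0, 0, 0, 0, 0, 0, ⟨0, 0⟩, 0⟩ 0 0) (.cut .d 3363750 (.pos 64 .pm ⟨0, 0, 0, 0, 0, 0, 0, 0, 0, ⟨0, 0⟩, 0⟩ 0 0) (.pos 64 .pm ⟨0, 65048026, 0, 0, 0, 0, 0, 0, 0, ⟨0, 0⟩, 0⟩ 0 0)))) (.cut .d 2242500 (.pos 5 .pm ⟨0, 0, 51252293, 0, 0, 0, 0, 0, 0, ⟨0,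 0⟩, 0⟩ 0 0) (.cut .d 3363750 (.pos 5 .pm ⟨0, 0, 0, 0, 0, 0, 0, 0, 0, ⟨0, 0⟩, 0⟩ 0 0) (.cut .d 3924375 (.pos 5 .pm ⟨0, 62017752, 0, 0, 0, 0, 0, 0, 0, ⟨0, 0⟩, 0⟩ 0 0) (.pos 5 .pm ⟨0, 100347461, 0, 0, 0, 0, 0, 0, 0, ⟨0, 0⟩, 0⟩ 0 0))))) (.cut .d 2242500 (.pos 3 .pm ⟨0, 0, 0, 0, 0, 0, 0, 0, 0, ⟨0, 0⟩, 0⟩ 0 0) (.pos 3 .pm ⟨0, 79767161, 0, 0, 0, 0, 0, 0, 0, ⟨0, 0⟩, 0⟩ 0 0))) (.cut .v 268435456 (.cut .v 67108864 (.cut .d 2242500 (.cut .d 1121250 (.cut .v 33554432 (.cut .d 560625 (.cut .v 25165824 (.cut .v 20971520 (.cut .v 18874368 (.pos 21 .pp ⟨139946429, 0, 0, 0, 0, 0, 0, 0, 0, ⟨0, 0⟩, 0⟩ 0 0) (.pos 22 .pp ⟨241574919, 0, 0, 0, 0, 0, 0, 0, 0, ⟨0, 0⟩, 0⟩ 0 0)) (.pos 20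 .pp ⟨330563703, 0, 0, 0, 0, 0, 0, 0, 0, ⟨0, 0⟩, 0⟩ 0 0)) (.pos 18 .pp ⟨614446133, 0, 0, 0, 0, 0, 0, 0, 0, ⟨0, 0⟩, 0⟩ 0 0)) (.pos 16 .pp ⟨111797862, 0, 0, 0, 0, 0, 0, 0, 0, ⟨0, 0⟩, 0⟩ 0 0)) (.cut .v 50331648 (.cut .d 560625 (.void 42 ⟨100000, 0, 0, 0, 0, 0, 0, 0, 0, ⟨0, 0⟩, 0⟩ 0 0) (.pos 42 .pp ⟨837291992, 0, 0, 0, 0, 0, 0, 0, 0, ⟨0, 0⟩, 0⟩ 0 0)) (.pos 43 .pp ⟨2913784640, 1625574387, 0, 0, 0, 0, 0, 0, 0, ⟨0, 0⟩, 0⟩ 0 0))) (.pos 40 .pp ⟨0, 126773971, 0, 0, 0, 0, 0, 0, 0, ⟨0, 0⟩, 0⟩ 0 0)) (.pos 40 .pp ⟨0, 28116479, 0, 0, 0, 0, 0, 0, 0, ⟨0, 0⟩, 0⟩ 0 0)) (.void 52 ⟨34966, 65034, 0, 0, 0, 0, 0, 0, 0, ⟨0, 0⟩, 0⟩ 0 0)) (.void 77 ⟨0, 0, 0, 100000, 0, 0, 0, 0, 0, ⟨0, 0⟩,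 0⟩ 0 0)))),
    by decide +kernel⟩

def covers21 : cell.Covers table row21.1 :=
  ⟨(.cut .d 0 (.cut .v 16777216 (.cut .v 8388608 (.void 2 ⟨0, 0, 100000, 0, 0, 0, 0, 0, 0, ⟨0, 0⟩, 0⟩ 0 0) (.cut .d (-8388608) (.void 3 ⟨69402, 0, 30598, 0, 0, 0, 0, 0, 0, ⟨0, 0⟩, 0⟩ 0 0) (.cut .d (-4194304) (.void 3 ⟨69402, 0, 30598, 0, 0, 0, 0, 0, 0, ⟨0, 0⟩, 0⟩ 0 0) (.cut .d (-2097152) (.void 3 ⟨0, 0, 0, 0, 0, 100000, 0, 0, 0, ⟨0, 0⟩, 0⟩ 0 0) (.cut .d (-1048576) (.void 3 ⟨0, 0, 0, 0, 0, 100000, 0, 0, 0, ⟨0, 0⟩, 0⟩ 0 0) (.cut .d (-524288) (.void 3 ⟨0, 0, 0, 0, 0, 100000, 0, 0, 0, ⟨0, 0⟩, 0⟩ 0 0) (.cut .d (-262144) (.void 3 ⟨0, 0, 0, 0, 0, 100000, 0, 0, 0, ⟨0, 0⟩, 0⟩ 0 0) (.cut .d (-131072)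 (.pos 3 .mm ⟨0, 0, 0, 0, 0, 715977132, 0, 0, 0, ⟨0, 0⟩, 0⟩ 0 0) (.cut .v 12582912 (.pos 6 .mm ⟨0, 0, 0, 0, 0, 339604133, 0, 0, 0, ⟨0, 0⟩, 0⟩ 0 0) (.cut .s 13959168 (.pos 7 .mm ⟨0, 0, 0, 0, 0, 565049346, 0, 0, 0, ⟨0, 0⟩, 0⟩ 0 0) (.cut .s 14057472 (.pos 7 .mm ⟨0, 0, 0, 0, 0, 614443333, 0, 0, 0, ⟨0, 0⟩, 0⟩ 0 0) (.pos 7 .mm ⟨0, 0, 0, 0, 0, 660967877, 0, 0, 0, ⟨0, 0⟩, 0⟩ 0 0)))))))))))) (.cut .v 268435456 (.cut .v 67108864 (.cut .v 33554432 (.cut .d (-8388608) (.void 16 ⟨100000, 0, 0, 0, 0, 0, 0, 0, 0, ⟨0, 0⟩, 0⟩ 0 0) (.cut .v 25165824 (.cut .d (-4194304) (.void 17 ⟨100000, 0, 0, 0, 0, 0, 0, 0, 0, ⟨0, 0⟩, 0⟩ 0 0) (.cut .v 20971520 (.cut .d (-2097152) (.void 19 ⟨100000,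 0, 0, 0, 0, 0, 0, 0, 0, ⟨0, 0⟩, 0⟩ 0 0) (.cut .d (-1048576) (.void 19 ⟨100000, 0, 0, 0, 0, 0, 0, 0, 0, ⟨0, 0⟩, 0⟩ 0 0) (.cut .d (-524288) (.void 19 ⟨100000, 0, 0, 0, 0, 0, 0, 0, 0, ⟨0, 0⟩, 0⟩ 0 0) (.cut .d (-262144) (.void 19 ⟨100000, 0, 0, 0, 0, 0, 0, 0, 0, ⟨0, 0⟩, 0⟩ 0 0) (.cut .v 18874368 (.cut .d (-131072) (.cut .v 17825792 (.cut .d (-196608) (.void 23 ⟨0, 0, 0, 0, 0, 100000, 0, 0, 0, ⟨0, 0⟩, 0⟩ 0 0) (.cut .d (-163840) (.void 23 ⟨0, 0, 0, 0, 0, 100000, 0, 0, 0, ⟨0, 0⟩, 0⟩ 0 0) (.cut .l 1593835 (.void 23 ⟨0, 0, 0, 0, 0, 100000, 0, 0, 0, ⟨0, 0⟩, 0⟩ 0 0) (.cut .l 2160066 (.void 23 ⟨0, 0, 0, 0, 0, 100000, 0, 0, 0, ⟨0, 0⟩, 0⟩ 0 0) (.cut .v 17301504 (.cut .s 13959168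 (.pos 25 .mp ⟨61499616, 0, 0, 0, 0, 524080462, 0, 0, 0, ⟨0, 0⟩, 0⟩ 0 0) (.pos 25 .mp ⟨0, 0, 0, 0, 0, 722170145, 0, 0, 0, ⟨0, 0⟩, 0⟩ 0 0)) (.cut .d (-147456) (.pos 26 .mp ⟨236339684, 0, 0, 0, 0, 302478139, 0, 0, 0, ⟨0, 0⟩, 0⟩ 0 0) (.cut .s 13959168 (.pos 26 .mp ⟨202141692, 0, 0, 0, 0, 262255957, 0, 0, 0, ⟨0, 0⟩, 0⟩ 0 0) (.cut .s 14057472 (.pos 26 .mp ⟨214783083, 0, 0, 0, 0, 285062927, 0, 0, 0, ⟨0, 0⟩, 0⟩ 0 0) (.pos 26 .mp ⟨231445193, 0, 0, 0, 0, 297356585, 0, 0, 0, ⟨0, 0⟩, 0⟩ 0 0))))))))) (.void 24 ⟨100000, 0, 0, 0, 0, 0, 0, 0, 0, ⟨0, 0⟩, 0⟩ 0 0)) (.cut .v 17825792 (.cut .s 13959168 (.cut .v 17301504 (.cut .d (-65536) (.cut .l 1593835 (.cut .s 13860864 (.pos 25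 .mp ⟨133351655, 0, 0, 0, 0, 354474818, 0, 0, 0, ⟨0, 0⟩, 0⟩ 0 0) (.cut .s 13910016 (.pos 25 .mp ⟨141131501, 0, 0, 0, 0, 360175836, 0, 0, 0, ⟨0, 0⟩, 0⟩ 0 0) (.pos 25 .mp ⟨145104343, 0, 0, 0, 0, 373472176, 0, 0, 0, ⟨0, 0⟩, 0⟩ 0 0))) (.cut .v 17039360 (.pos 44 .mp ⟨0, 0, 0, 0, 0, 582480273, 0, 0, 0, ⟨0, 0⟩, 0⟩ 0 0) (.cut .s 13860864 (.cut .d (-98304) (.pos 45 .mp ⟨130270781, 0, 0, 0, 0, 350487236, 0, 0, 0, ⟨0, 0⟩, 0⟩ 0 0) (.pos 45 .mp ⟨161895588, 0, 0, 0, 0, 262489041, 0, 0, 0, ⟨0, 0⟩, 0⟩ 0 0)) (.cut .d (-98304) (.cut .s 13910016 (.pos 45 .mp ⟨138549643, 0, 0, 0, 0, 360338555, 0, 0, 0, ⟨0, 0⟩, 0⟩ 0 0) (.pos 45 .mp ⟨142775334, 0, 0, 0, 0, 372693750, 0, 0, 0, ⟨0, 0⟩,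 0⟩ 0 0)) (.pos 45 .mp ⟨171853353, 0, 0, 0, 0, 278409384, 0, 0, 0, ⟨0, 0⟩, 0⟩ 0 0))))) (.cut .l 1593835 (.cut .s 13860864 (.cut .v 17039360 (.cut .l 1027604 (.cut .d (-32768) (.cut .l 744488 (.pos 44 .mp ⟨131284605, 0, 0, 0, 0, 350478263, 0, 0, 0, ⟨0, 0⟩, 0⟩ 0 0) (.pos 44 .mp ⟨125800066, 0, 0, 0, 0, 336372001, 0, 0, 0, ⟨0, 0⟩, 0⟩ 0 0)) (.cut .d (-16384) (.cut .v 16908288 (.pos 53 .mp ⟨126121391, 0, 0, 0, 0, 319489526, 0, 0, 0, ⟨0, 0⟩, 0⟩ 0 0) (.pos 54 .mp ⟨146607652, 0, 0, 0, 0, 283309463, 0, 0, 0, ⟨0, 0⟩, 0⟩ 0 0)) (.pos 44 .mp ⟨136459495, 0, 0, 0, 0, 0, 0, 0, 0, ⟨0, 0⟩, 0⟩ 0 0))) (.pos 44 .mp ⟨112059159, 0, 0, 0, 0, 333406621, 0, 0, 0, ⟨0, 0⟩, 0⟩ 0 0)) (.pos 45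 .mp ⟨267195570, 0, 0, 0, 0, 68495375, 0, 0, 0, ⟨0, 0⟩, 0⟩ 0 0)) (.cut .v 17039360 (.cut .l 1027604 (.cut .d (-32768) (.cut .s 13910016 (.pos 44 .mp ⟨140803639, 0, 0, 0, 0, 334616577, 0, 0, 0, ⟨0, 0⟩, 0⟩ 0 0) (.pos 44 .mp ⟨142641384, 0, 0, 0, 0, 351874535, 0, 0, 0, ⟨0, 0⟩, 0⟩ 0 0)) (.cut .d (-16384) (.cut .l 744488 (.cut .l 602930 (.cut .v 16908288 (.cut .d (-24576) (.pos 53 .mp ⟨134962667, 0, 0, 0, 0, 355386544, 0, 0, 0, ⟨0, 0⟩, 0⟩ 0 0) (.cut .s 13910016 (.pos 53 .mp ⟨134065784, 0, 0, 0, 0, 322519638, 0, 0, 0, ⟨0, 0⟩, 0⟩ 0 0) (.pos 53 .mp ⟨137342241, 0, 0, 0, 0, 335133859, 0, 0, 0, ⟨0, 0⟩, 0⟩ 0 0))) (.pos 54 .mp ⟨274479114, 0, 0, 0, 0, 91947937, 0, 0, 0, ⟨0, 0⟩,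 0⟩ 0 0)) (.pos 44 .mp ⟨148543599, 0, 0, 0, 0, 288692557, 0, 0, 0, ⟨0, 0⟩, 0⟩ 0 0)) (.pos 44 .mp ⟨145450261, 0, 0, 0, 0, 0, 0, 0, 0, ⟨0, 0⟩, 0⟩ 0 0)) (.pos 44 .mp ⟨143178303, 0, 0, 0, 0, 0, 0, 0, 0, ⟨0, 0⟩, 0⟩ 0 0))) (.pos 44 .mp ⟨117333796, 0, 0, 0, 0, 360696036, 0, 0, 0, ⟨0, 0⟩, 0⟩ 0 0)) (.pos 45 .mp ⟨270561758, 0, 0, 0, 0, 97610221, 0, 0, 0, ⟨0, 0⟩, 0⟩ 0 0))) (.pos 25 .mp ⟨0, 0, 0, 0, 0, 0, 0, 0, 0, ⟨0, 0⟩, 0⟩ 0 0))) (.cut .s 13860864 (.pos 26 .mp ⟨309340955, 0, 0, 0, 0, 0, 0, 0, 0, ⟨0, 0⟩, 0⟩ 0 0) (.pos 26 .mp ⟨301156564, 0, 0, 0, 0, 56183575, 0, 0, 0, ⟨0, 0⟩, 0⟩ 0 0))) (.cut .v 17301504 (.cut .d (-65536) (.cut .l 1593835 (.cut .s 14057472 (.cut .s 14008320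 (.pos 25 .mp ⟨149136830, 0, 0, 0, 0, 388198389, 0, 0, 0, ⟨0, 0⟩, 0⟩ 0 0) (.pos 25 .mp ⟨153232523, 0, 0, 0, 0, 404025950, 0, 0, 0, ⟨0, 0⟩, 0⟩ 0 0)) (.pos 25 .mp ⟨157395237, 0, 0, 0, 0, 443301620, 0, 0, 0, ⟨0, 0⟩, 0⟩ 0 0)) (.cut .v 17039360 (.pos 44 .mp ⟨0, 0, 0, 0, 0, 666149788, 0, 0, 0, ⟨0, 0⟩, 0⟩ 0 0) (.cut .s 14057472 (.cut .d (-98304) (.cut .s 14008320 (.pos 45 .mp ⟨147063093, 0, 0, 0, 0, 386224198, 0, 0, 0, ⟨0, 0⟩, 0⟩ 0 0) (.pos 45 .mp ⟨151416641, 0, 0, 0, 0, 400962998, 0, 0, 0, ⟨0, 0⟩, 0⟩ 0 0)) (.pos 45 .mp ⟨182282942, 0, 0, 0, 0, 298163271, 0, 0, 0, ⟨0, 0⟩, 0⟩ 0 0)) (.cut .s 14106624 (.cut .d (-98304) (.pos 45 .mp ⟨155839967, 0, 0, 0, 0, 416944226, 0, 0,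 0, ⟨0, 0⟩, 0⟩ 0 0) (.pos 45 .mp ⟨187691707, 0, 0, 0, 0, 329108480, 0, 0, 0, ⟨0, 0⟩, 0⟩ 0 0)) (.pos 45 .mp ⟨140441487, 0, 0, 0, 0, 465480511, 0, 0, 0, ⟨0, 0⟩, 0⟩ 0 0))))) (.cut .l 1593835 (.cut .s 14057472 (.cut .v 17039360 (.cut .d (-32768) (.cut .l 1027604 (.cut .s 14008320 (.pos 44 .mp ⟨145065980, 0, 0, 0, 0, 368946687, 0, 0, 0, ⟨0, 0⟩, 0⟩ 0 0) (.pos 44 .mp ⟨148146686, 0, 0, 0, 0, 385698499, 0, 0, 0, ⟨0, 0⟩, 0⟩ 0 0)) (.pos 44 .mp ⟨131771891, 0, 0, 0, 0, 388529854, 0, 0, 0, ⟨0, 0⟩, 0⟩ 0 0)) (.cut .d (-16384) (.cut .l 1027604 (.cut .l 744488 (.cut .l 602930 (.cut .v 16908288 (.cut .d (-24576) (.pos 53 .mp ⟨127776426, 0, 0, 0, 0, 406717178, 0, 0, 0, ⟨0, 0⟩, 0⟩ 0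 0) (.cut .s 14008320 (.pos 53 .mp ⟨140652163, 0, 0, 0, 0, 348411821, 0, 0, 0, ⟨0, 0⟩, 0⟩ 0 0) (.pos 53 .mp ⟨143997728, 0, 0, 0, 0, 362342008, 0, 0, 0, ⟨0, 0⟩, 0⟩ 0 0))) (.cut .s 14008320 (.pos 54 .mp ⟨250903192, 0, 0, 0, 0, 162646509, 0, 0, 0, ⟨0, 0⟩, 0⟩ 0 0) (.pos 54 .mp ⟨261615756, 0, 0, 0, 0, 164024911, 0, 0, 0, ⟨0, 0⟩, 0⟩ 0 0))) (.pos 44 .mp ⟨156111791, 0, 0, 0, 0, 312083656, 0, 0, 0, ⟨0, 0⟩, 0⟩ 0 0)) (.pos 44 .mp ⟨152815473, 0, 0, 0, 0, 0, 0, 0, 0, ⟨0, 0⟩, 0⟩ 0 0)) (.pos 44 .mp ⟨0, 0, 0, 0, 0, 0, 0, 0, 0, ⟨0, 0⟩, 0⟩ 0 0)) (.pos 44 .mp ⟨149740228, 0, 0, 0, 0, 0, 0, 0, 0, ⟨0, 0⟩, 0⟩ 0 0))) (.pos 45 .mp ⟨280871612, 0, 0, 0, 0, 118389426, 0, 0, 0, ⟨0, 0⟩, 0⟩ 0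 0)) (.cut .v 17039360 (.cut .l 1027604 (.cut .d (-32768) (.cut .s 14106624 (.pos 44 .mp ⟨146270974, 0, 0, 0, 0, 418999610, 0, 0, 0, ⟨0, 0⟩, 0⟩ 0 0) (.pos 44 .mp ⟨149812234, 0, 0, 0, 0, 437945147, 0, 0, 0, ⟨0, 0⟩, 0⟩ 0 0)) (.cut .d (-16384) (.cut .l 744488 (.cut .l 602930 (.cut .d (-24576) (.pos 44 .mp ⟨151429288, 0, 0, 0, 0, 419301006, 0, 0, 0, ⟨0, 0⟩, 0⟩ 0 0) (.cut .v 16908288 (.pos 53 .mp ⟨147381264, 0, 0, 0, 0, 381670630, 0, 0, 0, ⟨0, 0⟩, 0⟩ 0 0) (.pos 54 .mp ⟨348435850, 0, 0, 0, 0, 0, 0, 0, 0, ⟨0, 0⟩, 0⟩ 0 0))) (.pos 44 .mp ⟨163929348, 0, 0, 0, 0, 337804927, 0, 0, 0, ⟨0, 0⟩, 0⟩ 0 0)) (.pos 44 .mp ⟨160401449, 0, 0, 0, 0, 0, 0, 0, 0, ⟨0, 0⟩, 0⟩ 0 0)) (.pos 44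 .mp ⟨155585248, 0, 0, 0, 0, 0, 0, 0, 0, ⟨0, 0⟩, 0⟩ 0 0))) (.pos 44 .mp ⟨127736270, 0, 0, 0, 0, 424609954, 0, 0, 0, ⟨0, 0⟩, 0⟩ 0 0)) (.pos 45 .mp ⟨300001403, 0, 0, 0, 0, 127382564, 0, 0, 0, ⟨0, 0⟩, 0⟩ 0 0))) (.pos 25 .mp ⟨165938415, 0, 0, 0, 0, 0, 0, 0, 0, ⟨0, 0⟩, 0⟩ 0 0))) (.cut .s 14057472 (.pos 26 .mp ⟨281580503, 0, 0, 0, 0, 140101204, 0, 0, 0, ⟨0, 0⟩, 0⟩ 0 0) (.pos 26 .mp ⟨302512575, 0, 0, 0, 0, 147918533, 0, 0, 0, ⟨0, 0⟩, 0⟩ 0 0)))) (.pos 24 .mp ⟨370232587, 0, 0, 0, 0, 0, 0, 0, 0, ⟨0, 0⟩, 0⟩ 0 0))) (.pos 22 .mp ⟨464981663, 0, 0, 0, 0, 0, 0, 0, 0, ⟨0, 0⟩, 0⟩ 0 0)))))) (.void 20 ⟨100000, 0, 0, 0, 0, 0, 0, 0, 0, ⟨0, 0⟩, 0⟩ 0 0))) (.void 18 ⟨100000, 0, 0, 0, 0,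 0, 0, 0, 0, ⟨0, 0⟩, 0⟩ 0 0))) (.void 41 ⟨100000, 0, 0, 0, 0, 0, 0, 0, 0, ⟨0, 0⟩, 0⟩ 0 0)) (.void 52 ⟨100000, 0, 0, 0, 0, 0, 0, 0, 0, ⟨0, 0⟩, 0⟩ 0 0)) (.void 77 ⟨91429, 0, 0, 8571, 0, 0, 0, 0, 0, ⟨0, 0⟩, 0⟩ 0 0))) (.cut .v 16777216 (.cut .v 8388608 (.cut .v 4194304 (.cut .v 2097152 (.cut .v 1048576 (.pos 92 .pm ⟨0, 0, 19255785, 0, 0, 0, 0, 0, 14004383, ⟨0, 0⟩, 1983364⟩ 0 0) (.pos 93 .pm ⟨0, 961581, 0, 0, 0, 0, 0, 0, 0, ⟨0, 0⟩, 0⟩ 0 0)) (.cut .d 1837506 (.pos 64 .pm ⟨0, 0, 67104620, 0, 0, 0, 0, 0, 0, ⟨0, 0⟩, 0⟩ 0 0) (.cut .d 2756259 (.pos 64 .pm ⟨0, 0, 0, 0, 0, 0, 0, 0, 0, ⟨0, 0⟩, 0⟩ 0 0) (.pos 64 .pm ⟨0, 67415402, 0, 0, 0, 0, 0, 0, 0, ⟨0, 0⟩, 0⟩ 0 0)))) (.cut .d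 1837506 (.pos 5 .pm ⟨0, 0, 90381161, 0, 0, 0, 0, 0, 0, ⟨0, 0⟩, 0⟩ 0 0) (.cut .d 2756259 (.pos 5 .pm ⟨0, 0, 0, 0, 0, 0, 0, 0, 0, ⟨0, 0⟩, 0⟩ 0 0) (.pos 5 .pm ⟨0, 88761494, 0, 0, 0, 0, 0, 0, 0, ⟨0, 0⟩, 0⟩ 0 0)))) (.pos 3 .pm ⟨0, 2544209, 0, 0, 0, 0, 0, 0, 0, ⟨0, 0⟩, 0⟩ 0 0)) (.cut .v 268435456 (.cut .v 67108864 (.cut .d 1837506 (.cut .d 918753 (.cut .v 33554432 (.cut .d 459376 (.cut .v 25165824 (.cut .v 20971520 (.pos 19 .pp ⟨231522268, 0, 0, 0, 0, 0, 0, 0, 0, ⟨0, 0⟩, 0⟩ 0 0) (.pos 20 .pp ⟨437096737, 0, 0, 0, 0, 0, 0, 0, 0, ⟨0, 0⟩, 0⟩ 0 0)) (.pos 18 .pp ⟨781112440, 0, 0, 0, 0, 0, 0, 0, 0, ⟨0, 0⟩, 0⟩ 0 0)) (.pos 16 .pp ⟨150743639, 0, 0, 0, 0, 0, 0, 0, 0, ⟨0, 0⟩, 0⟩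 0 0)) (.cut .v 50331648 (.cut .d 459376 (.void 42 ⟨100000, 0, 0, 0, 0, 0, 0, 0, 0, ⟨0, 0⟩, 0⟩ 0 0) (.pos 42 .pp ⟨1108997115, 0, 0, 0, 0, 0, 0, 0, 0, ⟨0, 0⟩, 0⟩ 0 0)) (.pos 43 .pp ⟨3379876639, 0, 0, 0, 0, 0, 0, 0, 0, ⟨0, 0⟩, 0⟩ 0 0))) (.cut .v 33554432 (.pos 16 .pp ⟨0, 0, 0, 0, 0, 0, 0, 0, 0, ⟨0, 0⟩, 0⟩ 0 0) (.pos 41 .pp ⟨693859038, 113266249, 0, 0, 0, 0, 0, 0, 0, ⟨0, 0⟩, 0⟩ 0 0))) (.pos 40 .pp ⟨0, 13644002, 0, 0, 0, 0, 0, 0, 0, ⟨0, 0⟩, 0⟩ 0 0)) (.void 52 ⟨82779, 0, 0, 17221, 0, 0, 0, 0, 0, ⟨0, 0⟩, 0⟩ 0 0)) (.void 77 ⟨0, 0, 0, 100000, 0, 0, 0, 0, 0, ⟨0, 0⟩, 0⟩ 0 0)))),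
    by decide +kernel⟩

def covers22 : cell.Covers table row22.1 :=
  ⟨(.cut .d 0 (.cut .v 16777216 (.cut .v 8388608 (.void 2 ⟨0, 0, 100000, 0, 0, 0, 0, 0, 0, ⟨0, 0⟩, 0⟩ 0 0) (.cut .d (-8388608) (.void 3 ⟨100000, 0, 0, 0, 0, 0, 0, 0, 0, ⟨0, 0⟩, 0⟩ 0 0) (.cut .d (-4194304) (.void 3 ⟨100000, 0, 0, 0, 0, 0, 0, 0, 0, ⟨0, 0⟩, 0⟩ 0 0) (.cut .d (-2097152) (.void 3 ⟨0, 0, 0, 0, 0, 100000, 0, 0, 0, ⟨0, 0⟩, 0⟩ 0 0) (.cut .d (-1048576) (.void 3 ⟨0, 0, 0, 0, 0, 100000, 0, 0, 0, ⟨0, 0⟩, 0⟩ 0 0) (.cut .d (-524288) (.void 3 ⟨0, 0, 0, 0, 0, 100000, 0, 0, 0, ⟨0, 0⟩, 0⟩ 0 0) (.cut .v 12582912 (.pos 6 .mm ⟨0, 0, 18300755, 0, 0, 590201325, 0, 0, 0, ⟨0, 0⟩, 0⟩ 0 0) (.cut .d (-262144)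 (.void 7 ⟨0, 0, 0, 0, 0, 100000, 0, 0, 0, ⟨0, 0⟩, 0⟩ 0 0) (.cut .d (-131072) (.void 7 ⟨0, 0, 0, 0, 0, 100000, 0, 0, 0, ⟨0, 0⟩, 0⟩ 0 0) (.cut .s 14319616 (.pos 7 .mm ⟨0, 0, 0, 0, 0, 745363363, 0, 0, 0, ⟨0, 0⟩, 0⟩ 0 0) (.cut .s 14401536 (.pos 7 .mm ⟨0, 0, 0, 0, 0, 799224827, 0, 0, 0, ⟨0, 0⟩, 0⟩ 0 0) (.pos 7 .mm ⟨0, 0, 0, 0, 0, 850559715, 0, 0, 0, ⟨0, 0⟩, 0⟩ 0 0)))))))))))) (.cut .v 268435456 (.cut .v 67108864 (.cut .v 33554432 (.cut .d (-8388608) (.void 16 ⟨100000, 0, 0, 0, 0, 0, 0, 0, 0, ⟨0, 0⟩, 0⟩ 0 0) (.cut .v 25165824 (.cut .d (-4194304) (.void 17 ⟨100000, 0, 0, 0, 0, 0, 0, 0, 0, ⟨0, 0⟩, 0⟩ 0 0) (.cut .v 20971520 (.cut .d (-2097152) (.void 19 ⟨100000, 0, 0, 0,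 0, 0, 0, 0, 0, ⟨0, 0⟩, 0⟩ 0 0) (.cut .d (-1048576) (.void 19 ⟨100000, 0, 0, 0, 0, 0, 0, 0, 0, ⟨0, 0⟩, 0⟩ 0 0) (.cut .d (-524288) (.void 19 ⟨100000, 0, 0, 0, 0, 0, 0, 0, 0, ⟨0, 0⟩, 0⟩ 0 0) (.cut .d (-262144) (.void 19 ⟨100000, 0, 0, 0, 0, 0, 0, 0, 0, ⟨0, 0⟩, 0⟩ 0 0) (.cut .d (-131072) (.void 19 ⟨0, 0, 0, 0, 0, 100000, 0, 0, 0, ⟨0, 0⟩, 0⟩ 0 0) (.cut .v 18874368 (.cut .v 17825792 (.cut .s 14319616 (.cut .v 17301504 (.cut .d (-65536) (.cut .l 1593835 (.pos 25 .mp ⟨165930139, 0, 0, 0, 0, 521855152, 0, 0, 0, ⟨0, 0⟩, 0⟩ 0 0) (.cut .v 17039360 (.pos 44 .mp ⟨0, 0, 0, 0, 0, 776922756, 0, 0, 0, ⟨0, 0⟩, 0⟩ 0 0) (.cut .s 14237696 (.cut .d (-98304) (.pos 45 .mp ⟨164904207, 0,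 0, 0, 0, 473347704, 0, 0, 0, ⟨0, 0⟩, 0⟩ 0 0) (.pos 45 .mp ⟨203375005, 0, 0, 0, 0, 362814648, 0, 0, 0, ⟨0, 0⟩, 0⟩ 0 0)) (.cut .d (-98304) (.cut .s 14278656 (.pos 45 .mp ⟨173688235, 0, 0, 0, 0, 481210804, 0, 0, 0, ⟨0, 0⟩, 0⟩ 0 0) (.pos 45 .mp ⟨178151502, 0, 0, 0, 0, 495500354, 0, 0, 0, ⟨0, 0⟩, 0⟩ 0 0)) (.cut .s 14278656 (.pos 45 .mp ⟨208593882, 0, 0, 0, 0, 384209817, 0, 0, 0, ⟨0, 0⟩, 0⟩ 0 0) (.pos 45 .mp ⟨213917574, 0, 0, 0, 0, 395605155, 0, 0, 0, ⟨0, 0⟩, 0⟩ 0 0)))))) (.cut .l 1593835 (.cut .v 17039360 (.cut .d (-32768) (.cut .v 16908288 (.pos 53 .mp ⟨0, 0, 0, 0, 0, 785716159, 0, 0, 0, ⟨0, 0⟩, 0⟩ 0 0) (.cut .s 14237696 (.cut .s 14196736 (.pos 54 .mp ⟨169598184, 0,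 0, 0, 0, 415924249, 0, 0, 0, ⟨0, 0⟩, 0⟩ 0 0) (.pos 54 .mp ⟨166820247, 0, 0, 0, 0, 441646270, 0, 0, 0, ⟨0, 0⟩, 0⟩ 0 0)) (.cut .s 14278656 (.pos 54 .mp ⟨165188673, 0, 0, 0, 0, 466274368, 0, 0, 0, ⟨0, 0⟩, 0⟩ 0 0) (.pos 54 .mp ⟨164836632, 0, 0, 0, 0, 489558064, 0, 0, 0, ⟨0, 0⟩, 0⟩ 0 0)))) (.cut .d (-16384) (.cut .l 1027604 (.cut .l 744488 (.cut .s 14237696 (.cut .v 16908288 (.pos 53 .mp ⟨147082960, 0, 0, 0, 0, 456337283, 0, 0, 0, ⟨0, 0⟩, 0⟩ 0 0) (.cut .d (-24576) (.pos 54 .mp ⟨172941354, 0, 0, 0, 0, 423094634, 0, 0, 0, ⟨0, 0⟩, 0⟩ 0 0) (.pos 54 .mp ⟨301539300, 0, 0, 0, 0, 156787231, 0, 0, 0, ⟨0, 0⟩, 0⟩ 0 0))) (.cut .d (-24576) (.cut .v 16908288 (.pos 53 .mp ⟨0, 0, 0,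 0, 0, 819922693, 0, 0, 0, ⟨0, 0⟩, 0⟩ 0 0) (.pos 54 .mp ⟨184932751, 0, 0, 0, 0, 436701810, 0, 0, 0, ⟨0, 0⟩, 0⟩ 0 0)) (.cut .v 16908288 (.cut .s 14278656 (.pos 53 .mp ⟨160256702, 0, 0, 0, 0, 452140243, 0, 0, 0, ⟨0, 0⟩, 0⟩ 0 0) (.cut .s 14299136 (.pos 53 .mp ⟨163263878, 0, 0, 0, 0, 459479259, 0, 0, 0, ⟨0, 0⟩, 0⟩ 0 0) (.pos 53 .mp ⟨164770668, 0, 0, 0, 0, 467611094, 0, 0, 0, ⟨0, 0⟩, 0⟩ 0 0))) (.pos 54 .mp ⟨294233866, 0, 0, 0, 0, 207912601, 0, 0, 0, ⟨0, 0⟩, 0⟩ 0 0)))) (.pos 44 .mp ⟨173948567, 0, 0, 0, 0, 373813082, 0, 0, 0, ⟨0, 0⟩, 0⟩ 0 0)) (.pos 44 .mp ⟨0, 0, 0, 0, 0, 0, 0, 0, 0, ⟨0, 0⟩, 0⟩ 0 0)) (.pos 44 .mp ⟨169350352, 0, 0, 0, 0, 0, 0, 0, 0, ⟨0, 0⟩, 0⟩ 0 0))) (.cut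 .s 14237696 (.pos 45 .mp ⟨321264050, 0, 0, 0, 0, 136557187, 0, 0, 0, ⟨0, 0⟩, 0⟩ 0 0) (.pos 45 .mp ⟨330463172, 0, 0, 0, 0, 159184083, 0, 0, 0, ⟨0, 0⟩, 0⟩ 0 0))) (.pos 25 .mp ⟨181913708, 0, 0, 0, 0, 0, 0, 0, 0, ⟨0, 0⟩, 0⟩ 0 0))) (.cut .d (-65536) (.cut .s 14237696 (.pos 26 .mp ⟨259837418, 0, 0, 0, 0, 289660846, 0, 0, 0, ⟨0, 0⟩, 0⟩ 0 0) (.cut .d (-98304) (.cut .d (-114688) (.pos 26 .mp ⟨235907154, 0, 0, 0, 0, 402661782, 0, 0, 0, ⟨0, 0⟩, 0⟩ 0 0) (.pos 26 .mp ⟨282829142, 0, 0, 0, 0, 276843149, 0, 0, 0, ⟨0, 0⟩, 0⟩ 0 0)) (.pos 26 .mp ⟨412654342, 0, 0, 0, 0, 0, 0, 0, 0, ⟨0, 0⟩, 0⟩ 0 0))) (.pos 26 .mp ⟨398746187, 0, 0, 0, 0, 0, 0, 0, 0, ⟨0, 0⟩, 0⟩ 0 0))) (.cut .v 17301504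 (.cut .d (-65536) (.cut .l 1593835 (.pos 25 .mp ⟨181913708, 0, 0, 0, 0, 593970019, 0, 0, 0, ⟨0, 0⟩, 0⟩ 0 0) (.cut .v 17039360 (.pos 44 .mp ⟨0, 0, 0, 0, 0, 869189726, 0, 0, 0, ⟨0, 0⟩, 0⟩ 0 0) (.cut .s 14401536 (.cut .d (-98304) (.cut .s 14360576 (.pos 45 .mp ⟨182665956, 0, 0, 0, 0, 511064179, 0, 0, 0, ⟨0, 0⟩, 0⟩ 0 0) (.pos 45 .mp ⟨187234590, 0, 0, 0, 0, 527934557, 0, 0, 0, ⟨0, 0⟩, 0⟩ 0 0)) (.cut .s 14360576 (.cut .s 14340096 (.pos 45 .mp ⟨209746342, 0, 0, 0, 0, 424742134, 0, 0, 0, ⟨0, 0⟩, 0⟩ 0 0) (.pos 45 .mp ⟨211740307, 0, 0, 0, 0, 433144521, 0, 0, 0, ⟨0, 0⟩, 0⟩ 0 0)) (.pos 45 .mp ⟨223033306, 0, 0, 0, 0, 425903875, 0, 0, 0, ⟨0, 0⟩, 0⟩ 0 0))) (.cut .s 14442496 (.cut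 .s 14422016 (.pos 45 .mp ⟨164511554, 0, 0, 0, 0, 583928578, 0, 0, 0, ⟨0, 0⟩, 0⟩ 0 0) (.pos 45 .mp ⟨166216136, 0, 0, 0, 0, 594494963, 0, 0, 0, ⟨0, 0⟩, 0⟩ 0 0)) (.pos 45 .mp ⟨167919534, 0, 0, 0, 0, 612427516, 0, 0, 0, ⟨0, 0⟩, 0⟩ 0 0))))) (.cut .l 1593835 (.cut .d (-32768) (.cut .l 1027604 (.cut .v 17039360 (.cut .s 14401536 (.pos 44 .mp ⟨166239133, 0, 0, 0, 0, 534326271, 0, 0, 0, ⟨0, 0⟩, 0⟩ 0 0) (.pos 44 .mp ⟨172733833, 0, 0, 0, 0, 573901466, 0, 0, 0, ⟨0, 0⟩, 0⟩ 0 0)) (.pos 45 .mp ⟨484658211, 0, 0, 0, 0, 0, 0, 0, 0, ⟨0, 0⟩, 0⟩ 0 0)) (.cut .d (-49152) (.cut .s 14401536 (.cut .v 17039360 (.pos 44 .mp ⟨102641851, 0, 0, 0, 0, 646899442, 0, 0, 0, ⟨0, 0⟩, 0⟩ 0 0) (.pos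 45 .mp ⟨213757711, 0, 0, 0, 0, 431384247, 0, 0, 0, ⟨0, 0⟩, 0⟩ 0 0)) (.pos 25 .mp ⟨176547735, 0, 0, 0, 0, 574375305, 0, 0, 0, ⟨0, 0⟩, 0⟩ 0 0)) (.cut .v 17039360 (.pos 44 .mp ⟨152906861, 0, 0, 0, 0, 532794073, 0, 0, 0, ⟨0, 0⟩, 0⟩ 0 0) (.pos 45 .mp ⟨419611080, 0, 0, 0, 0, 0, 0, 0, 0, ⟨0, 0⟩, 0⟩ 0 0)))) (.cut .d (-16384) (.cut .v 17039360 (.cut .l 1027604 (.cut .l 744488 (.cut .s 14401536 (.cut .d (-24576) (.cut .s 14360576 (.pos 44 .mp ⟨167779864, 0, 0, 0, 0, 515337925, 0, 0, 0, ⟨0, 0⟩, 0⟩ 0 0) (.pos 44 .mp ⟨170946876, 0, 0, 0, 0, 533412681, 0, 0, 0, ⟨0, 0⟩, 0⟩ 0 0)) (.cut .v 16908288 (.cut .s 14360576 (.pos 53 .mp ⟨166279724, 0, 0, 0, 0, 483476410, 0, 0, 0, ⟨0, 0⟩,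 0⟩ 0 0) (.pos 53 .mp ⟨169305050, 0, 0, 0, 0, 500207885, 0, 0, 0, ⟨0, 0⟩, 0⟩ 0 0)) (.pos 54 .mp ⟨294366221, 0, 0, 0, 0, 249678888, 0, 0, 0, ⟨0, 0⟩, 0⟩ 0 0))) (.cut .s 14442496 (.cut .v 16908288 (.pos 53 .mp ⟨172340717, 0, 0, 0, 0, 524463005, 0, 0, 0, ⟨0, 0⟩, 0⟩ 0 0) (.pos 54 .mp ⟨206366960, 0, 0, 0, 0, 466001951, 0, 0, 0, ⟨0, 0⟩, 0⟩ 0 0)) (.pos 44 .mp ⟨176844489, 0, 0, 0, 0, 552816901, 0, 0, 0, ⟨0, 0⟩, 0⟩ 0 0))) (.pos 44 .mp ⟨184159515, 0, 0, 0, 0, 430047551, 0, 0, 0, ⟨0, 0⟩, 0⟩ 0 0)) (.pos 44 .mp ⟨0, 0, 0, 0, 0, 0, 0, 0, 0, ⟨0, 0⟩, 0⟩ 0 0)) (.pos 45 .mp ⟨422654227, 0, 0, 0, 0, 0, 0, 0, 0, ⟨0, 0⟩, 0⟩ 0 0)) (.pos 25 .mp ⟨188597434, 0, 0, 0, 0, 0, 0, 0, 0, ⟨0, 0⟩,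 0⟩ 0 0))) (.pos 25 .mp ⟨183673652, 0, 0, 0, 0, 430211306, 0, 0, 0, ⟨0, 0⟩, 0⟩ 0 0))) (.cut .d (-65536) (.cut .d (-98304) (.cut .s 14401536 (.cut .d (-114688) (.pos 26 .mp ⟨263364707, 0, 0, 0, 0, 392511053, 0, 0, 0, ⟨0, 0⟩, 0⟩ 0 0) (.pos 26 .mp ⟨298119793, 0, 0, 0, 0, 294281634, 0, 0, 0, ⟨0, 0⟩, 0⟩ 0 0)) (.pos 26 .mp ⟨308223973, 0, 0, 0, 0, 345719139, 0, 0, 0, ⟨0, 0⟩, 0⟩ 0 0)) (.pos 26 .mp ⟨456438212, 0, 0, 0, 0, 0, 0, 0, 0, ⟨0, 0⟩, 0⟩ 0 0)) (.pos 26 .mp ⟨441160939, 0, 0, 0, 0, 0, 0, 0, 0, ⟨0, 0⟩, 0⟩ 0 0)))) (.pos 24 .mp ⟨473874335, 0, 0, 0, 0, 0, 0, 0, 0, ⟨0, 0⟩, 0⟩ 0 0)) (.pos 22 .mp ⟨534233372, 0, 0, 0, 0, 0, 0, 0, 0, ⟨0, 0⟩, 0⟩ 0 0))))))) (.void 20 ⟨100000,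 0, 0, 0, 0, 0, 0, 0, 0, ⟨0, 0⟩, 0⟩ 0 0))) (.void 18 ⟨100000, 0, 0, 0, 0, 0, 0, 0, 0, ⟨0, 0⟩, 0⟩ 0 0))) (.void 41 ⟨100000, 0, 0, 0, 0, 0, 0, 0, 0, ⟨0, 0⟩, 0⟩ 0 0)) (.void 52 ⟨100000, 0, 0, 0, 0, 0, 0, 0, 0, ⟨0, 0⟩, 0⟩ 0 0)) (.void 77 ⟨91248, 0, 0, 8752, 0, 0, 0, 0, 0, ⟨0, 0⟩, 0⟩ 0 0))) (.cut .v 16777216 (.cut .v 8388608 (.cut .v 4194304 (.cut .d 1553447 (.pos 4 .pm ⟨0, 0, 697760695, 0, 0, 0, 0, 0, 0, ⟨0, 0⟩, 0⟩ 0 0) (.cut .v 2097152 (.cut .v 1048576 (.pos 92 .pm ⟨0, 0, 6159991, 0, 0, 0, 0, 0, 0, ⟨0, 0⟩, 0⟩ 0 0) (.pos 93 .pm ⟨0, 26882702, 0, 0, 0, 0, 0, 0, 0, ⟨0, 0⟩, 0⟩ 0 0)) (.pos 64 .pm ⟨0, 43708303, 0, 0, 0, 0, 0, 0, 0, ⟨0, 0⟩, 0⟩ 0 0))) (.cut .d 1553447 (.pos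 5 .pm ⟨0, 0, 135535756, 0, 0, 0, 0, 0, 0, ⟨0, 0⟩, 0⟩ 0 0) (.pos 5 .pm ⟨0, 63168541, 0, 0, 0, 0, 0, 0, 0, ⟨0, 0⟩, 0⟩ 0 0))) (.pos 3 .pm ⟨0, 0, 0, 0, 0, 0, 0, 0, 0, ⟨0, 0⟩, 0⟩ 0 0)) (.cut .v 268435456 (.cut .v 67108864 (.cut .d 1553447 (.cut .v 33554432 (.cut .d 776723 (.cut .d 388361 (.cut .v 25165824 (.cut .v 20971520 (.pos 19 .pp ⟨269223186, 0, 0, 0, 0, 0, 0, 0, 0, ⟨0, 0⟩, 0⟩ 0 0) (.pos 20 .pp ⟨544585266, 0, 0, 0, 0, 0, 0, 0, 0, ⟨0, 0⟩, 0⟩ 0 0)) (.pos 18 .pp ⟨950502683, 0, 0, 0, 0, 0, 0, 0, 0, ⟨0, 0⟩, 0⟩ 0 0)) (.pos 16 .pp ⟨182172950, 0, 0, 0, 0, 0, 0, 0, 0, ⟨0, 0⟩, 0⟩ 0 0)) (.pos 16 .pp ⟨0, 0, 0, 0, 0, 0, 0, 0, 0, ⟨0, 0⟩, 0⟩ 0 0)) (.cut .d 776723 (.cut .v 50331648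 (.cut .d 388361 (.void 42 ⟨100000, 0, 0, 0, 0, 0, 0, 0, 0, ⟨0, 0⟩, 0⟩ 0 0) (.pos 42 .pp ⟨1374280282, 0, 0, 0, 0, 0, 0, 0, 0, ⟨0, 0⟩, 0⟩ 0 0)) (.pos 43 .pp ⟨4031102845, 0, 0, 0, 0, 0, 0, 0, 0, ⟨0, 0⟩, 0⟩ 0 0)) (.pos 41 .pp ⟨896984339, 196196219, 0, 0, 0, 0, 0, 0, 0, ⟨0, 0⟩, 0⟩ 0 0))) (.pos 40 .pp ⟨0, 0, 0, 0, 0, 0, 0, 0, 0, ⟨0, 0⟩, 0⟩ 0 0)) (.void 52 ⟨82672, 0, 0, 17328, 0, 0, 0, 0, 0, ⟨0, 0⟩, 0⟩ 0 0)) (.void 77 ⟨0, 0, 0, 100000, 0, 0, 0, 0, 0, ⟨0, 0⟩, 0⟩ 0 0)))),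
    by decide +kernel⟩

def covers23 : cell.Covers table row23.1 :=
  ⟨(.cut .d 0 (.cut .v 16777216 (.cut .v 8388608 (.void 2 ⟨0, 0, 100000, 0, 0, 0, 0, 0, 0, ⟨0, 0⟩, 0⟩ 0 0) (.cut .d (-8388608) (.void 3 ⟨100000, 0, 0, 0, 0, 0, 0, 0, 0, ⟨0, 0⟩, 0⟩ 0 0) (.cut .d (-4194304) (.void 3 ⟨100000, 0, 0, 0, 0, 0, 0, 0, 0, ⟨0, 0⟩, 0⟩ 0 0) (.cut .d (-2097152) (.void 3 ⟨68555, 0, 31445, 0, 0, 0, 0, 0, 0, ⟨0, 0⟩, 0⟩ 0 0) (.cut .d (-1048576) (.void 3 ⟨0, 0, 0, 0, 0, 100000, 0, 0, 0, ⟨0, 0⟩, 0⟩ 0 0) (.cut .d (-524288) (.void 3 ⟨0, 0, 0, 0, 0, 100000, 0, 0, 0, ⟨0, 0⟩, 0⟩ 0 0) (.cut .v 12582912 (.pos 6 .mm ⟨0, 0, 25741565, 0, 0, 781694819, 0, 0, 0, ⟨0, 0⟩, 0⟩ 0 0) (.cut .d (-262144)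 (.void 7 ⟨0, 0, 0, 0, 0, 100000, 0, 0, 0, ⟨0, 0⟩, 0⟩ 0 0) (.cut .d (-131072) (.void 7 ⟨0, 0, 0, 0, 0, 100000, 0, 0, 0, ⟨0, 0⟩, 0⟩ 0 0) (.cut .d (-65536) (.pos 7 .mm ⟨0, 0, 0, 0, 0, 1104714700, 0, 0, 0, ⟨0, 0⟩, 0⟩ 0 0) (.cut .s 14647296 (.pos 7 .mm ⟨0, 0, 0, 0, 0, 933995139, 0, 0, 0, ⟨0, 0⟩, 0⟩ 0 0) (.cut .s 14729216 (.pos 7 .mm ⟨0, 0, 0, 0, 0, 1007747035, 0, 0, 0, ⟨0, 0⟩, 0⟩ 0 0) (.pos 7 .mm ⟨0, 0, 0, 0, 0, 1074147351, 0, 0, 0, ⟨0, 0⟩, 0⟩ 0 0))))))))))))) (.cut .v 268435456 (.cut .v 67108864 (.cut .v 33554432 (.cut .d (-8388608) (.void 16 ⟨100000, 0, 0, 0, 0, 0, 0, 0, 0, ⟨0, 0⟩, 0⟩ 0 0) (.cut .v 25165824 (.cut .d (-4194304) (.void 17 ⟨100000, 0, 0, 0, 0, 0, 0,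 0, 0, ⟨0, 0⟩, 0⟩ 0 0) (.cut .d (-2097152) (.void 17 ⟨100000, 0, 0, 0, 0, 0, 0, 0, 0, ⟨0, 0⟩, 0⟩ 0 0) (.cut .v 20971520 (.cut .d (-1048576) (.void 19 ⟨100000, 0, 0, 0, 0, 0, 0, 0, 0, ⟨0, 0⟩, 0⟩ 0 0) (.cut .v 18874368 (.cut .d (-524288) (.void 21 ⟨100000, 0, 0, 0, 0, 0, 0, 0, 0, ⟨0, 0⟩, 0⟩ 0 0) (.cut .d (-262144) (.void 21 ⟨100000, 0, 0, 0, 0, 0, 0, 0, 0, ⟨0, 0⟩, 0⟩ 0 0) (.cut .d (-131072) (.void 21 ⟨0, 0, 0, 0, 0, 100000, 0, 0, 0, ⟨0, 0⟩, 0⟩ 0 0) (.cut .v 17825792 (.cut .d (-65536) (.cut .l 1593835 (.void 23 ⟨0, 0, 0, 0, 0, 100000, 0, 0, 0, ⟨0, 0⟩, 0⟩ 0 0) (.cut .d (-98304) (.cut .d (-114688) (.void 23 ⟨0, 0, 0, 0, 0, 100000, 0, 0, 0, ⟨0, 0⟩, 0⟩ 0 0) (.cut .l 2160066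 (.void 23 ⟨0, 0, 0, 0, 0, 100000, 0, 0, 0, ⟨0, 0⟩, 0⟩ 0 0) (.cut .l 2443182 (.void 23 ⟨0, 0, 0, 0, 0, 100000, 0, 0, 0, ⟨0, 0⟩, 0⟩ 0 0) (.cut .v 17301504 (.cut .s 14647296 (.pos 25 .mp ⟨92293261, 0, 0, 0, 0, 880672286, 0, 0, 0, ⟨0, 0⟩, 0⟩ 0 0) (.pos 25 .mp ⟨0, 0, 0, 0, 0, 1150672715, 0, 0, 0, ⟨0, 0⟩, 0⟩ 0 0)) (.cut .s 14647296 (.pos 26 .mp ⟨269147461, 0, 0, 0, 0, 559911529, 0, 0, 0, ⟨0, 0⟩, 0⟩ 0 0) (.pos 26 .mp ⟨309867684, 0, 0, 0, 0, 568902842, 0, 0, 0, ⟨0, 0⟩, 0⟩ 0 0)))))) (.cut .v 17301504 (.cut .s 14647296 (.cut .v 17039360 (.pos 44 .mp ⟨0, 0, 0, 0, 0, 997897466, 0, 0, 0, ⟨0, 0⟩, 0⟩ 0 0) (.cut .s 14565376 (.cut .s 14524416 (.pos 45 .mp ⟨171347733, 0, 0, 0, 0,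 635892795, 0, 0, 0, ⟨0, 0⟩, 0⟩ 0 0) (.pos 45 .mp ⟨175498976, 0, 0, 0, 0, 653418299, 0, 0, 0, ⟨0, 0⟩, 0⟩ 0 0)) (.cut .v 17170432 (.pos 78 .mp ⟨59156811, 0, 0, 0, 0, 914424844, 0, 0, 0, ⟨0, 0⟩, 0⟩ 0 0) (.cut .s 14606336 (.pos 79 .mp ⟨260162655, 0, 0, 0, 0, 505280328, 0, 0, 0, ⟨0, 0⟩, 0⟩ 0 0) (.cut .s 14626816 (.pos 79 .mp ⟨239174837, 0, 0, 0, 0, 570501807, 0, 0, 0, ⟨0, 0⟩, 0⟩ 0 0) (.pos 79 .mp ⟨240316168, 0, 0, 0, 0, 583928970, 0, 0, 0, ⟨0, 0⟩, 0⟩ 0 0)))))) (.cut .v 17039360 (.pos 44 .mp ⟨0, 0, 0, 0, 0, 1113901433, 0, 0, 0, ⟨0, 0⟩, 0⟩ 0 0) (.cut .s 14729216 (.cut .s 14688256 (.cut .s 14667776 (.pos 45 .mp ⟨187777385, 0, 0, 0, 0, 709814142, 0, 0, 0, ⟨0, 0⟩, 0⟩ 0 0)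 (.pos 45 .mp ⟨189796963, 0, 0, 0, 0, 722512002, 0, 0, 0, ⟨0, 0⟩, 0⟩ 0 0)) (.pos 45 .mp ⟨191808524, 0, 0, 0, 0, 744324405, 0, 0, 0, ⟨0, 0⟩, 0⟩ 0 0)) (.cut .s 14770176 (.pos 45 .mp ⟨195807018, 0, 0, 0, 0, 772566628, 0, 0, 0, ⟨0, 0⟩, 0⟩ 0 0) (.pos 45 .mp ⟨199771636, 0, 0, 0, 0, 803149346, 0, 0, 0, ⟨0, 0⟩, 0⟩ 0 0))))) (.cut .s 14647296 (.pos 26 .mp ⟨423154258, 0, 0, 0, 0, 198103649, 0, 0, 0, ⟨0, 0⟩, 0⟩ 0 0) (.cut .s 14729216 (.pos 26 .mp ⟨341118712, 0, 0, 0, 0, 435991555, 0, 0, 0, ⟨0, 0⟩, 0⟩ 0 0) (.pos 26 .mp ⟨357579756, 0, 0, 0, 0, 472902777, 0, 0, 0, ⟨0, 0⟩, 0⟩ 0 0)))))) (.cut .l 1593835 (.cut .v 17301504 (.cut .d (-32768) (.cut .s 14647296 (.cut .l 1027604 (.cut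 .v 17039360 (.pos 44 .mp ⟨179299569, 0, 0, 0, 0, 679481736, 0, 0, 0, ⟨0, 0⟩, 0⟩ 0 0) (.pos 45 .mp ⟨563098288, 0, 0, 0, 0, 0, 0, 0, 0, ⟨0, 0⟩, 0⟩ 0 0)) (.cut .d (-49152) (.cut .s 14565376 (.pos 25 .mp ⟨185415802, 0, 0, 0, 0, 632941775, 0, 0, 0, ⟨0, 0⟩, 0⟩ 0 0) (.pos 25 .mp ⟨191836381, 0, 0, 0, 0, 675428222, 0, 0, 0, ⟨0, 0⟩, 0⟩ 0 0)) (.cut .v 17039360 (.cut .s 14565376 (.pos 44 .mp ⟨162279761, 0, 0, 0, 0, 633021978, 0, 0, 0, ⟨0, 0⟩, 0⟩ 0 0) (.pos 44 .mp ⟨168631818, 0, 0, 0, 0, 670121605, 0, 0, 0, ⟨0, 0⟩, 0⟩ 0 0)) (.pos 45 .mp ⟨451479793, 0, 0, 0, 0, 91377395, 0, 0, 0, ⟨0, 0⟩, 0⟩ 0 0)))) (.cut .l 1027604 (.cut .s 14729216 (.pos 25 .mp ⟨201009457, 0, 0, 0, 0, 727889612,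 0, 0, 0, ⟨0, 0⟩, 0⟩ 0 0) (.pos 25 .mp ⟨208412914, 0, 0, 0, 0, 785943949, 0, 0, 0, ⟨0, 0⟩, 0⟩ 0 0)) (.cut .d (-49152) (.cut .s 14729216 (.pos 25 .mp ⟨199938262, 0, 0, 0, 0, 720656358, 0, 0, 0, ⟨0, 0⟩, 0⟩ 0 0) (.pos 25 .mp ⟨208038666, 0, 0, 0, 0, 774149618, 0, 0, 0, ⟨0, 0⟩, 0⟩ 0 0)) (.cut .s 14729216 (.cut .v 17039360 (.pos 44 .mp ⟨174783045, 0, 0, 0, 0, 715178246, 0, 0, 0, ⟨0, 0⟩, 0⟩ 0 0) (.pos 45 .mp ⟨329544457, 0, 0, 0, 0, 411919181, 0, 0, 0, ⟨0, 0⟩, 0⟩ 0 0)) (.pos 25 .mp ⟨237840408, 0, 0, 0, 0, 630890504, 0, 0, 0, ⟨0, 0⟩, 0⟩ 0 0))))) (.cut .l 1027604 (.cut .v 17039360 (.cut .d (-16384) (.cut .s 14647296 (.cut .s 14565376 (.cut .s 14524416 (.pos 44 .mp ⟨191582480,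 0, 0, 0, 0, 549699037, 0, 0, 0, ⟨0, 0⟩, 0⟩ 0 0) (.cut .s 14544896 (.pos 44 .mp ⟨186704413, 0, 0, 0, 0, 580269460, 0, 0, 0, ⟨0, 0⟩, 0⟩ 0 0) (.pos 44 .mp ⟨188033046, 0, 0, 0, 0, 591812925, 0, 0, 0, ⟨0, 0⟩, 0⟩ 0 0))) (.cut .l 744488 (.cut .d (-24576) (.pos 44 .mp ⟨187373603, 0, 0, 0, 0, 673430619, 0, 0, 0, ⟨0, 0⟩, 0⟩ 0 0) (.cut .l 602930 (.cut .v 16908288 (.cut .s 14606336 (.pos 53 .mp ⟨186543787, 0, 0, 0, 0, 610163584, 0, 0, 0, ⟨0, 0⟩, 0⟩ 0 0) (.pos 53 .mp ⟨187165943, 0, 0, 0, 0, 638449337, 0, 0, 0, ⟨0, 0⟩, 0⟩ 0 0)) (.pos 54 .mp ⟨350906558, 0, 0, 0, 0, 322293628, 0, 0, 0, ⟨0, 0⟩, 0⟩ 0 0)) (.pos 44 .mp ⟨198924948, 0, 0, 0, 0, 569965329, 0, 0, 0, ⟨0, 0⟩, 0⟩ 0 0)))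 (.cut .v 16908288 (.pos 53 .mp ⟨0, 0, 0, 0, 0, 933275830, 0, 0, 0, ⟨0, 0⟩, 0⟩ 0 0) (.pos 54 .mp ⟨206851946, 0, 0, 0, 0, 572137573, 0, 0, 0, ⟨0, 0⟩, 0⟩ 0 0)))) (.cut .s 14729216 (.cut .l 744488 (.cut .d (-24576) (.pos 44 .mp ⟨194150044, 0, 0, 0, 0, 717434368, 0, 0, 0, ⟨0, 0⟩, 0⟩ 0 0) (.cut .l 602930 (.cut .v 16908288 (.cut .s 14688256 (.pos 53 .mp ⟨188330540, 0, 0, 0, 0, 667620050, 0, 0, 0, ⟨0, 0⟩, 0⟩ 0 0) (.pos 53 .mp ⟨189348035, 0, 0, 0, 0, 703003323, 0, 0, 0, ⟨0, 0⟩, 0⟩ 0 0)) (.pos 54 .mp ⟨404403518, 0, 0, 0, 0, 275922848, 0, 0, 0, ⟨0, 0⟩, 0⟩ 0 0)) (.pos 44 .mp ⟨195985857, 0, 0, 0, 0, 645727465, 0, 0, 0, ⟨0, 0⟩, 0⟩ 0 0))) (.pos 44 .mp ⟨196525860, 0, 0, 0, 0,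 644565162, 0, 0, 0, ⟨0, 0⟩, 0⟩ 0 0)) (.cut .s 14770176 (.pos 44 .mp ⟨188230705, 0, 0, 0, 0, 744969729, 0, 0, 0, ⟨0, 0⟩, 0⟩ 0 0) (.pos 44 .mp ⟨195217479, 0, 0, 0, 0, 765873870, 0, 0, 0, ⟨0, 0⟩, 0⟩ 0 0)))) (.cut .v 16908288 (.cut .s 14647296 (.cut .s 14565376 (.pos 53 .mp ⟨184823830, 0, 0, 0, 0, 0, 0, 0, 0, ⟨0, 0⟩, 0⟩ 0 0) (.cut .s 14606336 (.pos 53 .mp ⟨187979173, 0, 0, 0, 0, 564333299, 0, 0, 0, ⟨0, 0⟩, 0⟩ 0 0) (.pos 53 .mp ⟨190925448, 0, 0, 0, 0, 585985907, 0, 0, 0, ⟨0, 0⟩, 0⟩ 0 0))) (.pos 53 .mp ⟨194568721, 0, 0, 0, 0, 608340963, 0, 0, 0, ⟨0, 0⟩, 0⟩ 0 0)) (.pos 54 .mp ⟨464785668, 0, 0, 0, 0, 0, 0, 0, 0, ⟨0, 0⟩, 0⟩ 0 0))) (.pos 45 .mp ⟨525295798, 0, 0, 0, 0, 0,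 0, 0, 0, ⟨0, 0⟩, 0⟩ 0 0)) (.pos 25 .mp ⟨215785648, 0, 0, 0, 0, 0, 0, 0, 0, ⟨0, 0⟩, 0⟩ 0 0))) (.pos 26 .mp ⟨560034438, 0, 0, 0, 0, 0, 0, 0, 0, ⟨0, 0⟩, 0⟩ 0 0)) (.cut .v 17301504 (.cut .d (-32768) (.cut .v 17039360 (.pos 44 .mp ⟨0, 0, 0, 0, 0, 943496341, 0, 0, 0, ⟨0, 0⟩, 0⟩ 0 0) (.cut .s 14647296 (.pos 45 .mp ⟨225884652, 0, 0, 0, 0, 505290063, 0, 0, 0, ⟨0, 0⟩, 0⟩ 0 0) (.pos 45 .mp ⟨246825904, 0, 0, 0, 0, 565618330, 0, 0, 0, ⟨0, 0⟩, 0⟩ 0 0))) (.pos 25 .mp ⟨0, 0, 0, 0, 0, 0, 0, 0, 0, ⟨0, 0⟩, 0⟩ 0 0)) (.pos 26 .mp ⟨506746731, 0, 0, 0, 0, 0, 0, 0, 0, ⟨0, 0⟩, 0⟩ 0 0)))) (.pos 24 .mp ⟨602098409, 0, 0, 0, 0, 0, 0, 0, 0, ⟨0, 0⟩, 0⟩ 0 0))))) (.pos 22 .mp ⟨1035164228, 0, 0,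 0, 0, 0, 0, 0, 0, ⟨0, 0⟩, 0⟩ 0 0))) (.void 20 ⟨100000, 0, 0, 0, 0, 0, 0, 0, 0, ⟨0, 0⟩, 0⟩ 0 0)))) (.void 18 ⟨100000, 0, 0, 0, 0, 0, 0, 0, 0, ⟨0, 0⟩, 0⟩ 0 0))) (.void 41 ⟨100000, 0, 0, 0, 0, 0, 0, 0, 0, ⟨0, 0⟩, 0⟩ 0 0)) (.void 52 ⟨100000, 0, 0, 0, 0, 0, 0, 0, 0, ⟨0, 0⟩, 0⟩ 0 0)) (.void 77 ⟨91067, 0, 0, 8933, 0, 0, 0, 0, 0, ⟨0, 0⟩, 0⟩ 0 0))) (.cut .v 16777216 (.cut .v 8388608 (.cut .v 4194304 (.cut .d 1328514 (.pos 4 .pm ⟨0, 0, 903926774, 0, 0, 0, 0, 0, 0, ⟨0, 0⟩, 0⟩ 0 0) (.cut .v 2097152 (.cut .v 1048576 (.pos 92 .pm ⟨0, 0, 3085467, 0, 0, 0, 0, 0, 0, ⟨0, 0⟩, 0⟩ 0 0) (.pos 93 .pm ⟨0, 28811322, 0, 0, 0, 0, 0, 0, 0, ⟨0, 0⟩, 0⟩ 0 0)) (.pos 64 .pm ⟨0, 42815544, 0, 0,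 0, 0, 0, 0, 0, ⟨0, 0⟩, 0⟩ 0 0))) (.cut .d 1328514 (.pos 5 .pm ⟨0, 0, 190586712, 0, 0, 0, 0, 0, 0, ⟨0, 0⟩, 0⟩ 0 0) (.pos 5 .pm ⟨0, 66558531, 0, 0, 0, 0, 0, 0, 0, ⟨0, 0⟩, 0⟩ 0 0))) (.pos 3 .pm ⟨0, 0, 0, 0, 0, 0, 0, 0, 0, ⟨0, 0⟩, 0⟩ 0 0)) (.cut .v 268435456 (.cut .v 67108864 (.cut .d 1328514 (.cut .v 33554432 (.cut .d 664257 (.cut .v 25165824 (.cut .v 20971520 (.pos 19 .pp ⟨306903844, 0, 0, 0, 0, 0, 0, 0, 0, ⟨0, 0⟩, 0⟩ 0 0) (.pos 20 .pp ⟨609879745, 0, 0, 0, 0, 0, 0, 0, 0, ⟨0, 0⟩, 0⟩ 0 0)) (.pos 18 .pp ⟨988308828, 0, 0, 0, 0, 0, 0, 0, 0, ⟨0, 0⟩, 0⟩ 0 0)) (.pos 16 .pp ⟨0, 0, 0, 0, 0, 0, 0, 0, 0, ⟨0, 0⟩, 0⟩ 0 0)) (.cut .d 664257 (.cut .v 50331648 (.cut .d 332128 (.pos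 42 .pp ⟨2861906727, 0, 0, 0, 0, 0, 0, 0, 0, ⟨0, 0⟩, 0⟩ 0 0) (.pos 42 .pp ⟨1663962737, 0, 0, 0, 0, 0, 0, 0, 0, ⟨0, 0⟩, 0⟩ 0 0)) (.pos 43 .pp ⟨4794359736, 0, 0, 0, 0, 0, 0, 0, 0, ⟨0, 0⟩, 0⟩ 0 0)) (.pos 41 .pp ⟨1117746444, 292278116, 0, 0, 0, 0, 0, 0, 0, ⟨0, 0⟩, 0⟩ 0 0))) (.pos 40 .pp ⟨0, 0, 0, 0, 0, 0, 0, 0, 0, ⟨0, 0⟩, 0⟩ 0 0)) (.void 52 ⟨82528, 0, 0, 17472, 0, 0, 0, 0, 0, ⟨0, 0⟩, 0⟩ 0 0)) (.void 77 ⟨0, 0, 0, 100000, 0, 0, 0, 0, 0, ⟨0, 0⟩, 0⟩ 0 0)))),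
    by decide +kernel⟩

def covers24 : cell.Covers table row24.1 :=
  ⟨(.cut .d 0 (.cut .v 16777216 (.cut .v 8388608 (.void 2 ⟨0, 0, 100000, 0, 0, 0, 0, 0, 0, ⟨0, 0⟩, 0⟩ 0 0) (.cut .d (-8388608) (.void 3 ⟨100000, 0, 0, 0, 0, 0, 0, 0, 0, ⟨0, 0⟩, 0⟩ 0 0) (.cut .d (-4194304) (.void 3 ⟨100000, 0, 0, 0, 0, 0, 0, 0, 0, ⟨0, 0⟩, 0⟩ 0 0) (.cut .d (-2097152) (.void 3 ⟨100000, 0, 0, 0, 0, 0, 0, 0, 0, ⟨0, 0⟩, 0⟩ 0 0) (.cut .d (-1048576) (.void 3 ⟨0, 0, 0, 0, 0, 100000, 0, 0, 0, ⟨0, 0⟩, 0⟩ 0 0) (.cut .d (-524288) (.void 3 ⟨0, 0, 0, 0, 0, 100000, 0, 0, 0, ⟨0, 0⟩, 0⟩ 0 0) (.cut .d (-262144) (.void 3 ⟨0, 0, 0, 0, 0, 100000, 0, 0, 0, ⟨0, 0⟩, 0⟩ 0 0) (.cut .d (-131072) (.void 3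 ⟨0, 0, 0, 0, 0, 100000, 0, 0, 0, ⟨0, 0⟩, 0⟩ 0 0) (.cut .v 12582912 (.pos 6 .mm ⟨0, 0, 0, 0, 0, 757649380, 0, 0, 0, ⟨0, 0⟩, 0⟩ 0 0) (.cut .d (-65536) (.pos 7 .mm ⟨0, 0, 0, 0, 0, 1404579920, 0, 0, 0, ⟨0, 0⟩, 0⟩ 0 0) (.cut .s 14942208 (.pos 7 .mm ⟨0, 0, 0, 0, 0, 1193640239, 0, 0, 0, ⟨0, 0⟩, 0⟩ 0 0) (.cut .s 15007744 (.pos 7 .mm ⟨0, 0, 0, 0, 0, 1269495533, 0, 0, 0, ⟨0, 0⟩, 0⟩ 0 0) (.pos 7 .mm ⟨0, 0, 0, 0, 0, 1340142359, 0, 0, 0, ⟨0, 0⟩, 0⟩ 0 0))))))))))))) (.cut .v 268435456 (.cut .v 67108864 (.cut .v 33554432 (.cut .d (-8388608) (.void 16 ⟨100000, 0, 0, 0, 0, 0, 0, 0, 0, ⟨0, 0⟩, 0⟩ 0 0) (.cut .d (-4194304) (.void 16 ⟨100000, 0, 0, 0, 0, 0, 0, 0, 0, ⟨0, 0⟩, 0⟩ 0 0)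 (.cut .v 25165824 (.cut .d (-2097152) (.void 17 ⟨100000, 0, 0, 0, 0, 0, 0, 0, 0, ⟨0, 0⟩, 0⟩ 0 0) (.cut .v 20971520 (.cut .d (-1048576) (.void 19 ⟨100000, 0, 0, 0, 0, 0, 0, 0, 0, ⟨0, 0⟩, 0⟩ 0 0) (.cut .v 18874368 (.cut .d (-524288) (.void 21 ⟨100000, 0, 0, 0, 0, 0, 0, 0, 0, ⟨0, 0⟩, 0⟩ 0 0) (.cut .d (-262144) (.void 21 ⟨100000, 0, 0, 0, 0, 0, 0, 0, 0, ⟨0, 0⟩, 0⟩ 0 0) (.cut .d (-131072) (.void 21 ⟨0, 0, 0, 0, 0, 100000, 0, 0, 0, ⟨0, 0⟩, 0⟩ 0 0) (.cut .v 17825792 (.cut .d (-65536) (.cut .d (-98304) (.void 23 ⟨0, 0, 0, 0, 0, 100000, 0, 0, 0, ⟨0, 0⟩, 0⟩ 0 0) (.cut .l 1593835 (.void 23 ⟨0, 0, 0, 0, 0, 100000, 0, 0, 0, ⟨0, 0⟩, 0⟩ 0 0) (.cut .v 17301504 (.cut .l 2160066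 (.pos 25 .mp ⟨221809973, 0, 0, 0, 0, 1035863545, 0, 0, 0, ⟨0, 0⟩, 0⟩ 0 0) (.cut .v 17039360 (.pos 44 .mp ⟨0, 0, 0, 0, 0, 1356160415, 0, 0, 0, ⟨0, 0⟩, 0⟩ 0 0) (.cut .s 14942208 (.cut .d (-81920) (.pos 45 .mp ⟨160290485, 0, 0, 0, 0, 1025720604, 0, 0, 0, ⟨0, 0⟩, 0⟩ 0 0) (.cut .d (-73728) (.pos 45 .mp ⟨220072064, 0, 0, 0, 0, 887208936, 0, 0, 0, ⟨0, 0⟩, 0⟩ 0 0) (.pos 45 .mp ⟨256543819, 0, 0, 0, 0, 754137069, 0, 0, 0, ⟨0, 0⟩, 0⟩ 0 0))) (.cut .d (-81920) (.pos 45 .mp ⟨0, 0, 0, 0, 0, 1462719643, 0, 0, 0, ⟨0, 0⟩, 0⟩ 0 0) (.cut .s 15007744 (.cut .s 14974976 (.pos 45 .mp ⟨220382408, 0, 0, 0, 0, 919537976, 0, 0, 0, ⟨0, 0⟩, 0⟩ 0 0) (.pos 45 .mp ⟨224472981, 0, 0, 0, 0, 944395081,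 0, 0, 0, ⟨0, 0⟩, 0⟩ 0 0)) (.pos 45 .mp ⟨228527174, 0, 0, 0, 0, 984856951, 0, 0, 0, ⟨0, 0⟩, 0⟩ 0 0)))))) (.cut .v 17563648 (.cut .v 17432576 (.cut .v 17367040 (.cut .l 2160066 (.pos 90 .mp ⟨848046365, 0, 0, 0, 0, 0, 0, 0, 0, ⟨0, 0⟩, 0⟩ 0 0) (.cut .l 2443182 (.pos 90 .mp ⟨773030568, 0, 0, 0, 0, 0, 0, 0, 0, ⟨0, 0⟩, 0⟩ 0 0) (.cut .d (-81920) (.cut .s 14942208 (.pos 90 .mp ⟨284742611, 0, 0, 0, 0, 805230919, 0, 0, 0, ⟨0, 0⟩, 0⟩ 0 0) (.pos 90 .mp ⟨316521349, 0, 0, 0, 0, 845113199, 0, 0, 0, ⟨0, 0⟩, 0⟩ 0 0)) (.cut .s 14942208 (.pos 90 .mp ⟨633564575, 0, 0, 0, 0, 0, 0, 0, 0, ⟨0, 0⟩, 0⟩ 0 0) (.pos 90 .mp ⟨469021150, 0, 0, 0, 0, 471846470, 0, 0, 0, ⟨0, 0⟩, 0⟩ 0 0))))) (.pos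 91 .mp ⟨751140734, 0, 0, 0, 0, 0, 0, 0, 0, ⟨0, 0⟩, 0⟩ 0 0)) (.pos 83 .mp ⟨759817715, 0, 0, 0, 0, 0, 0, 0, 0, ⟨0, 0⟩, 0⟩ 0 0)) (.pos 49 .mp ⟨777506385, 0, 0, 0, 0, 0, 0, 0, 0, ⟨0, 0⟩, 0⟩ 0 0))))) (.cut .v 17301504 (.cut .s 14942208 (.cut .d (-32768) (.cut .l 1593835 (.cut .l 1027604 (.pos 25 .mp ⟨219740119, 0, 0, 0, 0, 1106454724, 0, 0, 0, ⟨0, 0⟩, 0⟩ 0 0) (.cut .v 17039360 (.pos 44 .mp ⟨45755488, 0, 0, 0, 0, 1171988742, 0, 0, 0, ⟨0, 0⟩, 0⟩ 0 0) (.cut .s 14876672 (.pos 45 .mp ⟨279802197, 0, 0, 0, 0, 680679652, 0, 0, 0, ⟨0, 0⟩, 0⟩ 0 0) (.pos 45 .mp ⟨290952075, 0, 0, 0, 0, 714870999, 0, 0, 0, ⟨0, 0⟩, 0⟩ 0 0)))) (.cut .s 14876672 (.pos 25 .mp ⟨247728470, 0, 0, 0, 0,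 695689002, 0, 0, 0, ⟨0, 0⟩, 0⟩ 0 0) (.cut .v 17039360 (.pos 44 .mp ⟨0, 0, 0, 0, 0, 1230192642, 0, 0, 0, ⟨0, 0⟩, 0⟩ 0 0) (.cut .s 14909440 (.pos 45 .mp ⟨261862290, 0, 0, 0, 0, 734410504, 0, 0, 0, ⟨0, 0⟩, 0⟩ 0 0) (.pos 45 .mp ⟨266975261, 0, 0, 0, 0, 753151004, 0, 0, 0, ⟨0, 0⟩, 0⟩ 0 0))))) (.cut .v 17039360 (.cut .l 1593835 (.cut .l 1027604 (.cut .d (-16384) (.cut .s 14876672 (.pos 44 .mp ⟨198039266, 0, 0, 0, 0, 821262658, 0, 0, 0, ⟨0, 0⟩, 0⟩ 0 0) (.cut .s 14909440 (.pos 44 .mp ⟨206568461, 0, 0, 0, 0, 836948106, 0, 0, 0, ⟨0, 0⟩, 0⟩ 0 0) (.cut .s 14925824 (.pos 44 .mp ⟨213538003, 0, 0, 0, 0, 840392598, 0, 0, 0, ⟨0, 0⟩, 0⟩ 0 0) (.pos 44 .mp ⟨213262696, 0, 0, 0, 0, 856983005,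 0, 0, 0, ⟨0, 0⟩, 0⟩ 0 0)))) (.cut .d (-8192) (.cut .s 14876672 (.pos 44 .mp ⟨212718739, 0, 0, 0, 0, 739375925, 0, 0, 0, ⟨0, 0⟩, 0⟩ 0 0) (.cut .d (-12288) (.cut .v 16908288 (.cut .s 14909440 (.pos 53 .mp ⟨204277787, 0, 0, 0, 0, 820722253, 0, 0, 0, ⟨0, 0⟩, 0⟩ 0 0) (.pos 53 .mp ⟨205016282, 0, 0, 0, 0, 849530927, 0, 0, 0, ⟨0, 0⟩, 0⟩ 0 0)) (.pos 54 .mp ⟨598498354, 0, 0, 0, 0, 0, 0, 0, 0, ⟨0, 0⟩, 0⟩ 0 0)) (.pos 44 .mp ⟨211442818, 0, 0, 0, 0, 0, 0, 0, 0, ⟨0, 0⟩, 0⟩ 0 0))) (.pos 44 .mp ⟨205050619, 0, 0, 0, 0, 0, 0, 0, 0, ⟨0, 0⟩, 0⟩ 0 0))) (.pos 44 .mp ⟨220228466, 0, 0, 0, 0, 715339222, 0, 0, 0, ⟨0, 0⟩, 0⟩ 0 0)) (.pos 44 .mp ⟨0, 0, 0, 0, 0, 0, 0, 0, 0, ⟨0, 0⟩, 0⟩ 0 0))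 (.pos 45 .mp ⟨592917738, 0, 0, 0, 0, 0, 0, 0, 0, ⟨0, 0⟩, 0⟩ 0 0))) (.cut .d (-32768) (.cut .l 1593835 (.cut .l 1027604 (.void 25 ⟨0, 0, 0, 0, 0, 100000, 0, 0, 0, ⟨0, 0⟩, 0⟩ 0 0) (.cut .d (-49152) (.void 25 ⟨0, 0, 0, 0, 0, 100000, 0, 0, 0, ⟨0, 0⟩, 0⟩ 0 0) (.cut .s 15007744 (.cut .v 17039360 (.pos 44 .mp ⟨101738118, 0, 0, 0, 0, 1135913983, 0, 0, 0, ⟨0, 0⟩, 0⟩ 0 0) (.pos 45 .mp ⟨273561278, 0, 0, 0, 0, 795861577, 0, 0, 0, ⟨0, 0⟩, 0⟩ 0 0)) (.cut .v 17039360 (.pos 44 .mp ⟨91075910, 0, 0, 0, 0, 1224880429, 0, 0, 0, ⟨0, 0⟩, 0⟩ 0 0) (.pos 45 .mp ⟨282898981, 0, 0, 0, 0, 844529399, 0, 0, 0, ⟨0, 0⟩, 0⟩ 0 0))))) (.cut .d (-49152) (.cut .l 2160066 (.cut .s 15007744 (.cut .s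 14974976 (.pos 25 .mp ⟨208637217, 0, 0, 0, 0, 937677577, 0, 0, 0, ⟨0, 0⟩, 0⟩ 0 0) (.pos 25 .mp ⟨211955732, 0, 0, 0, 0, 964389877, 0, 0, 0, ⟨0, 0⟩, 0⟩ 0 0)) (.pos 25 .mp ⟨215217478, 0, 0, 0, 0, 1009022303, 0, 0, 0, ⟨0, 0⟩, 0⟩ 0 0)) (.pos 25 .mp ⟨245067242, 0, 0, 0, 0, 796700858, 0, 0, 0, ⟨0, 0⟩, 0⟩ 0 0)) (.pos 25 .mp ⟨243579665, 0, 0, 0, 0, 792043584, 0, 0, 0, ⟨0, 0⟩, 0⟩ 0 0))) (.cut .l 1593835 (.cut .l 1027604 (.cut .v 17039360 (.cut .d (-16384) (.cut .s 15007744 (.cut .v 16908288 (.pos 53 .mp ⟨155960382, 0, 0, 0, 0, 1012306538, 0, 0, 0, ⟨0, 0⟩, 0⟩ 0 0) (.cut .s 14974976 (.pos 54 .mp ⟨251785932, 0, 0, 0, 0, 802904648, 0, 0, 0, ⟨0, 0⟩, 0⟩ 0 0) (.pos 54 .mp ⟨255501532,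 0, 0, 0, 0, 828526406, 0, 0, 0, ⟨0, 0⟩, 0⟩ 0 0))) (.cut .s 15040512 (.cut .s 15024128 (.pos 44 .mp ⟨216510931, 0, 0, 0, 0, 935954085, 0, 0, 0, ⟨0, 0⟩, 0⟩ 0 0) (.pos 44 .mp ⟨218189542, 0, 0, 0, 0, 950746753, 0, 0, 0, ⟨0, 0⟩, 0⟩ 0 0)) (.pos 44 .mp ⟨208448453, 0, 0, 0, 0, 1004654872, 0, 0, 0, ⟨0, 0⟩, 0⟩ 0 0))) (.cut .d (-8192) (.cut .d (-12288) (.cut .l 744488 (.cut .l 602930 (.cut .v 16908288 (.cut .s 15007744 (.cut .s 14974976 (.pos 53 .mp ⟨207196297, 0, 0, 0, 0, 873743403, 0, 0, 0, ⟨0, 0⟩, 0⟩ 0 0) (.pos 53 .mp ⟨209341932, 0, 0, 0, 0, 899015674, 0, 0, 0, ⟨0, 0⟩, 0⟩ 0 0)) (.pos 53 .mp ⟨209796457, 0, 0, 0, 0, 944848546, 0, 0, 0, ⟨0, 0⟩, 0⟩ 0 0)) (.pos 54 .mp ⟨664379519,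 0, 0, 0, 0, 0, 0, 0, 0, ⟨0, 0⟩, 0⟩ 0 0)) (.pos 44 .mp ⟨221148312, 0, 0, 0, 0, 584086981, 0, 0, 0, ⟨0, 0⟩, 0⟩ 0 0)) (.pos 44 .mp ⟨0, 0, 0, 0, 0, 0, 0, 0, 0, ⟨0, 0⟩, 0⟩ 0 0)) (.pos 44 .mp ⟨219948339, 0, 0, 0, 0, 570430001, 0, 0, 0, ⟨0, 0⟩, 0⟩ 0 0)) (.pos 44 .mp ⟨212356546, 0, 0, 0, 0, 0, 0, 0, 0, ⟨0, 0⟩, 0⟩ 0 0))) (.pos 45 .mp ⟨697432734, 0, 0, 0, 0, 0, 0, 0, 0, ⟨0, 0⟩, 0⟩ 0 0)) (.pos 25 .mp ⟨241861094, 0, 0, 0, 0, 778521490, 0, 0, 0, ⟨0, 0⟩, 0⟩ 0 0)) (.pos 25 .mp ⟨0, 0, 0, 0, 0, 0, 0, 0, 0, ⟨0, 0⟩, 0⟩ 0 0)))) (.cut .s 14942208 (.pos 26 .mp ⟨631041714, 0, 0, 0, 0, 0, 0, 0, 0, ⟨0, 0⟩, 0⟩ 0 0) (.pos 26 .mp ⟨687537551, 0, 0, 0, 0, 0, 0, 0, 0, ⟨0, 0⟩, 0⟩ 0 0)))) (.pos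 24 .mp ⟨764323835, 0, 0, 0, 0, 0, 0, 0, 0, ⟨0, 0⟩, 0⟩ 0 0))))) (.pos 22 .mp ⟨1290340919, 0, 0, 0, 0, 0, 0, 0, 0, ⟨0, 0⟩, 0⟩ 0 0))) (.void 20 ⟨100000, 0, 0, 0, 0, 0, 0, 0, 0, ⟨0, 0⟩, 0⟩ 0 0))) (.void 18 ⟨100000, 0, 0, 0, 0, 0, 0, 0, 0, ⟨0, 0⟩, 0⟩ 0 0)))) (.void 41 ⟨100000, 0, 0, 0, 0, 0, 0, 0, 0, ⟨0, 0⟩, 0⟩ 0 0)) (.void 52 ⟨100000, 0, 0, 0, 0, 0, 0, 0, 0, ⟨0, 0⟩, 0⟩ 0 0)) (.void 77 ⟨90923, 0, 0, 9077, 0, 0, 0, 0, 0, ⟨0, 0⟩, 0⟩ 0 0))) (.cut .v 16777216 (.cut .v 8388608 (.cut .v 4194304 (.cut .d 1113533 (.pos 4 .pm ⟨0, 0, 1141762567, 0, 0, 0, 0, 0, 0, ⟨0, 0⟩, 0⟩ 0 0) (.cut .v 2097152 (.cut .v 1048576 (.cut .v 524288 (.pos 96 .pm ⟨0, 0, 15176982, 0, 0, 0, 0, 0, 0,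 ⟨0, 0⟩, 0⟩ 0 0) (.pos 97 .pm ⟨0, 8096099, 0, 0, 0, 0, 0, 0, 0, ⟨0, 0⟩, 0⟩ 0 0)) (.pos 93 .pm ⟨0, 23424081, 0, 0, 0, 0, 0, 0, 0, ⟨0, 0⟩, 0⟩ 0 0)) (.pos 64 .pm ⟨0, 36317032, 0, 0, 0, 0, 0, 0, 0, ⟨0, 0⟩, 0⟩ 0 0))) (.pos 5 .pm ⟨0, 0, 21550754, 0, 0, 0, 0, 0, 0, ⟨0, 0⟩, 0⟩ 0 0)) (.pos 3 .pm ⟨0, 0, 0, 0, 0, 0, 0, 0, 0, ⟨0, 0⟩, 0⟩ 0 0)) (.cut .v 268435456 (.cut .v 67108864 (.cut .d 1113533 (.cut .v 33554432 (.cut .d 556766 (.cut .v 25165824 (.cut .v 20971520 (.pos 19 .pp ⟨340020084, 0, 0, 0, 0, 0, 0, 0, 0, ⟨0, 0⟩, 0⟩ 0 0) (.pos 20 .pp ⟨751735234, 0, 0, 0, 0, 0, 0, 0, 0, ⟨0, 0⟩, 0⟩ 0 0)) (.pos 18 .pp ⟨1192388857, 0, 0, 0, 0, 0, 0, 0, 0, ⟨0, 0⟩, 0⟩ 0 0)) (.pos 16 .pp ⟨0,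 0, 0, 0, 0, 0, 0, 0, 0, ⟨0, 0⟩, 0⟩ 0 0)) (.cut .d 556766 (.cut .v 50331648 (.cut .d 278383 (.void 42 ⟨100000, 0, 0, 0, 0, 0, 0, 0, 0, ⟨0, 0⟩, 0⟩ 0 0) (.pos 42 .pp ⟨2021451929, 0, 0, 0, 0, 0, 0, 0, 0, ⟨0, 0⟩, 0⟩ 0 0)) (.pos 43 .pp ⟨5627973938, 0, 0, 0, 0, 0, 0, 0, 0, ⟨0, 0⟩, 0⟩ 0 0)) (.pos 41 .pp ⟨1410186161, 426642230, 0, 0, 0, 0, 0, 0, 0, ⟨0, 0⟩, 0⟩ 0 0))) (.pos 40 .pp ⟨0, 0, 0, 0, 0, 0, 0, 0, 0, ⟨0, 0⟩, 0⟩ 0 0)) (.void 52 ⟨82447, 0, 0, 17553, 0, 0, 0, 0, 0, ⟨0, 0⟩, 0⟩ 0 0)) (.void 77 ⟨0, 0, 0, 100000, 0, 0, 0, 0, 0, ⟨0, 0⟩, 0⟩ 0 0)))),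
    by decide +kernel⟩

def covers25 : cell.Covers table row25.1 :=
  ⟨(.cut .d 0 (.cut .v 16777216 (.cut .v 8388608 (.void 2 ⟨0, 0, 100000, 0, 0, 0, 0, 0, 0, ⟨0, 0⟩, 0⟩ 0 0) (.cut .d (-8388608) (.void 3 ⟨100000, 0, 0, 0, 0, 0, 0, 0, 0, ⟨0, 0⟩, 0⟩ 0 0) (.cut .d (-4194304) (.void 3 ⟨100000, 0, 0, 0, 0, 0, 0, 0, 0, ⟨0, 0⟩, 0⟩ 0 0) (.cut .d (-2097152) (.void 3 ⟨100000, 0, 0, 0, 0, 0, 0, 0, 0, ⟨0, 0⟩, 0⟩ 0 0) (.cut .d (-1048576) (.void 3 ⟨0, 0, 0, 0, 0, 100000, 0, 0, 0, ⟨0, 0⟩, 0⟩ 0 0) (.cut .d (-524288) (.void 3 ⟨0, 0, 0, 0, 0, 100000, 0, 0, 0, ⟨0, 0⟩, 0⟩ 0 0) (.cut .d (-262144) (.void 3 ⟨0, 0, 0, 0, 0, 100000, 0, 0, 0, ⟨0, 0⟩, 0⟩ 0 0) (.cut .d (-131072) (.void 3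 ⟨0, 0, 0, 0, 0, 100000, 0, 0, 0, ⟨0, 0⟩, 0⟩ 0 0) (.cut .d (-65536) (.pos 3 .mm ⟨0, 0, 0, 0, 0, 1693653769, 0, 0, 0, ⟨0, 0⟩, 0⟩ 0 0) (.cut .v 12582912 (.pos 6 .mm ⟨0, 0, 11393841, 0, 0, 859368635, 0, 0, 0, ⟨0, 0⟩, 0⟩ 0 0) (.cut .s 15171584 (.pos 7 .mm ⟨0, 0, 0, 0, 0, 1456199305, 0, 0, 0, ⟨0, 0⟩, 0⟩ 0 0) (.cut .d (-32768) (.pos 7 .mm ⟨0, 0, 0, 0, 0, 1639150833, 0, 0, 0, ⟨0, 0⟩, 0⟩ 0 0) (.pos 7 .mm ⟨0, 0, 0, 0, 0, 1537139117, 0, 0, 0, ⟨0, 0⟩, 0⟩ 0 0))))))))))))) (.cut .v 268435456 (.cut .v 67108864 (.cut .v 33554432 (.cut .d (-8388608) (.void 16 ⟨100000, 0, 0, 0, 0, 0, 0, 0, 0, ⟨0, 0⟩, 0⟩ 0 0) (.cut .d (-4194304) (.void 16 ⟨100000, 0, 0, 0, 0, 0, 0, 0, 0, ⟨0, 0⟩,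 0⟩ 0 0) (.cut .v 25165824 (.cut .d (-2097152) (.void 17 ⟨100000, 0, 0, 0, 0, 0, 0, 0, 0, ⟨0, 0⟩, 0⟩ 0 0) (.cut .v 20971520 (.cut .d (-1048576) (.void 19 ⟨100000, 0, 0, 0, 0, 0, 0, 0, 0, ⟨0, 0⟩, 0⟩ 0 0) (.cut .v 18874368 (.cut .d (-524288) (.void 21 ⟨100000, 0, 0, 0, 0, 0, 0, 0, 0, ⟨0, 0⟩, 0⟩ 0 0) (.cut .d (-262144) (.void 21 ⟨100000, 0, 0, 0, 0, 0, 0, 0, 0, ⟨0, 0⟩, 0⟩ 0 0) (.cut .d (-131072) (.void 21 ⟨100000, 0, 0, 0, 0, 0, 0, 0, 0, ⟨0, 0⟩, 0⟩ 0 0) (.cut .v 17825792 (.cut .d (-65536) (.cut .d (-98304) (.void 23 ⟨0, 0, 0, 0, 0, 100000, 0, 0, 0, ⟨0, 0⟩, 0⟩ 0 0) (.cut .d (-81920) (.void 23 ⟨0, 0, 0, 0, 0, 100000, 0, 0, 0, ⟨0, 0⟩, 0⟩ 0 0) (.cut .l 1593835 (.void 23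 ⟨0, 0, 0, 0, 0, 100000, 0, 0, 0, ⟨0, 0⟩, 0⟩ 0 0) (.cut .l 2160066 (.void 23 ⟨0, 0, 0, 0, 0, 100000, 0, 0, 0, ⟨0, 0⟩, 0⟩ 0 0) (.cut .v 17301504 (.cut .s 15171584 (.pos 25 .mp ⟨226887930, 0, 0, 0, 0, 1145561264, 0, 0, 0, ⟨0, 0⟩, 0⟩ 0 0) (.cut .s 15220736 (.pos 25 .mp ⟨241108063, 0, 0, 0, 0, 1180022618, 0, 0, 0, ⟨0, 0⟩, 0⟩ 0 0) (.pos 25 .mp ⟨248022128, 0, 0, 0, 0, 1232175043, 0, 0, 0, ⟨0, 0⟩, 0⟩ 0 0))) (.cut .s 15171584 (.pos 26 .mp ⟨861344001, 0, 0, 0, 0, 0, 0, 0, 0, ⟨0, 0⟩, 0⟩ 0 0) (.pos 26 .mp ⟨897665514, 0, 0, 0, 0, 0, 0, 0, 0, ⟨0, 0⟩, 0⟩ 0 0))))))) (.cut .v 17301504 (.cut .d (-32768) (.cut .l 1593835 (.cut .d (-49152) (.void 25 ⟨0, 0, 0, 0, 0, 100000, 0, 0, 0,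 ⟨0, 0⟩, 0⟩ 0 0) (.cut .l 1027604 (.void 25 ⟨0, 0, 0, 0, 0, 100000, 0, 0, 0, ⟨0, 0⟩, 0⟩ 0 0) (.cut .l 1310719 (.pos 25 .mp ⟨229002518, 0, 0, 0, 0, 1242854718, 0, 0, 0, ⟨0, 0⟩, 0⟩ 0 0) (.cut .d (-40960) (.pos 25 .mp ⟨233203794, 0, 0, 0, 0, 1224883721, 0, 0, 0, ⟨0, 0⟩, 0⟩ 0 0) (.cut .s 15171584 (.pos 25 .mp ⟨256155332, 0, 0, 0, 0, 967863512, 0, 0, 0, ⟨0, 0⟩, 0⟩ 0 0) (.pos 25 .mp ⟨225020486, 0, 0, 0, 0, 1186058193, 0, 0, 0, ⟨0, 0⟩, 0⟩ 0 0)))))) (.cut .s 15171584 (.cut .v 17039360 (.pos 44 .mp ⟨0, 0, 0, 0, 0, 1497081999, 0, 0, 0, ⟨0, 0⟩, 0⟩ 0 0) (.cut .d (-49152) (.cut .l 2160066 (.pos 45 .mp ⟨231012152, 0, 0, 0, 0, 1123065644, 0, 0, 0, ⟨0, 0⟩, 0⟩ 0 0) (.cut .s 15122432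 (.pos 45 .mp ⟨270261816, 0, 0, 0, 0, 944719071, 0, 0, 0, ⟨0, 0⟩, 0⟩ 0 0) (.pos 45 .mp ⟨278568450, 0, 0, 0, 0, 976991952, 0, 0, 0, ⟨0, 0⟩, 0⟩ 0 0))) (.pos 45 .mp ⟨270495389, 0, 0, 0, 0, 939223860, 0, 0, 0, ⟨0, 0⟩, 0⟩ 0 0))) (.cut .v 17039360 (.pos 44 .mp ⟨0, 0, 0, 0, 0, 1611272347, 0, 0, 0, ⟨0, 0⟩, 0⟩ 0 0) (.cut .d (-49152) (.cut .s 15220736 (.cut .s 15196160 (.pos 45 .mp ⟨216210497, 0, 0, 0, 0, 1188009326, 0, 0, 0, ⟨0, 0⟩, 0⟩ 0 0) (.pos 45 .mp ⟨218601748, 0, 0, 0, 0, 1216608555, 0, 0, 0, ⟨0, 0⟩, 0⟩ 0 0)) (.pos 45 .mp ⟨220902868, 0, 0, 0, 0, 1262614767, 0, 0, 0, ⟨0, 0⟩, 0⟩ 0 0)) (.pos 45 .mp ⟨284127477, 0, 0, 0, 0, 1012507558, 0, 0, 0, ⟨0, 0⟩, 0⟩ 0 0))))) (.cut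 .l 1593835 (.cut .s 15171584 (.cut .v 17039360 (.cut .d (-16384) (.cut .l 1027604 (.cut .s 15122432 (.pos 44 .mp ⟨211784310, 0, 0, 0, 0, 1056128015, 0, 0, 0, ⟨0, 0⟩, 0⟩ 0 0) (.cut .s 15147008 (.pos 44 .mp ⟨219887006, 0, 0, 0, 0, 1071752053, 0, 0, 0, ⟨0, 0⟩, 0⟩ 0 0) (.pos 44 .mp ⟨218433893, 0, 0, 0, 0, 1105551466, 0, 0, 0, ⟨0, 0⟩, 0⟩ 0 0))) (.pos 44 .mp ⟨177832630, 0, 0, 0, 0, 1118109139, 0, 0, 0, ⟨0, 0⟩, 0⟩ 0 0)) (.cut .d (-8192) (.cut .l 1027604 (.cut .l 744488 (.cut .v 16908288 (.cut .s 15122432 (.pos 53 .mp ⟨207839493, 0, 0, 0, 0, 1021940261, 0, 0, 0, ⟨0, 0⟩, 0⟩ 0 0) (.cut .d (-12288) (.pos 53 .mp ⟨205340065, 0, 0, 0, 0, 1102127722, 0, 0, 0, ⟨0, 0⟩, 0⟩ 0 0)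 (.pos 53 .mp ⟨210322397, 0, 0, 0, 0, 1046835442, 0, 0, 0, ⟨0, 0⟩, 0⟩ 0 0))) (.pos 54 .mp ⟨572382272, 0, 0, 0, 0, 325928707, 0, 0, 0, ⟨0, 0⟩, 0⟩ 0 0)) (.pos 44 .mp ⟨221046117, 0, 0, 0, 0, 0, 0, 0, 0, ⟨0, 0⟩, 0⟩ 0 0)) (.pos 44 .mp ⟨0, 0, 0, 0, 0, 0, 0, 0, 0, ⟨0, 0⟩, 0⟩ 0 0)) (.pos 44 .mp ⟨217263731, 0, 0, 0, 0, 0, 0, 0, 0, ⟨0, 0⟩, 0⟩ 0 0))) (.pos 45 .mp ⟨728790259, 0, 0, 0, 0, 0, 0, 0, 0, ⟨0, 0⟩, 0⟩ 0 0)) (.cut .v 17039360 (.cut .d (-16384) (.cut .l 1027604 (.cut .s 15220736 (.cut .s 15196160 (.pos 44 .mp ⟨217987417, 0, 0, 0, 0, 1138499339, 0, 0, 0, ⟨0, 0⟩, 0⟩ 0 0) (.pos 44 .mp ⟨218629155, 0, 0, 0, 0, 1170434385, 0, 0, 0, ⟨0, 0⟩, 0⟩ 0 0)) (.pos 44 .mp ⟨209781090,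 0, 0, 0, 0, 1249368269, 0, 0, 0, ⟨0, 0⟩, 0⟩ 0 0)) (.pos 44 .mp ⟨188724824, 0, 0, 0, 0, 1196315780, 0, 0, 0, ⟨0, 0⟩, 0⟩ 0 0)) (.cut .d (-8192) (.cut .d (-12288) (.cut .s 15220736 (.cut .s 15196160 (.pos 44 .mp ⟨233165488, 0, 0, 0, 0, 1079043299, 0, 0, 0, ⟨0, 0⟩, 0⟩ 0 0) (.pos 44 .mp ⟨233683573, 0, 0, 0, 0, 1110732127, 0, 0, 0, ⟨0, 0⟩, 0⟩ 0 0)) (.pos 44 .mp ⟨240963039, 0, 0, 0, 0, 1130958610, 0, 0, 0, ⟨0, 0⟩, 0⟩ 0 0)) (.pos 44 .mp ⟨228801002, 0, 0, 0, 0, 1045603804, 0, 0, 0, ⟨0, 0⟩, 0⟩ 0 0)) (.pos 44 .mp ⟨220931141, 0, 0, 0, 0, 0, 0, 0, 0, ⟨0, 0⟩, 0⟩ 0 0))) (.pos 45 .mp ⟨780185969, 0, 0, 0, 0, 0, 0, 0, 0, ⟨0, 0⟩, 0⟩ 0 0))) (.pos 25 .mp ⟨232643209, 0, 0, 0, 0, 0,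 0, 0, 0, ⟨0, 0⟩, 0⟩ 0 0))) (.cut .s 15171584 (.pos 26 .mp ⟨749861330, 0, 0, 0, 0, 0, 0, 0, 0, ⟨0, 0⟩, 0⟩ 0 0) (.pos 26 .mp ⟨809994518, 0, 0, 0, 0, 0, 0, 0, 0, ⟨0, 0⟩, 0⟩ 0 0)))) (.pos 24 .mp ⟨918504389, 0, 0, 0, 0, 0, 0, 0, 0, ⟨0, 0⟩, 0⟩ 0 0))))) (.pos 22 .mp ⟨1540389359, 0, 0, 0, 0, 0, 0, 0, 0, ⟨0, 0⟩, 0⟩ 0 0))) (.void 20 ⟨100000, 0, 0, 0, 0, 0, 0, 0, 0, ⟨0, 0⟩, 0⟩ 0 0))) (.void 18 ⟨100000, 0, 0, 0, 0, 0, 0, 0, 0, ⟨0, 0⟩, 0⟩ 0 0)))) (.void 41 ⟨100000, 0, 0, 0, 0, 0, 0, 0, 0, ⟨0, 0⟩, 0⟩ 0 0)) (.void 52 ⟨100000, 0, 0, 0, 0, 0, 0, 0, 0, ⟨0, 0⟩, 0⟩ 0 0)) (.void 77 ⟨90816, 0, 0, 9184, 0, 0, 0, 0, 0, ⟨0, 0⟩, 0⟩ 0 0))) (.cut .v 16777216 (.cut .v 8388608 (.cut .v 4194304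 (.cut .v 2097152 (.cut .v 1048576 (.cut .v 524288 (.pos 96 .pm ⟨0, 0, 24256291, 0, 0, 0, 0, 0, 0, ⟨0, 0⟩, 0⟩ 0 0) (.pos 97 .pm ⟨0, 0, 24159396, 0, 0, 0, 0, 0, 0, ⟨0, 0⟩, 0⟩ 0 0)) (.pos 93 .pm ⟨0, 0, 27997507, 0, 0, 0, 0, 0, 0, ⟨0, 0⟩, 0⟩ 0 0)) (.pos 64 .pm ⟨0, 0, 32294092, 0, 0, 0, 0, 0, 0, ⟨0, 0⟩, 0⟩ 0 0)) (.pos 5 .pm ⟨0, 0, 56089995, 0, 0, 0, 0, 0, 0, ⟨0, 0⟩, 0⟩ 0 0)) (.pos 3 .pm ⟨0, 0, 2937824, 0, 0, 0, 0, 0, 0, ⟨0, 0⟩, 0⟩ 0 0)) (.cut .v 268435456 (.cut .v 67108864 (.cut .d 948278 (.cut .v 33554432 (.cut .d 474139 (.cut .v 25165824 (.pos 17 .pp ⟨595845296, 0, 0, 0, 0, 0, 0, 0, 0, ⟨0, 0⟩, 0⟩ 0 0) (.pos 18 .pp ⟨1394432082, 0, 0, 0, 0, 0, 0, 0, 0, ⟨0, 0⟩, 0⟩ 0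 0)) (.pos 16 .pp ⟨0, 0, 0, 0, 0, 0, 0, 0, 0, ⟨0, 0⟩, 0⟩ 0 0)) (.cut .d 474139 (.cut .v 50331648 (.cut .d 237069 (.void 42 ⟨100000, 0, 0, 0, 0, 0, 0, 0, 0, ⟨0, 0⟩, 0⟩ 0 0) (.pos 42 .pp ⟨2383741299, 0, 0, 0, 0, 0, 0, 0, 0, ⟨0, 0⟩, 0⟩ 0 0)) (.pos 43 .pp ⟨6435486962, 0, 0, 0, 0, 0, 0, 0, 0, ⟨0, 0⟩, 0⟩ 0 0)) (.pos 41 .pp ⟨1723632099, 578253775, 0, 0, 0, 0, 0, 0, 0, ⟨0, 0⟩, 0⟩ 0 0))) (.pos 40 .pp ⟨0, 0, 0, 0, 0, 0, 0, 0, 0, ⟨0, 0⟩, 0⟩ 0 0)) (.void 52 ⟨82393, 0, 0, 17607, 0, 0, 0, 0, 0, ⟨0, 0⟩, 0⟩ 0 0)) (.void 77 ⟨0, 0, 0, 100000, 0, 0, 0, 0, 0, ⟨0, 0⟩, 0⟩ 0 0)))),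
    by decide +kernel⟩

def covers26 : cell.Covers table row26.1 :=
  ⟨(.cut .d 0 (.cut .v 16777216 (.cut .v 8388608 (.void 2 ⟨0, 0, 100000, 0, 0, 0, 0, 0, 0, ⟨0, 0⟩, 0⟩ 0 0) (.cut .d (-8388608) (.void 3 ⟨100000, 0, 0, 0, 0, 0, 0, 0, 0, ⟨0, 0⟩, 0⟩ 0 0) (.cut .d (-4194304) (.void 3 ⟨100000, 0, 0, 0, 0, 0, 0, 0, 0, ⟨0, 0⟩, 0⟩ 0 0) (.cut .d (-2097152) (.void 3 ⟨100000, 0, 0, 0, 0, 0, 0, 0, 0, ⟨0, 0⟩, 0⟩ 0 0) (.cut .d (-1048576) (.void 3 ⟨67650, 0, 32350, 0, 0, 0, 0, 0, 0, ⟨0, 0⟩, 0⟩ 0 0) (.cut .d (-524288) (.void 3 ⟨0, 0, 0, 0, 0, 100000, 0, 0, 0, ⟨0, 0⟩, 0⟩ 0 0) (.cut .d (-262144) (.void 3 ⟨0, 0, 0, 0, 0, 100000, 0, 0, 0, ⟨0, 0⟩, 0⟩ 0 0) (.cut .d (-131072) (.void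 3 ⟨0, 0, 0, 0, 0, 100000, 0, 0, 0, ⟨0, 0⟩, 0⟩ 0 0) (.cut .d (-65536) (.pos 3 .mm ⟨0, 0, 0, 0, 0, 2145795500, 0, 0, 0, ⟨0, 0⟩, 0⟩ 0 0) (.cut .v 12582912 (.cut .v 10485760 (.cut .v 9437184 (.cut .d (-32768) (.pos 57 .mm ⟨0, 0, 79720681, 0, 0, 1222712939, 0, 0, 0, ⟨0, 0⟩, 0⟩ 0 0) (.cut .d (-16384) (.pos 57 .mm ⟨0, 0, 81265706, 0, 0, 1180995972, 0, 0, 0, ⟨0, 0⟩, 0⟩ 0 0) (.cut .d (-8192) (.cut .v 8912896 (.void 67 ⟨0, 0, 100000, 0, 0, 0, 0, 0, 0, ⟨0, 0⟩, 0⟩ 0 0) (.cut .v 9175040 (.void 71 ⟨0, 0, 100000, 0, 0, 0, 0, 0, 0, ⟨0, 0⟩, 0⟩ 0 0) (.pos 72 .mm ⟨0, 0, 57436800, 0, 0, 930299294, 0, 0, 0, ⟨0, 0⟩, 0⟩ 0 0))) (.pos 57 .mm ⟨0, 0, 60202392, 0, 0, 0, 0, 0, 0, ⟨0, 0⟩, 0⟩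 0 0)))) (.pos 58 .mm ⟨0, 0, 0, 0, 0, 1004888578, 0, 0, 0, ⟨0, 0⟩, 0⟩ 0 0)) (.pos 9 .mm ⟨0, 0, 0, 0, 0, 1227891064, 0, 0, 0, ⟨0, 0⟩, 0⟩ 0 0)) (.cut .v 14680064 (.pos 10 .mm ⟨0, 0, 0, 0, 0, 1536856740, 0, 0, 0, ⟨0, 0⟩, 0⟩ 0 0) (.cut .v 15728640 (.pos 12 .mm ⟨0, 0, 0, 0, 0, 1728681148, 0, 0, 0, ⟨0, 0⟩, 0⟩ 0 0) (.cut .s 15400960 (.cut .s 15335424 (.pos 13 .mm ⟨0, 0, 0, 0, 0, 1682239732, 0, 0, 0, ⟨0, 0⟩, 0⟩ 0 0) (.pos 13 .mm ⟨0, 0, 0, 0, 0, 1789301043, 0, 0, 0, ⟨0, 0⟩, 0⟩ 0 0)) (.cut .d (-32768) (.pos 13 .mm ⟨0, 0, 0, 0, 0, 2016872204, 0, 0, 0, ⟨0, 0⟩, 0⟩ 0 0) (.pos 13 .mm ⟨0, 0, 0, 0, 0, 1901033250, 0, 0, 0, ⟨0, 0⟩, 0⟩ 0 0))))))))))))))) (.cut .v 268435456 (.cut .v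 67108864 (.cut .v 33554432 (.cut .d (-8388608) (.void 16 ⟨100000, 0, 0, 0, 0, 0, 0, 0, 0, ⟨0, 0⟩, 0⟩ 0 0) (.cut .d (-4194304) (.void 16 ⟨100000, 0, 0, 0, 0, 0, 0, 0, 0, ⟨0, 0⟩, 0⟩ 0 0) (.cut .v 25165824 (.cut .d (-2097152) (.void 17 ⟨100000, 0, 0, 0, 0, 0, 0, 0, 0, ⟨0, 0⟩, 0⟩ 0 0) (.cut .v 20971520 (.cut .d (-1048576) (.void 19 ⟨100000, 0, 0, 0, 0, 0, 0, 0, 0, ⟨0, 0⟩, 0⟩ 0 0) (.cut .d (-524288) (.void 19 ⟨100000, 0, 0, 0, 0, 0, 0, 0, 0, ⟨0, 0⟩, 0⟩ 0 0) (.cut .d (-262144) (.void 19 ⟨100000, 0, 0, 0, 0, 0, 0, 0, 0, ⟨0, 0⟩, 0⟩ 0 0) (.cut .d (-131072) (.void 19 ⟨100000, 0, 0, 0, 0, 0, 0, 0, 0, ⟨0, 0⟩, 0⟩ 0 0) (.cut .v 18874368 (.cut .v 17825792 (.cut .d (-65536) (.cut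 .v 17301504 (.pos 25 .mp ⟨254959927, 0, 0, 0, 0, 1732646628, 0, 0, 0, ⟨0, 0⟩, 0⟩ 0 0) (.pos 26 .mp ⟨1193975019, 0, 0, 0, 0, 0, 0, 0, 0, ⟨0, 0⟩, 0⟩ 0 0)) (.cut .d (-32768) (.cut .v 17301504 (.cut .s 15400960 (.cut .l 1593835 (.pos 25 .mp ⟨232746011, 0, 0, 0, 0, 1441443908, 0, 0, 0, ⟨0, 0⟩, 0⟩ 0 0) (.cut .v 17039360 (.pos 44 .mp ⟨0, 0, 0, 0, 0, 1804274617, 0, 0, 0, ⟨0, 0⟩, 0⟩ 0 0) (.cut .d (-49152) (.cut .s 15335424 (.pos 45 .mp ⟨225371899, 0, 0, 0, 0, 1364158281, 0, 0, 0, ⟨0, 0⟩, 0⟩ 0 0) (.cut .s 15368192 (.pos 45 .mp ⟨233606784, 0, 0, 0, 0, 1402457970, 0, 0, 0, ⟨0, 0⟩, 0⟩ 0 0) (.pos 45 .mp ⟨237397862, 0, 0, 0, 0, 1441010806, 0, 0, 0, ⟨0, 0⟩, 0⟩ 0 0))) (.cut .s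 15335424 (.pos 45 .mp ⟨294489562, 0, 0, 0, 0, 1146161441, 0, 0, 0, ⟨0, 0⟩, 0⟩ 0 0) (.pos 45 .mp ⟨297331888, 0, 0, 0, 0, 1214841184, 0, 0, 0, ⟨0, 0⟩, 0⟩ 0 0))))) (.cut .s 15466496 (.cut .s 15433728 (.cut .s 15417344 (.pos 25 .mp ⟨181204667, 0, 0, 0, 0, 1588576541, 0, 0, 0, ⟨0, 0⟩, 0⟩ 0 0) (.pos 25 .mp ⟨181475464, 0, 0, 0, 0, 1618703446, 0, 0, 0, ⟨0, 0⟩, 0⟩ 0 0)) (.pos 25 .mp ⟨181632620, 0, 0, 0, 0, 1662859188, 0, 0, 0, ⟨0, 0⟩, 0⟩ 0 0)) (.pos 25 .mp ⟨181589716, 0, 0, 0, 0, 1768627919, 0, 0, 0, ⟨0, 0⟩, 0⟩ 0 0))) (.cut .s 15400960 (.cut .s 15335424 (.pos 26 .mp ⟨953484110, 0, 0, 0, 0, 0, 0, 0, 0, ⟨0, 0⟩, 0⟩ 0 0) (.pos 26 .mp ⟨995107750, 0, 0, 0, 0, 0, 0, 0, 0, ⟨0,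 0⟩, 0⟩ 0 0)) (.pos 26 .mp ⟨1049014300, 0, 0, 0, 0, 0, 0, 0, 0, ⟨0, 0⟩, 0⟩ 0 0))) (.cut .l 1593835 (.cut .v 17301504 (.cut .d (-16384) (.cut .s 15400960 (.cut .l 1027604 (.cut .s 15335424 (.cut .v 17039360 (.pos 44 .mp ⟨211676532, 0, 0, 0, 0, 1317640749, 0, 0, 0, ⟨0, 0⟩, 0⟩ 0 0) (.pos 45 .mp ⟨915675015, 0, 0, 0, 0, 0, 0, 0, 0, ⟨0, 0⟩, 0⟩ 0 0)) (.pos 25 .mp ⟨224184061, 0, 0, 0, 0, 1415538953, 0, 0, 0, ⟨0, 0⟩, 0⟩ 0 0)) (.pos 25 .mp ⟨274972927, 0, 0, 0, 0, 1139299222, 0, 0, 0, ⟨0, 0⟩, 0⟩ 0 0)) (.pos 25 .mp ⟨194143000, 0, 0, 0, 0, 1605387822, 0, 0, 0, ⟨0, 0⟩, 0⟩ 0 0)) (.pos 25 .mp ⟨251485351, 0, 0, 0, 0, 1128615439, 0, 0, 0, ⟨0, 0⟩, 0⟩ 0 0)) (.pos 26 .mp ⟨933497926,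 0, 0, 0, 0, 0, 0, 0, 0, ⟨0, 0⟩, 0⟩ 0 0)) (.pos 23 .mp ⟨274908098, 0, 0, 0, 0, 313415874, 0, 0, 0, ⟨0, 0⟩, 0⟩ 0 0)))) (.pos 24 .mp ⟨1133704894, 0, 0, 0, 0, 0, 0, 0, 0, ⟨0, 0⟩, 0⟩ 0 0)) (.pos 22 .mp ⟨1259634194, 0, 0, 0, 0, 0, 0, 0, 0, ⟨0, 0⟩, 0⟩ 0 0)))))) (.void 20 ⟨100000, 0, 0, 0, 0, 0, 0, 0, 0, ⟨0, 0⟩, 0⟩ 0 0))) (.void 18 ⟨100000, 0, 0, 0, 0, 0, 0, 0, 0, ⟨0, 0⟩, 0⟩ 0 0)))) (.void 41 ⟨100000, 0, 0, 0, 0, 0, 0, 0, 0, ⟨0, 0⟩, 0⟩ 0 0)) (.void 52 ⟨100000, 0, 0, 0, 0, 0, 0, 0, 0, ⟨0, 0⟩, 0⟩ 0 0)) (.void 77 ⟨90673, 0, 0, 9327, 0, 0, 0, 0, 0, ⟨0, 0⟩, 0⟩ 0 0))) (.cut .v 16777216 (.cut .v 8388608 (.cut .v 4194304 (.cut .v 2097152 (.cut .v 1048576 (.cut .v 524288 (.pos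 96 .pm ⟨0, 0, 26711602, 0, 0, 0, 0, 0, 0, ⟨0, 0⟩, 0⟩ 0 0) (.pos 97 .pm ⟨0, 0, 31856059, 0, 0, 0, 0, 0, 0, ⟨0, 0⟩, 0⟩ 0 0)) (.pos 93 .pm ⟨0, 0, 41916607, 0, 0, 0, 0, 0, 0, ⟨0, 0⟩, 0⟩ 0 0)) (.cut .d 828061 (.pos 64 .pm ⟨0, 0, 387910718, 0, 0, 0, 0, 0, 0, ⟨0, 0⟩, 0⟩ 0 0) (.pos 64 .pm ⟨0, 18189647, 0, 0, 0, 0, 0, 0, 0, ⟨0, 0⟩, 0⟩ 0 0))) (.pos 5 .pm ⟨0, 0, 96562845, 0, 0, 0, 0, 0, 0, ⟨0, 0⟩, 0⟩ 0 0)) (.pos 3 .pm ⟨0, 0, 12471917, 0, 0, 0, 0, 0, 0, ⟨0, 0⟩, 0⟩ 0 0)) (.cut .v 268435456 (.cut .v 67108864 (.cut .d 828061 (.cut .v 33554432 (.cut .d 414030 (.cut .v 25165824 (.pos 17 .pp ⟨630921752, 0, 0, 0, 0, 0, 0, 0, 0, ⟨0, 0⟩, 0⟩ 0 0) (.pos 18 .pp ⟨1623599235, 0, 0, 0, 0,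 0, 0, 0, 0, ⟨0, 0⟩, 0⟩ 0 0)) (.pos 16 .pp ⟨0, 0, 0, 0, 0, 0, 0, 0, 0, ⟨0, 0⟩, 0⟩ 0 0)) (.cut .d 414030 (.cut .v 50331648 (.cut .d 207015 (.pos 42 .pp ⟨4549513394, 0, 0, 0, 0, 0, 0, 0, 0, ⟨0, 0⟩, 0⟩ 0 0) (.pos 42 .pp ⟨2750874176, 0, 0, 0, 0, 0, 0, 0, 0, ⟨0, 0⟩, 0⟩ 0 0)) (.pos 43 .pp ⟨7561847440, 0, 0, 0, 0, 0, 0, 0, 0, ⟨0, 0⟩, 0⟩ 0 0)) (.pos 41 .pp ⟨2032543167, 739689478, 0, 0, 0, 0, 0, 0, 0, ⟨0, 0⟩, 0⟩ 0 0))) (.pos 40 .pp ⟨0, 0, 0, 0, 0, 0, 0, 0, 0, ⟨0, 0⟩, 0⟩ 0 0)) (.void 52 ⟨82245, 0, 0, 17755, 0, 0, 0, 0, 0, ⟨0, 0⟩, 0⟩ 0 0)) (.void 77 ⟨0, 0, 0, 100000, 0, 0, 0, 0, 0, ⟨0, 0⟩, 0⟩ 0 0)))),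
    by decide +kernel⟩

def covers27 : cell.Covers table row27.1 :=
  ⟨(.cut .d 0 (.cut .v 16777216 (.cut .v 8388608 (.void 2 ⟨0, 0, 100000, 0, 0, 0, 0, 0, 0, ⟨0, 0⟩, 0⟩ 0 0) (.cut .d (-8388608) (.void 3 ⟨100000, 0, 0, 0, 0, 0, 0, 0, 0, ⟨0, 0⟩, 0⟩ 0 0) (.cut .d (-4194304) (.void 3 ⟨100000, 0, 0, 0, 0, 0, 0, 0, 0, ⟨0, 0⟩, 0⟩ 0 0) (.cut .d (-2097152) (.void 3 ⟨100000, 0, 0, 0, 0, 0, 0, 0, 0, ⟨0, 0⟩, 0⟩ 0 0) (.cut .d (-1048576) (.void 3 ⟨67353, 0, 32647, 0, 0, 0, 0, 0, 0, ⟨0, 0⟩, 0⟩ 0 0) (.cut .d (-524288) (.void 3 ⟨0, 0, 0, 0, 0, 100000, 0, 0, 0, ⟨0, 0⟩, 0⟩ 0 0) (.cut .d (-262144) (.void 3 ⟨0, 0, 0, 0, 0, 100000, 0, 0, 0, ⟨0, 0⟩, 0⟩ 0 0) (.cut .d (-131072) (.void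 3 ⟨0, 0, 0, 0, 0, 100000, 0, 0, 0, ⟨0, 0⟩, 0⟩ 0 0) (.cut .d (-65536) (.void 3 ⟨0, 0, 0, 0, 0, 100000, 0, 0, 0, ⟨0, 0⟩, 0⟩ 0 0) (.cut .v 12582912 (.cut .v 10485760 (.cut .d (-32768) (.cut .v 9437184 (.pos 57 .mm ⟨0, 0, 647411009, 0, 0, 1222017025, 0, 0, 0, ⟨0, 0⟩, 0⟩ 0 0) (.cut .v 9961472 (.pos 59 .mm ⟨0, 0, 97898056, 0, 0, 1361149255, 0, 0, 0, ⟨0, 0⟩, 0⟩ 0 0) (.pos 60 .mm ⟨0, 0, 0, 0, 0, 1471429278, 0, 0, 0, ⟨0, 0⟩, 0⟩ 0 0))) (.cut .v 9437184 (.cut .v 8912896 (.void 67 ⟨0, 0, 100000, 0, 0, 0, 0, 0, 0, ⟨0, 0⟩, 0⟩ 0 0) (.cut .v 9175040 (.void 71 ⟨0, 0, 100000, 0, 0, 0, 0, 0, 0, ⟨0, 0⟩, 0⟩ 0 0) (.cut .l 1593835 (.cut .d (-16384) (.pos 72 .mm ⟨0, 0, 108424022, 0, 0,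 1261731124, 0, 0, 0, ⟨0, 0⟩, 0⟩ 0 0) (.cut .l 1027604 (.cut .d (-8192) (.cut .s 15654912 (.cut .s 15593472 (.pos 72 .mm ⟨0, 0, 57434323, 0, 0, 939194719, 0, 0, 0, ⟨0, 0⟩, 0⟩ 0 0) (.pos 72 .mm ⟨0, 0, 66445723, 0, 0, 1170445975, 0, 0, 0, ⟨0, 0⟩, 0⟩ 0 0)) (.pos 72 .mm ⟨0, 0, 93026227, 0, 0, 1209285091, 0, 0, 0, ⟨0, 0⟩, 0⟩ 0 0)) (.cut .s 15654912 (.pos 72 .mm ⟨0, 0, 57434323, 0, 0, 745524001, 0, 0, 0, ⟨0, 0⟩, 0⟩ 0 0) (.pos 72 .mm ⟨0, 0, 99203368, 0, 0, 1033901151, 0, 0, 0, ⟨0, 0⟩, 0⟩ 0 0))) (.pos 72 .mm ⟨0, 0, 100955059, 0, 0, 991476136, 0, 0, 0, ⟨0, 0⟩, 0⟩ 0 0))) (.pos 72 .mm ⟨0, 0, 1060668626, 0, 0, 0, 0, 0, 0, ⟨0, 0⟩, 0⟩ 0 0)))) (.cut .d (-16384) (.cut .l 1593835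 (.pos 58 .mm ⟨0, 0, 57687032, 0, 0, 1293582097, 0, 0, 0, ⟨0, 0⟩, 0⟩ 0 0) (.pos 58 .mm ⟨0, 0, 74977716, 0, 0, 1220696309, 0, 0, 0, ⟨0, 0⟩, 0⟩ 0 0)) (.pos 58 .mm ⟨0, 0, 0, 0, 0, 1143584614, 0, 0, 0, ⟨0, 0⟩, 0⟩ 0 0)))) (.pos 9 .mm ⟨0, 0, 0, 0, 0, 1430535367, 0, 0, 0, ⟨0, 0⟩, 0⟩ 0 0)) (.cut .v 14680064 (.pos 10 .mm ⟨0, 0, 0, 0, 0, 1777307599, 0, 0, 0, ⟨0, 0⟩, 0⟩ 0 0) (.pos 11 .mm ⟨0, 0, 0, 0, 0, 2154588549, 0, 0, 0, ⟨0, 0⟩, 0⟩ 0 0)))))))))))) (.cut .v 268435456 (.cut .v 67108864 (.cut .v 33554432 (.cut .d (-8388608) (.void 16 ⟨100000, 0, 0, 0, 0, 0, 0, 0, 0, ⟨0, 0⟩, 0⟩ 0 0) (.cut .d (-4194304) (.void 16 ⟨100000, 0, 0, 0, 0, 0, 0, 0, 0, ⟨0, 0⟩, 0⟩ 0 0) (.cut .v 25165824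 (.cut .d (-2097152) (.void 17 ⟨100000, 0, 0, 0, 0, 0, 0, 0, 0, ⟨0, 0⟩, 0⟩ 0 0) (.cut .d (-1048576) (.void 17 ⟨100000, 0, 0, 0, 0, 0, 0, 0, 0, ⟨0, 0⟩, 0⟩ 0 0) (.cut .v 20971520 (.cut .d (-524288) (.void 19 ⟨100000, 0, 0, 0, 0, 0, 0, 0, 0, ⟨0, 0⟩, 0⟩ 0 0) (.cut .d (-262144) (.void 19 ⟨100000, 0, 0, 0, 0, 0, 0, 0, 0, ⟨0, 0⟩, 0⟩ 0 0) (.cut .d (-131072) (.void 19 ⟨100000, 0, 0, 0, 0, 0, 0, 0, 0, ⟨0, 0⟩, 0⟩ 0 0) (.cut .d (-65536) (.void 19 ⟨0, 0, 0, 0, 0, 100000, 0, 0, 0, ⟨0, 0⟩, 0⟩ 0 0) (.cut .v 18874368 (.cut .s 15654912 (.cut .v 17825792 (.cut .v 17301504 (.pos 25 .mp ⟨90466124, 0, 0, 0, 0, 2022987443, 0, 0, 0, ⟨0, 0⟩, 0⟩ 0 0) (.pos 26 .mp ⟨1187566449, 0, 0, 0, 0,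 0, 0, 0, 0, ⟨0, 0⟩, 0⟩ 0 0)) (.pos 24 .mp ⟨1251194295, 0, 0, 0, 0, 0, 0, 0, 0, ⟨0, 0⟩, 0⟩ 0 0)) (.pos 21 .mp ⟨446886937, 0, 0, 0, 0, 1539571285, 0, 0, 0, ⟨0, 0⟩, 0⟩ 0 0)) (.pos 22 .mp ⟨1431593717, 0, 0, 0, 0, 0, 0, 0, 0, ⟨0, 0⟩, 0⟩ 0 0)))))) (.void 20 ⟨100000, 0, 0, 0, 0, 0, 0, 0, 0, ⟨0, 0⟩, 0⟩ 0 0)))) (.void 18 ⟨100000, 0, 0, 0, 0, 0, 0, 0, 0, ⟨0, 0⟩, 0⟩ 0 0)))) (.void 41 ⟨100000, 0, 0, 0, 0, 0, 0, 0, 0, ⟨0, 0⟩, 0⟩ 0 0)) (.void 52 ⟨100000, 0, 0, 0, 0, 0, 0, 0, 0, ⟨0, 0⟩, 0⟩ 0 0)) (.void 77 ⟨90539, 0, 0, 9461, 0, 0, 0, 0, 0, ⟨0, 0⟩, 0⟩ 0 0))) (.cut .v 16777216 (.cut .v 8388608 (.cut .v 4194304 (.cut .v 2097152 (.cut .v 1048576 (.cut .v 524288 (.cut .v 262144 (.pos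 100 .pm ⟨0, 0, 29073216, 0, 0, 0, 0, 0, 0, ⟨0, 0⟩, 0⟩ 0 0) (.pos 101 .pm ⟨0, 0, 37949943, 0, 0, 0, 0, 0, 0, ⟨0, 0⟩, 0⟩ 0 0)) (.pos 97 .pm ⟨0, 0, 52095923, 0, 0, 0, 0, 0, 0, ⟨0, 0⟩, 0⟩ 0 0)) (.pos 93 .pm ⟨0, 0, 72868504, 0, 0, 0, 0, 0, 0, ⟨0, 0⟩, 0⟩ 0 0)) (.pos 64 .pm ⟨0, 0, 104474700, 0, 0, 0, 0, 0, 0, ⟨0, 0⟩, 0⟩ 0 0)) (.pos 5 .pm ⟨0, 0, 207266762, 0, 0, 0, 0, 0, 0, ⟨0, 0⟩, 0⟩ 0 0)) (.cut .v 12582912 (.pos 6 .pm ⟨0, 0, 57671588, 0, 0, 0, 0, 0, 0, ⟨0, 0⟩, 0⟩ 0 0) (.pos 7 .pm ⟨0, 0, 0, 0, 0, 0, 0, 0, 0, ⟨0, 0⟩, 0⟩ 0 0))) (.cut .v 268435456 (.cut .v 67108864 (.cut .d 672505 (.cut .v 33554432 (.cut .v 25165824 (.pos 17 .pp ⟨659302329, 0, 0, 0, 0, 0, 0, 0, 0, ⟨0, 0⟩,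 0⟩ 0 0) (.pos 18 .pp ⟨1638760759, 0, 0, 0, 0, 0, 0, 0, 0, ⟨0, 0⟩, 0⟩ 0 0)) (.cut .d 336252 (.cut .v 50331648 (.pos 42 .pp ⟨4445217014, 0, 0, 0, 0, 0, 0, 0, 0, ⟨0, 0⟩, 0⟩ 0 0) (.pos 43 .pp ⟨9236825119, 0, 0, 0, 0, 0, 0, 0, 0, ⟨0, 0⟩, 0⟩ 0 0)) (.pos 41 .pp ⟨2603002480, 1045036162, 0, 0, 0, 0, 0, 0, 0, ⟨0, 0⟩, 0⟩ 0 0))) (.pos 40 .pp ⟨0, 0, 0, 0, 0, 0, 0, 0, 0, ⟨0, 0⟩, 0⟩ 0 0)) (.void 52 ⟨82145, 0, 0, 17855, 0, 0, 0, 0, 0, ⟨0, 0⟩, 0⟩ 0 0)) (.void 77 ⟨0, 0, 0, 100000, 0, 0, 0, 0, 0, ⟨0, 0⟩, 0⟩ 0 0)))),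
    by decide +kernel⟩

def covers28 : cell.Covers table row28.1 :=
  ⟨(.cut .d 0 (.cut .v 16777216 (.cut .v 8388608 (.void 2 ⟨0, 0, 100000, 0, 0, 0, 0, 0, 0, ⟨0, 0⟩, 0⟩ 0 0) (.cut .d (-8388608) (.void 3 ⟨100000, 0, 0, 0, 0, 0, 0, 0, 0, ⟨0, 0⟩, 0⟩ 0 0) (.cut .d (-4194304) (.void 3 ⟨100000, 0, 0, 0, 0, 0, 0, 0, 0, ⟨0, 0⟩, 0⟩ 0 0) (.cut .d (-2097152) (.void 3 ⟨100000, 0, 0, 0, 0, 0, 0, 0, 0, ⟨0, 0⟩, 0⟩ 0 0) (.cut .d (-1048576) (.void 3 ⟨100000, 0, 0, 0, 0, 0, 0, 0, 0, ⟨0, 0⟩, 0⟩ 0 0) (.cut .d (-524288) (.void 3 ⟨0, 0, 0, 0, 0, 100000, 0, 0, 0, ⟨0, 0⟩, 0⟩ 0 0) (.cut .d (-262144) (.void 3 ⟨0, 0, 0, 0, 0, 100000, 0, 0, 0, ⟨0, 0⟩, 0⟩ 0 0) (.cut .d (-131072) (.void 3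 ⟨0, 0, 0, 0, 0, 100000, 0, 0, 0, ⟨0, 0⟩, 0⟩ 0 0) (.cut .d (-65536) (.void 3 ⟨0, 0, 0, 0, 0, 100000, 0, 0, 0, ⟨0, 0⟩, 0⟩ 0 0) (.cut .v 12582912 (.cut .v 10485760 (.cut .d (-32768) (.cut .d (-49152) (.void 8 ⟨0, 0, 0, 0, 0, 100000, 0, 0, 0, ⟨0, 0⟩, 0⟩ 0 0) (.cut .v 9437184 (.void 57 ⟨0, 0, 100000, 0, 0, 0, 0, 0, 0, ⟨0, 0⟩, 0⟩ 0 0) (.cut .l 1593835 (.void 58 ⟨0, 0, 0, 0, 0, 100000, 0, 0, 0, ⟨0, 0⟩, 0⟩ 0 0) (.cut .d (-40960) (.pos 58 .mm ⟨0, 0, 89263749, 0, 0, 1680741304, 0, 0, 0, ⟨0, 0⟩, 0⟩ 0 0) (.cut .l 2160066 (.pos 58 .mm ⟨0, 0, 91035666, 0, 0, 1665410845, 0, 0, 0, ⟨0, 0⟩, 0⟩ 0 0) (.cut .s 15876096 (.cut .s 15826944 (.pos 58 .mm ⟨0, 0, 88596489, 0, 0, 1344488628,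 0, 0, 0, ⟨0, 0⟩, 0⟩ 0 0) (.cut .s 15851520 (.pos 58 .mm ⟨0, 0, 93368337, 0, 0, 1388983490, 0, 0, 0, ⟨0, 0⟩, 0⟩ 0 0) (.pos 58 .mm ⟨0, 0, 97237929, 0, 0, 1428418125, 0, 0, 0, ⟨0, 0⟩, 0⟩ 0 0))) (.pos 58 .mm ⟨0, 0, 114236430, 0, 0, 1552540093, 0, 0, 0, ⟨0, 0⟩, 0⟩ 0 0))))))) (.cut .d (-16384) (.cut .l 1593835 (.cut .l 1027604 (.void 8 ⟨0, 0, 0, 0, 0, 100000, 0, 0, 0, ⟨0, 0⟩, 0⟩ 0 0) (.cut .d (-24576) (.pos 8 .mm ⟨0, 0, 97614768, 0, 0, 2496626835, 0, 0, 0, ⟨0, 0⟩, 0⟩ 0 0) (.cut .v 9437184 (.cut .s 15876096 (.pos 57 .mm ⟨0, 0, 226010388, 0, 0, 1266533076, 0, 0, 0, ⟨0, 0⟩, 0⟩ 0 0) (.pos 57 .mm ⟨0, 0, 327336115, 0, 0, 1425028246, 0, 0, 0, ⟨0, 0⟩, 0⟩ 0 0)) (.cut .s 15876096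 (.pos 58 .mm ⟨0, 0, 95525348, 0, 0, 1352305775, 0, 0, 0, ⟨0, 0⟩, 0⟩ 0 0) (.pos 58 .mm ⟨0, 0, 125350869, 0, 0, 1559757382, 0, 0, 0, ⟨0, 0⟩, 0⟩ 0 0))))) (.cut .v 9437184 (.pos 57 .mm ⟨0, 0, 1417127256, 0, 0, 0, 0, 0, 0, ⟨0, 0⟩, 0⟩ 0 0) (.cut .v 9961472 (.cut .d (-24576) (.cut .l 2160066 (.cut .s 15876096 (.pos 59 .mm ⟨0, 0, 104506349, 0, 0, 1366803561, 0, 0, 0, ⟨0, 0⟩, 0⟩ 0 0) (.pos 59 .mm ⟨0, 0, 131545749, 0, 0, 1547945003, 0, 0, 0, ⟨0, 0⟩, 0⟩ 0 0)) (.pos 59 .mm ⟨0, 0, 111996427, 0, 0, 1318824936, 0, 0, 0, ⟨0, 0⟩, 0⟩ 0 0)) (.pos 59 .mm ⟨0, 0, 110690609, 0, 0, 1291445148, 0, 0, 0, ⟨0, 0⟩, 0⟩ 0 0)) (.pos 60 .mm ⟨0, 0, 0, 0, 0, 1482024954, 0, 0, 0, ⟨0, 0⟩, 0⟩ 0 0))))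 (.cut .l 1593835 (.cut .v 9437184 (.cut .v 8912896 (.void 67 ⟨0, 0, 100000, 0, 0, 0, 0, 0, 0, ⟨0, 0⟩, 0⟩ 0 0) (.cut .v 9175040 (.void 71 ⟨0, 0, 100000, 0, 0, 0, 0, 0, 0, ⟨0, 0⟩, 0⟩ 0 0) (.cut .v 9306112 (.pos 98 .mm ⟨0, 0, 1353612094, 0, 0, 0, 0, 0, 0, ⟨0, 0⟩, 0⟩ 0 0) (.cut .s 15876096 (.cut .s 15826944 (.pos 99 .mm ⟨0, 0, 101493285, 0, 0, 1249080428, 0, 0, 0, ⟨0, 0⟩, 0⟩ 0 0) (.pos 99 .mm ⟨0, 0, 114562396, 0, 0, 1328029276, 0, 0, 0, ⟨0, 0⟩, 0⟩ 0 0)) (.cut .s 15925248 (.cut .s 15900672 (.pos 99 .mm ⟨0, 0, 121745302, 0, 0, 1413234534, 0, 0, 0, ⟨0, 0⟩, 0⟩ 0 0) (.pos 99 .mm ⟨0, 0, 129410415, 0, 0, 1471481719, 0, 0, 0, ⟨0, 0⟩, 0⟩ 0 0)) (.pos 99 .mm ⟨0, 0, 178809275,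 0, 0, 1552544328, 0, 0, 0, ⟨0, 0⟩, 0⟩ 0 0)))))) (.cut .s 15876096 (.pos 58 .mm ⟨0, 0, 0, 0, 0, 1347106651, 0, 0, 0, ⟨0, 0⟩, 0⟩ 0 0) (.cut .s 15925248 (.pos 58 .mm ⟨0, 0, 0, 0, 0, 1506839995, 0, 0, 0, ⟨0, 0⟩, 0⟩ 0 0) (.pos 58 .mm ⟨0, 0, 0, 0, 0, 1658677478, 0, 0, 0, ⟨0, 0⟩, 0⟩ 0 0)))) (.pos 8 .mm ⟨0, 0, 152883103, 0, 0, 0, 0, 0, 0, ⟨0, 0⟩, 0⟩ 0 0)))) (.cut .d (-32768) (.pos 9 .mm ⟨0, 0, 0, 0, 0, 1899438452, 0, 0, 0, ⟨0, 0⟩, 0⟩ 0 0) (.pos 9 .mm ⟨0, 0, 0, 0, 0, 1599870748, 0, 0, 0, ⟨0, 0⟩, 0⟩ 0 0))) (.pos 7 .mm ⟨0, 0, 0, 0, 0, 2449711272, 0, 0, 0, ⟨0, 0⟩, 0⟩ 0 0))))))))))) (.cut .v 268435456 (.cut .v 67108864 (.cut .v 33554432 (.cut .d (-8388608) (.void 16 ⟨100000,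 0, 0, 0, 0, 0, 0, 0, 0, ⟨0, 0⟩, 0⟩ 0 0) (.cut .d (-4194304) (.void 16 ⟨100000, 0, 0, 0, 0, 0, 0, 0, 0, ⟨0, 0⟩, 0⟩ 0 0) (.cut .d (-2097152) (.void 16 ⟨100000, 0, 0, 0, 0, 0, 0, 0, 0, ⟨0, 0⟩, 0⟩ 0 0) (.cut .v 25165824 (.cut .d (-1048576) (.void 17 ⟨100000, 0, 0, 0, 0, 0, 0, 0, 0, ⟨0, 0⟩, 0⟩ 0 0) (.cut .v 20971520 (.cut .d (-524288) (.void 19 ⟨100000, 0, 0, 0, 0, 0, 0, 0, 0, ⟨0, 0⟩, 0⟩ 0 0) (.cut .v 18874368 (.cut .d (-262144) (.void 21 ⟨100000, 0, 0, 0, 0, 0, 0, 0, 0, ⟨0, 0⟩, 0⟩ 0 0) (.cut .d (-131072) (.void 21 ⟨100000, 0, 0, 0, 0, 0, 0, 0, 0, ⟨0, 0⟩, 0⟩ 0 0) (.cut .d (-65536) (.void 21 ⟨100000, 0, 0, 0, 0, 0, 0, 0, 0, ⟨0, 0⟩, 0⟩ 0 0) (.pos 21 .mp ⟨583461217, 0,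 0, 0, 0, 1648864805, 0, 0, 0, ⟨0, 0⟩, 0⟩ 0 0)))) (.pos 22 .mp ⟨2811447075, 0, 0, 0, 0, 0, 0, 0, 0, ⟨0, 0⟩, 0⟩ 0 0))) (.void 20 ⟨100000, 0, 0, 0, 0, 0, 0, 0, 0, ⟨0, 0⟩, 0⟩ 0 0))) (.void 18 ⟨100000, 0, 0, 0, 0, 0, 0, 0, 0, ⟨0, 0⟩, 0⟩ 0 0))))) (.void 41 ⟨100000, 0, 0, 0, 0, 0, 0, 0, 0, ⟨0, 0⟩, 0⟩ 0 0)) (.void 52 ⟨100000, 0, 0, 0, 0, 0, 0, 0, 0, ⟨0, 0⟩, 0⟩ 0 0)) (.void 77 ⟨90433, 0, 0, 9567, 0, 0, 0, 0, 0, ⟨0, 0⟩, 0⟩ 0 0))) (.cut .v 16777216 (.cut .v 8388608 (.cut .v 4194304 (.cut .v 2097152 (.cut .v 1048576 (.cut .v 524288 (.cut .v 262144 (.pos 100 .pm ⟨0, 0, 34908706, 0, 0, 0, 0, 0, 0, ⟨0, 0⟩, 0⟩ 0 0) (.pos 101 .pm ⟨0, 0, 55818023, 0, 0, 0, 0, 0, 0, ⟨0, 0⟩, 0⟩ 0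 0)) (.pos 97 .pm ⟨0, 0, 81075771, 0, 0, 0, 0, 0, 0, ⟨0, 0⟩, 0⟩ 0 0)) (.pos 93 .pm ⟨0, 0, 120296505, 0, 0, 0, 0, 0, 0, ⟨0, 0⟩, 0⟩ 0 0)) (.pos 64 .pm ⟨0, 0, 193289586, 0, 0, 0, 0, 0, 0, ⟨0, 0⟩, 0⟩ 0 0)) (.pos 5 .pm ⟨0, 0, 382537039, 0, 0, 0, 0, 0, 0, ⟨0, 0⟩, 0⟩ 0 0)) (.cut .v 12582912 (.pos 6 .pm ⟨0, 0, 109688368, 0, 0, 0, 0, 0, 0, ⟨0, 0⟩, 0⟩ 0 0) (.pos 7 .pm ⟨0, 0, 0, 0, 0, 0, 0, 0, 0, ⟨0, 0⟩, 0⟩ 0 0))) (.cut .v 268435456 (.cut .v 67108864 (.cut .d 531367 (.cut .v 33554432 (.cut .v 25165824 (.pos 17 .pp ⟨646692773, 0, 0, 0, 0, 0, 0, 0, 0, ⟨0, 0⟩, 0⟩ 0 0) (.pos 18 .pp ⟨2065182192, 0, 0, 0, 0, 0, 0, 0, 0, ⟨0, 0⟩, 0⟩ 0 0)) (.cut .d 265683 (.cut .v 50331648 (.pos 42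 .pp ⟨5400974173, 0, 0, 0, 0, 0, 0, 0, 0, ⟨0, 0⟩, 0⟩ 0 0) (.pos 43 .pp ⟨11405697165, 0, 0, 0, 0, 0, 0, 0, 0, ⟨0, 0⟩, 0⟩ 0 0)) (.pos 41 .pp ⟨3385604645, 1400204658, 0, 0, 0, 0, 0, 0, 0, ⟨0, 0⟩, 0⟩ 0 0))) (.pos 40 .pp ⟨0, 0, 0, 0, 0, 0, 0, 0, 0, ⟨0, 0⟩, 0⟩ 0 0)) (.void 52 ⟨82082, 0, 0, 17918, 0, 0, 0, 0, 0, ⟨0, 0⟩, 0⟩ 0 0)) (.void 77 ⟨0, 0, 0, 100000, 0, 0, 0, 0, 0, ⟨0, 0⟩, 0⟩ 0 0)))),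
    by decide +kernel⟩

def covers29 : cell.Covers table row29.1 :=
  ⟨(.cut .d 0 (.cut .v 16777216 (.cut .v 8388608 (.void 2 ⟨0, 0, 100000, 0, 0, 0, 0, 0, 0, ⟨0, 0⟩, 0⟩ 0 0) (.cut .d (-8388608) (.void 3 ⟨100000, 0, 0, 0, 0, 0, 0, 0, 0, ⟨0, 0⟩, 0⟩ 0 0) (.cut .d (-4194304) (.void 3 ⟨100000, 0, 0, 0, 0, 0, 0, 0, 0, ⟨0, 0⟩, 0⟩ 0 0) (.cut .d (-2097152) (.void 3 ⟨100000, 0, 0, 0, 0, 0, 0, 0, 0, ⟨0, 0⟩, 0⟩ 0 0) (.cut .d (-1048576) (.void 3 ⟨100000, 0, 0, 0, 0, 0, 0, 0, 0, ⟨0, 0⟩, 0⟩ 0 0) (.cut .d (-524288) (.void 3 ⟨66856, 0, 33144, 0, 0, 0, 0, 0, 0, ⟨0, 0⟩, 0⟩ 0 0) (.cut .d (-262144) (.void 3 ⟨0, 0, 0, 0, 0, 100000, 0, 0, 0, ⟨0, 0⟩, 0⟩ 0 0) (.cut .d (-131072) (.void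 3 ⟨0, 0, 0, 0, 0, 100000, 0, 0, 0, ⟨0, 0⟩, 0⟩ 0 0) (.cut .d (-65536) (.void 3 ⟨0, 0, 0, 0, 0, 100000, 0, 0, 0, ⟨0, 0⟩, 0⟩ 0 0) (.cut .v 12582912 (.cut .v 10485760 (.cut .d (-32768) (.pos 8 .mm ⟨0, 0, 162886281, 0, 0, 3506985884, 0, 0, 0, ⟨0, 0⟩, 0⟩ 0 0) (.cut .d (-16384) (.cut .v 9437184 (.void 57 ⟨0, 0, 100000, 0, 0, 0, 0, 0, 0, ⟨0, 0⟩, 0⟩ 0 0) (.cut .l 1593835 (.pos 58 .mm ⟨0, 0, 158313201, 0, 0, 2266055297, 0, 0, 0, ⟨0, 0⟩, 0⟩ 0 0) (.cut .v 9961472 (.cut .s 16056320 (.cut .d (-24576) (.pos 59 .mm ⟨0, 0, 195922557, 0, 0, 1961341839, 0, 0, 0, ⟨0, 0⟩, 0⟩ 0 0) (.pos 59 .mm ⟨0, 0, 184189886, 0, 0, 1831424216, 0, 0, 0, ⟨0, 0⟩, 0⟩ 0 0)) (.cut .v 9699328 (.cut .s 16097280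 (.cut .s 16076800 (.pos 73 .mm ⟨0, 0, 241772291, 0, 0, 1965391149, 0, 0, 0, ⟨0, 0⟩, 0⟩ 0 0) (.pos 73 .mm ⟨0, 0, 254169107, 0, 0, 2037608649, 0, 0, 0, ⟨0, 0⟩, 0⟩ 0 0)) (.cut .d (-24576) (.pos 73 .mm ⟨0, 0, 238916689, 0, 0, 2214890775, 0, 0, 0, ⟨0, 0⟩, 0⟩ 0 0) (.pos 73 .mm ⟨0, 0, 267746638, 0, 0, 2114489950, 0, 0, 0, ⟨0, 0⟩, 0⟩ 0 0))) (.pos 74 .mm ⟨0, 0, 0, 0, 0, 2258179797, 0, 0, 0, ⟨0, 0⟩, 0⟩ 0 0))) (.pos 60 .mm ⟨0, 0, 0, 0, 0, 2217065673, 0, 0, 0, ⟨0, 0⟩, 0⟩ 0 0)))) (.cut .l 1593835 (.cut .s 16056320 (.cut .v 9437184 (.cut .d (-8192) (.pos 57 .mm ⟨0, 0, 220202071, 0, 0, 1789239351, 0, 0, 0, ⟨0, 0⟩, 0⟩ 0 0) (.pos 57 .mm ⟨0, 0, 209448246, 0, 0, 1602905815, 0, 0,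 0, ⟨0, 0⟩, 0⟩ 0 0)) (.pos 58 .mm ⟨0, 0, 0, 0, 0, 1863877098, 0, 0, 0, ⟨0, 0⟩, 0⟩ 0 0)) (.cut .v 9437184 (.cut .d (-8192) (.cut .s 16097280 (.pos 57 .mm ⟨0, 0, 343801076, 0, 0, 1899698916, 0, 0, 0, ⟨0, 0⟩, 0⟩ 0 0) (.pos 57 .mm ⟨0, 0, 375120225, 0, 0, 2061818146, 0, 0, 0, ⟨0, 0⟩, 0⟩ 0 0)) (.pos 57 .mm ⟨0, 0, 264687591, 0, 0, 1891853193, 0, 0, 0, ⟨0, 0⟩, 0⟩ 0 0)) (.cut .s 16097280 (.pos 58 .mm ⟨0, 0, 50428668, 0, 0, 2023500682, 0, 0, 0, ⟨0, 0⟩, 0⟩ 0 0) (.cut .s 16117760 (.pos 58 .mm ⟨0, 0, 117467738, 0, 0, 2116907796, 0, 0, 0, ⟨0, 0⟩, 0⟩ 0 0) (.pos 58 .mm ⟨0, 0, 220838376, 0, 0, 2153673998, 0, 0, 0, ⟨0, 0⟩, 0⟩ 0 0))))) (.cut .v 9437184 (.pos 57 .mm ⟨0, 0, 1803318927,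 0, 0, 0, 0, 0, 0, ⟨0, 0⟩, 0⟩ 0 0) (.pos 58 .mm ⟨0, 0, 185274801, 0, 0, 1695756879, 0, 0, 0, ⟨0, 0⟩, 0⟩ 0 0))))) (.pos 9 .mm ⟨0, 0, 0, 0, 0, 2481707830, 0, 0, 0, ⟨0, 0⟩, 0⟩ 0 0)) (.pos 7 .mm ⟨0, 0, 0, 0, 0, 3313052798, 0, 0, 0, ⟨0, 0⟩, 0⟩ 0 0))))))))))) (.cut .v 268435456 (.cut .v 67108864 (.cut .v 33554432 (.cut .d (-8388608) (.void 16 ⟨100000, 0, 0, 0, 0, 0, 0, 0, 0, ⟨0, 0⟩, 0⟩ 0 0) (.cut .d (-4194304) (.void 16 ⟨100000, 0, 0, 0, 0, 0, 0, 0, 0, ⟨0, 0⟩, 0⟩ 0 0) (.cut .d (-2097152) (.void 16 ⟨100000, 0, 0, 0, 0, 0, 0, 0, 0, ⟨0, 0⟩, 0⟩ 0 0) (.cut .v 25165824 (.cut .d (-1048576) (.void 17 ⟨100000, 0, 0, 0, 0, 0, 0, 0, 0, ⟨0, 0⟩, 0⟩ 0 0) (.cut .v 20971520 (.cut .d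 (-524288) (.void 19 ⟨100000, 0, 0, 0, 0, 0, 0, 0, 0, ⟨0, 0⟩, 0⟩ 0 0) (.cut .d (-262144) (.void 19 ⟨100000, 0, 0, 0, 0, 0, 0, 0, 0, ⟨0, 0⟩, 0⟩ 0 0) (.cut .d (-131072) (.void 19 ⟨100000, 0, 0, 0, 0, 0, 0, 0, 0, ⟨0, 0⟩, 0⟩ 0 0) (.pos 19 .mp ⟨2105387691, 0, 0, 0, 0, 358089247, 0, 0, 0, ⟨0, 0⟩, 0⟩ 0 0)))) (.void 20 ⟨100000, 0, 0, 0, 0, 0, 0, 0, 0, ⟨0, 0⟩, 0⟩ 0 0))) (.void 18 ⟨100000, 0, 0, 0, 0, 0, 0, 0, 0, ⟨0, 0⟩, 0⟩ 0 0))))) (.void 41 ⟨100000, 0, 0, 0, 0, 0, 0, 0, 0, ⟨0, 0⟩, 0⟩ 0 0)) (.void 52 ⟨100000, 0, 0, 0, 0, 0, 0, 0, 0, ⟨0, 0⟩, 0⟩ 0 0)) (.void 77 ⟨90344, 0, 0, 9656, 0, 0, 0, 0, 0, ⟨0, 0⟩, 0⟩ 0 0))) (.cut .v 16777216 (.cut .v 8388608 (.cut .v 4194304 (.cut .v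 2097152 (.cut .v 1048576 (.cut .v 524288 (.cut .v 262144 (.pos 100 .pm ⟨0, 0, 44218798, 0, 0, 0, 0, 0, 0, ⟨0, 0⟩, 0⟩ 0 0) (.pos 101 .pm ⟨0, 0, 79262971, 0, 0, 0, 0, 0, 0, ⟨0, 0⟩, 0⟩ 0 0)) (.pos 97 .pm ⟨0, 0, 120545432, 0, 0, 0, 0, 0, 0, ⟨0, 0⟩, 0⟩ 0 0)) (.pos 93 .pm ⟨0, 0, 192174374, 0, 0, 0, 0, 0, 0, ⟨0, 0⟩, 0⟩ 0 0)) (.pos 64 .pm ⟨0, 0, 317579612, 0, 0, 0, 0, 0, 0, ⟨0, 0⟩, 0⟩ 0 0)) (.pos 5 .pm ⟨0, 0, 635851118, 0, 0, 0, 0, 0, 0, ⟨0, 0⟩, 0⟩ 0 0)) (.cut .v 12582912 (.pos 6 .pm ⟨0, 0, 186195556, 0, 0, 0, 0, 0, 0, ⟨0, 0⟩, 0⟩ 0 0) (.pos 7 .pm ⟨0, 0, 0, 0, 0, 0, 0, 0, 0, ⟨0, 0⟩, 0⟩ 0 0))) (.cut .v 268435456 (.cut .v 67108864 (.cut .d 421582 (.cut .v 33554432 (.pos 16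 .pp ⟨1514337333, 0, 0, 0, 0, 0, 0, 0, 0, ⟨0, 0⟩, 0⟩ 0 0) (.cut .d 210791 (.cut .v 50331648 (.pos 42 .pp ⟨6793555196, 0, 0, 0, 0, 0, 0, 0, 0, ⟨0, 0⟩, 0⟩ 0 0) (.pos 43 .pp ⟨14368824156, 260475911, 0, 0, 0, 0, 0, 0, 0, ⟨0, 0⟩, 0⟩ 0 0)) (.pos 41 .pp ⟨4479966261, 1999966439, 0, 0, 0, 0, 0, 0, 0, ⟨0, 0⟩, 0⟩ 0 0))) (.pos 40 .pp ⟨0, 0, 0, 0, 0, 0, 0, 0, 0, ⟨0, 0⟩, 0⟩ 0 0)) (.void 52 ⟨82026, 0, 0, 17974, 0, 0, 0, 0, 0, ⟨0, 0⟩, 0⟩ 0 0)) (.void 77 ⟨0, 0, 0, 100000, 0, 0, 0, 0, 0, ⟨0, 0⟩, 0⟩ 0 0)))),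
    by decide +kernel⟩

def covers30 : cell.Covers table row30.1 :=
  ⟨(.cut .d 0 (.cut .v 16777216 (.cut .v 8388608 (.void 2 ⟨0, 0, 100000, 0, 0, 0, 0, 0, 0, ⟨0, 0⟩, 0⟩ 0 0) (.cut .d (-8388608) (.void 3 ⟨100000, 0, 0, 0, 0, 0, 0, 0, 0, ⟨0, 0⟩, 0⟩ 0 0) (.cut .d (-4194304) (.void 3 ⟨100000, 0, 0, 0, 0, 0, 0, 0, 0, ⟨0, 0⟩, 0⟩ 0 0) (.cut .d (-2097152) (.void 3 ⟨100000, 0, 0, 0, 0, 0, 0, 0, 0, ⟨0, 0⟩, 0⟩ 0 0) (.cut .d (-1048576) (.void 3 ⟨100000, 0, 0, 0, 0, 0, 0, 0, 0, ⟨0, 0⟩, 0⟩ 0 0) (.cut .d (-524288) (.void 3 ⟨100000, 0, 0, 0, 0, 0, 0, 0, 0, ⟨0, 0⟩, 0⟩ 0 0) (.cut .d (-262144) (.void 3 ⟨0, 0, 0, 0, 0, 100000, 0, 0, 0, ⟨0, 0⟩, 0⟩ 0 0) (.cut .d (-131072) (.void 3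 ⟨0, 0, 0, 0, 0, 100000, 0, 0, 0, ⟨0, 0⟩, 0⟩ 0 0) (.cut .d (-65536) (.void 3 ⟨0, 0, 0, 0, 0, 100000, 0, 0, 0, ⟨0, 0⟩, 0⟩ 0 0) (.cut .d (-32768) (.void 3 ⟨0, 0, 0, 0, 0, 100000, 0, 0, 0, ⟨0, 0⟩, 0⟩ 0 0) (.cut .v 12582912 (.cut .v 10485760 (.cut .d (-16384) (.cut .l 1593835 (.void 8 ⟨0, 0, 0, 0, 0, 100000, 0, 0, 0, ⟨0, 0⟩, 0⟩ 0 0) (.cut .v 9437184 (.void 57 ⟨0, 0, 100000, 0, 0, 0, 0, 0, 0, ⟨0, 0⟩, 0⟩ 0 0) (.cut .d (-24576) (.pos 58 .mm ⟨0, 0, 261028296, 0, 0, 3244504378, 0, 0, 0, ⟨0, 0⟩, 0⟩ 0 0) (.cut .v 9961472 (.cut .s 16203776 (.cut .d (-20480) (.pos 59 .mm ⟨0, 0, 289748731, 0, 0, 2526626079, 0, 0, 0, ⟨0, 0⟩, 0⟩ 0 0) (.pos 59 .mm ⟨0, 0, 291111617, 0, 0, 2408730868,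 0, 0, 0, ⟨0, 0⟩, 0⟩ 0 0)) (.cut .l 2160066 (.pos 59 .mm ⟨0, 0, 333151787, 0, 0, 2880111535, 0, 0, 0, ⟨0, 0⟩, 0⟩ 0 0) (.pos 59 .mm ⟨0, 0, 351003379, 0, 0, 2666430838, 0, 0, 0, ⟨0, 0⟩, 0⟩ 0 0))) (.pos 60 .mm ⟨0, 0, 0, 0, 0, 2892252842, 0, 0, 0, ⟨0, 0⟩, 0⟩ 0 0))))) (.cut .l 1593835 (.cut .s 16203776 (.cut .v 9437184 (.cut .d (-8192) (.pos 57 .mm ⟨0, 0, 1009662114, 0, 0, 2233543211, 0, 0, 0, ⟨0, 0⟩, 0⟩ 0 0) (.pos 57 .mm ⟨0, 0, 334211210, 0, 0, 2224526096, 0, 0, 0, ⟨0, 0⟩, 0⟩ 0 0)) (.cut .d (-8192) (.pos 58 .mm ⟨0, 0, 268023406, 0, 0, 2431035511, 0, 0, 0, ⟨0, 0⟩, 0⟩ 0 0) (.pos 58 .mm ⟨0, 0, 42809121, 0, 0, 2375396258, 0, 0, 0, ⟨0, 0⟩, 0⟩ 0 0))) (.cut .v 9437184 (.cut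 .s 16236544 (.pos 57 .mm ⟨0, 0, 475261671, 0, 0, 2508336423, 0, 0, 0, ⟨0, 0⟩, 0⟩ 0 0) (.pos 57 .mm ⟨0, 0, 487347430, 0, 0, 2765114769, 0, 0, 0, ⟨0, 0⟩, 0⟩ 0 0)) (.cut .v 9961472 (.cut .v 9699328 (.cut .v 9568256 (.cut .s 16236544 (.cut .s 16220160 (.pos 104 .mm ⟨0, 0, 286362131, 0, 0, 2572546119, 0, 0, 0, ⟨0, 0⟩, 0⟩ 0 0) (.pos 104 .mm ⟨0, 0, 300831472, 0, 0, 2684862153, 0, 0, 0, ⟨0, 0⟩, 0⟩ 0 0)) (.cut .s 16252928 (.pos 104 .mm ⟨0, 0, 316247635, 0, 0, 2809665906, 0, 0, 0, ⟨0, 0⟩, 0⟩ 0 0) (.pos 104 .mm ⟨0, 0, 332702219, 0, 0, 2947288395, 0, 0, 0, ⟨0, 0⟩, 0⟩ 0 0))) (.pos 105 .mm ⟨0, 0, 0, 0, 0, 2984461050, 0, 0, 0, ⟨0, 0⟩, 0⟩ 0 0)) (.pos 74 .mm ⟨0, 0, 0, 0, 0, 3016868613,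 0, 0, 0, ⟨0, 0⟩, 0⟩ 0 0)) (.pos 60 .mm ⟨0, 0, 0, 0, 0, 3081697289, 0, 0, 0, ⟨0, 0⟩, 0⟩ 0 0)))) (.cut .v 9437184 (.pos 57 .mm ⟨0, 0, 2608962265, 0, 0, 0, 0, 0, 0, ⟨0, 0⟩, 0⟩ 0 0) (.cut .s 16203776 (.pos 58 .mm ⟨0, 0, 279850089, 0, 0, 2243052464, 0, 0, 0, ⟨0, 0⟩, 0⟩ 0 0) (.pos 58 .mm ⟨0, 0, 324203316, 0, 0, 2533205224, 0, 0, 0, ⟨0, 0⟩, 0⟩ 0 0))))) (.pos 9 .mm ⟨0, 0, 0, 0, 0, 3094893096, 0, 0, 0, ⟨0, 0⟩, 0⟩ 0 0)) (.pos 7 .mm ⟨0, 0, 0, 0, 0, 3609431071, 0, 0, 0, ⟨0, 0⟩, 0⟩ 0 0)))))))))))) (.cut .v 268435456 (.cut .v 67108864 (.cut .v 33554432 (.cut .d (-8388608) (.void 16 ⟨100000, 0, 0, 0, 0, 0, 0, 0, 0, ⟨0, 0⟩, 0⟩ 0 0) (.cut .d (-4194304) (.void 16 ⟨100000, 0, 0,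 0, 0, 0, 0, 0, 0, ⟨0, 0⟩, 0⟩ 0 0) (.cut .d (-2097152) (.void 16 ⟨100000, 0, 0, 0, 0, 0, 0, 0, 0, ⟨0, 0⟩, 0⟩ 0 0) (.cut .v 25165824 (.cut .d (-1048576) (.void 17 ⟨100000, 0, 0, 0, 0, 0, 0, 0, 0, ⟨0, 0⟩, 0⟩ 0 0) (.cut .v 20971520 (.cut .d (-524288) (.void 19 ⟨100000, 0, 0, 0, 0, 0, 0, 0, 0, ⟨0, 0⟩, 0⟩ 0 0) (.cut .d (-262144) (.void 19 ⟨100000, 0, 0, 0, 0, 0, 0, 0, 0, ⟨0, 0⟩, 0⟩ 0 0) (.cut .d (-131072) (.void 19 ⟨100000, 0, 0, 0, 0, 0, 0, 0, 0, ⟨0, 0⟩, 0⟩ 0 0) (.pos 19 .mp ⟨3134936148, 0, 0, 0, 0, 0, 0, 0, 0, ⟨0, 0⟩, 0⟩ 0 0)))) (.void 20 ⟨100000, 0, 0, 0, 0, 0, 0, 0, 0, ⟨0, 0⟩, 0⟩ 0 0))) (.void 18 ⟨100000, 0, 0, 0, 0, 0, 0, 0, 0, ⟨0, 0⟩, 0⟩ 0 0))))) (.void 41 ⟨100000,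 0, 0, 0, 0, 0, 0, 0, 0, ⟨0, 0⟩, 0⟩ 0 0)) (.void 52 ⟨100000, 0, 0, 0, 0, 0, 0, 0, 0, ⟨0, 0⟩, 0⟩ 0 0)) (.void 77 ⟨90273, 0, 0, 9727, 0, 0, 0, 0, 0, ⟨0, 0⟩, 0⟩ 0 0))) (.cut .v 16777216 (.cut .v 8388608 (.cut .v 4194304 (.cut .v 2097152 (.cut .v 1048576 (.cut .v 524288 (.cut .v 262144 (.cut .v 131072 (.pos 108 .pm ⟨0, 0, 41420324, 0, 0, 0, 0, 0, 0, ⟨0, 0⟩, 0⟩ 0 0) (.pos 109 .pm ⟨0, 0, 72747090, 0, 0, 0, 0, 0, 0, ⟨0, 0⟩, 0⟩ 0 0)) (.pos 101 .pm ⟨0, 0, 111736445, 0, 0, 0, 0, 0, 0, ⟨0, 0⟩, 0⟩ 0 0)) (.pos 97 .pm ⟨0, 0, 179848116, 0, 0, 0, 0, 0, 0, ⟨0, 0⟩, 0⟩ 0 0)) (.pos 93 .pm ⟨0, 0, 298144117, 0, 0, 0, 0, 0, 0, ⟨0, 0⟩, 0⟩ 0 0)) (.pos 64 .pm ⟨0, 0, 508661729, 0, 0, 0, 0,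 0, 0, ⟨0, 0⟩, 0⟩ 0 0)) (.pos 5 .pm ⟨0, 0, 1026929936, 0, 0, 0, 0, 0, 0, ⟨0, 0⟩, 0⟩ 0 0)) (.cut .v 12582912 (.pos 6 .pm ⟨0, 0, 300154939, 0, 0, 0, 0, 0, 0, ⟨0, 0⟩, 0⟩ 0 0) (.pos 7 .pm ⟨0, 0, 0, 0, 0, 0, 0, 0, 0, ⟨0, 0⟩, 0⟩ 0 0))) (.cut .v 268435456 (.cut .v 67108864 (.cut .v 33554432 (.pos 16 .pp ⟨1659814568, 0, 0, 0, 0, 0, 0, 0, 0, ⟨0, 0⟩, 0⟩ 0 0) (.cut .d 332139 (.cut .d 166069 (.cut .v 50331648 (.pos 42 .pp ⟨8706338532, 0, 0, 0, 0, 0, 0, 0, 0, ⟨0, 0⟩, 0⟩ 0 0) (.pos 43 .pp ⟨18626551545, 1894715906, 0, 0, 0, 0, 0, 0, 0, ⟨0, 0⟩, 0⟩ 0 0)) (.pos 41 .pp ⟨6050576402, 2893610428, 0, 0, 0, 0, 0, 0, 0, ⟨0, 0⟩, 0⟩ 0 0)) (.pos 41 .pp ⟨0, 0, 0, 0, 0, 0, 0, 0, 0, ⟨0, 0⟩, 0⟩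 0 0))) (.void 52 ⟨81983, 0, 0, 18017, 0, 0, 0, 0, 0, ⟨0, 0⟩, 0⟩ 0 0)) (.void 77 ⟨0, 0, 0, 100000, 0, 0, 0, 0, 0, ⟨0, 0⟩, 0⟩ 0 0)))),
    by decide +kernel⟩

def covers31 : cell.Covers table row31.1 :=
  ⟨(.cut .d 0 (.cut .v 16777216 (.cut .v 8388608 (.void 2 ⟨0, 0, 100000, 0, 0, 0, 0, 0, 0, ⟨0, 0⟩, 0⟩ 0 0) (.cut .d (-8388608) (.void 3 ⟨100000, 0, 0, 0, 0, 0, 0, 0, 0, ⟨0, 0⟩, 0⟩ 0 0) (.cut .d (-4194304) (.void 3 ⟨100000, 0, 0, 0, 0, 0, 0, 0, 0, ⟨0, 0⟩, 0⟩ 0 0) (.cut .d (-2097152) (.void 3 ⟨100000, 0, 0, 0, 0, 0, 0, 0, 0, ⟨0, 0⟩, 0⟩ 0 0) (.cut .d (-1048576) (.void 3 ⟨100000, 0, 0, 0, 0, 0, 0, 0, 0, ⟨0, 0⟩, 0⟩ 0 0) (.cut .d (-524288) (.void 3 ⟨100000, 0, 0, 0, 0,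 0, 0, 0, 0, ⟨0, 0⟩, 0⟩ 0 0) (.cut .v 12582912 (.cut .d (-262144) (.void 6 ⟨62010, 0, 37990, 0, 0, 0, 0, 0, 0, ⟨0, 0⟩, 0⟩ 0 0) (.cut .d (-131072) (.pos 6 .mm ⟨694403970, 0, 0, 0, 0, 167077756030, 0, 0, 0, ⟨0, 0⟩, 0⟩ 0 0) (.cut .v 10485760 (.cut .d (-65536) (.void 8 ⟨0, 0, 0, 0, 0, 100000, 0, 0, 0, ⟨0, 0⟩, 0⟩ 0 0) (.cut .v 9437184 (.pos 57 .mm ⟨0, 0, 486348057, 0, 0, 2917858875, 0, 0, 0, ⟨0, 0⟩, 0⟩ 0 0) (.cut .d (-32768) (.void 58 ⟨0, 0, 0, 0, 0, 100000, 0, 0, 0, ⟨0, 0⟩, 0⟩ 0 0) (.pos 58 .mm ⟨0, 0, 216874206, 0, 0, 3132796876, 0, 0, 0, ⟨0, 0⟩, 0⟩ 0 0)))) (.pos 9 .mm ⟨0, 0, 0, 0, 0, 4348480331, 0, 0, 0, ⟨0, 0⟩, 0⟩ 0 0)))) (.pos 7 .mm ⟨0, 0, 0, 0, 0, 7655020733, 0,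 0, 0, ⟨0, 0⟩, 0⟩ 0 0)))))))) (.cut .v 268435456 (.cut .v 67108864 (.cut .v 33554432 (.cut .d (-8388608) (.void 16 ⟨100000, 0, 0, 0, 0, 0, 0, 0, 0, ⟨0, 0⟩, 0⟩ 0 0) (.cut .d (-4194304) (.void 16 ⟨100000, 0, 0, 0, 0, 0, 0, 0, 0, ⟨0, 0⟩, 0⟩ 0 0) (.cut .d (-2097152) (.void 16 ⟨100000, 0, 0, 0, 0, 0, 0, 0, 0, ⟨0, 0⟩, 0⟩ 0 0) (.cut .v 25165824 (.cut .d (-1048576) (.void 17 ⟨100000, 0, 0, 0, 0, 0, 0, 0, 0, ⟨0, 0⟩, 0⟩ 0 0) (.cut .d (-524288) (.void 17 ⟨100000, 0, 0, 0, 0, 0, 0, 0, 0, ⟨0, 0⟩, 0⟩ 0 0) (.cut .v 20971520 (.pos 19 .mp ⟨0, 0, 0, 0, 0, 9991390586, 0, 0, 0, ⟨0, 0⟩, 0⟩ 0 0) (.void 20 ⟨100000, 0, 0, 0, 0, 0, 0, 0, 0, ⟨0, 0⟩, 0⟩ 0 0)))) (.void 18 ⟨100000, 0, 0, 0,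 0, 0, 0, 0, 0, ⟨0, 0⟩, 0⟩ 0 0))))) (.void 41 ⟨100000, 0, 0, 0, 0, 0, 0, 0, 0, ⟨0, 0⟩, 0⟩ 0 0)) (.void 52 ⟨100000, 0, 0, 0, 0, 0, 0, 0, 0, ⟨0, 0⟩, 0⟩ 0 0)) (.void 77 ⟨90220, 0, 0, 9780, 0, 0, 0, 0, 0, ⟨0, 0⟩, 0⟩ 0 0))) (.cut .v 16777216 (.cut .v 8388608 (.cut .v 4194304 (.cut .v 2097152 (.cut .v 1048576 (.cut .v 524288 (.cut .v 262144 (.pos 100 .pm ⟨0, 0, 64383465, 0, 0, 0, 0, 0, 0, ⟨0, 0⟩, 0⟩ 0 0) (.pos 101 .pm ⟨0, 0, 127978316, 0, 0, 0, 0, 0, 0, ⟨0, 0⟩, 0⟩ 0 0)) (.pos 97 .pm ⟨0, 0, 207974247, 0, 0, 0, 0, 0, 0, ⟨0, 0⟩, 0⟩ 0 0)) (.pos 93 .pm ⟨0, 0, 351231250, 0, 0, 0, 0, 0, 0, ⟨0, 0⟩, 0⟩ 0 0)) (.pos 64 .pm ⟨0, 0, 643073030, 0, 0, 0, 0, 0, 0, ⟨0, 0⟩, 0⟩ 0 0)) (.pos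 5 .pm ⟨0, 0, 1540616165, 0, 0, 0, 0, 0, 0, ⟨0, 0⟩, 0⟩ 0 0)) (.pos 3 .pm ⟨0, 0, 340664447, 0, 0, 0, 0, 0, 0, ⟨0, 0⟩, 0⟩ 0 0)) (.cut .v 268435456 (.cut .v 67108864 (.cut .v 33554432 (.pos 16 .pp ⟨1967459044, 0, 0, 0, 0, 0, 0, 0, 0, ⟨0, 0⟩, 0⟩ 0 0) (.cut .d 261881 (.cut .v 50331648 (.pos 42 .pp ⟨8323301905, 0, 0, 0, 0, 0, 0, 0, 0, ⟨0, 0⟩, 0⟩ 0 0) (.pos 43 .pp ⟨20151772402, 17299474137, 0, 0, 0, 0, 0, 0, 0, ⟨0, 0⟩, 0⟩ 0 0)) (.pos 41 .pp ⟨0, 0, 0, 0, 0, 0, 0, 0, 0, ⟨0, 0⟩, 0⟩ 0 0))) (.void 52 ⟨81955, 0, 0, 18045, 0, 0, 0, 0, 0, ⟨0, 0⟩, 0⟩ 0 0)) (.void 77 ⟨0, 0, 0, 100000, 0, 0, 0, 0, 0, ⟨0, 0⟩, 0⟩ 0 0)))),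
    by decide +kernel⟩

def covers32 : cell.Covers table row32.1 :=
  ⟨(.cut .d 0 (.cut .v 16777216 (.cut .v 8388608 (.pos 2 .mm ⟨0, 0, 167772160000, 0, 0, 0, 0, 0, 0, ⟨0, 0⟩, 0⟩ 0 0) (.cut .d (-8388608) (.void 3 ⟨100000, 0, 0, 0, 0, 0, 0, 0, 0, ⟨0, 0⟩, 0⟩ 0 0) (.pos 3 .mm ⟨0, 0, 3040727141, 0, 0, 51396052407, 0, 0, 0, ⟨0, 0⟩, 0⟩ 0 0))) (.cut .v 268435456 (.cut .v 67108864 (.cut .d (-8388608) (.void 40 ⟨100000, 0, 0, 0, 0, 0, 0, 0, 0, ⟨0, 0⟩, 0⟩ 0 0) (.cut .v 33554432 (.pos 16 .mp ⟨0, 0, 0, 0, 0, 110784917411, 0, 0, 0, ⟨0, 0⟩, 0⟩ 0 0) (.void 41 ⟨100000, 0, 0, 0, 0, 0, 0, 0, 0, ⟨0, 0⟩, 0⟩ 0 0))) (.void 52 ⟨100000, 0, 0, 0, 0, 0, 0, 0, 0, ⟨0, 0⟩, 0⟩ 0 0)) (.void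 77 ⟨90176, 0, 0, 9824, 0, 0, 0, 0, 0, ⟨0, 0⟩, 0⟩ 0 0))) (.cut .v 16777216 (.cut .v 8388608 (.cut .v 4194304 (.cut .v 2097152 (.cut .v 1048576 (.cut .v 524288 (.cut .v 262144 (.cut .v 131072 (.pos 108 .pm ⟨0, 0, 56978807, 0, 0, 0, 0, 0, 0, ⟨0, 0⟩, 0⟩ 0 0) (.pos 109 .pm ⟨0, 0, 105588113, 0, 0, 0, 0, 0, 0, ⟨0, 0⟩, 0⟩ 0 0)) (.pos 101 .pm ⟨0, 0, 165383555, 0, 0, 0, 0, 0, 0, ⟨0, 0⟩, 0⟩ 0 0)) (.pos 97 .pm ⟨0, 0, 269846569, 0, 0, 0, 0, 0, 0, ⟨0, 0⟩, 0⟩ 0 0)) (.pos 93 .pm ⟨0, 0, 477133503, 0, 0, 0, 0, 0, 0, ⟨0, 0⟩, 0⟩ 0 0)) (.pos 64 .pm ⟨0, 0, 881470573, 0, 0, 0, 0, 0, 0, ⟨0, 0⟩, 0⟩ 0 0)) (.pos 5 .pm ⟨0, 0, 1633780354, 0, 0, 0, 0, 0, 0, ⟨0, 0⟩, 0⟩ 0 0)) (.pos 3 .pm ⟨0,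 0, 2170119674, 0, 0, 0, 0, 0, 0, ⟨0, 0⟩, 0⟩ 0 0)) (.cut .v 268435456 (.cut .v 67108864 (.pos 40 .pp ⟨4276578095, 0, 0, 0, 0, 0, 0, 0, 0, ⟨0, 0⟩, 0⟩ 0 0) (.void 52 ⟨81926, 0, 0, 18074, 0, 0, 0, 0, 0, ⟨0, 0⟩, 0⟩ 0 0)) (.void 77 ⟨0, 0, 0, 100000, 0, 0, 0, 0, 0, ⟨0, 0⟩, 0⟩ 0 0)))),
    by decide +kernel⟩

def covers33 : cell.Covers table row33.1 :=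
  ⟨(.cut .d 0 (.cut .v 16777216 (.cut .v 8388608 (.void 2 ⟨0, 0, 100000, 0, 0, 0, 0, 0, 0, ⟨0, 0⟩, 0⟩ 0 0) (.cut .d (-8388608) (.void 3 ⟨100000, 0, 0, 0, 0, 0, 0, 0, 0, ⟨0, 0⟩, 0⟩ 0 0) (.pos 3 .mm ⟨0, 0, 4329452496, 0, 0, 67400375570, 0, 0, 0, ⟨0, 0⟩, 0⟩ 0 0))) (.cut .v 4294967296 (.cut .v 268435456 (.cut .v 67108864 (.cut .d (-8388608) (.void 40 ⟨100000, 0, 0, 0, 0, 0, 0, 0, 0, ⟨0, 0⟩, 0⟩ 0 0) (.cut .v 33554432 (.pos 16 .mp ⟨0, 0, 0, 0, 0, 145405987576, 0, 0, 0, ⟨0, 0⟩, 0⟩ 0 0) (.void 41 ⟨100000, 0, 0, 0, 0, 0, 0, 0, 0, ⟨0, 0⟩, 0⟩ 0 0))) (.void 52 ⟨100000, 0, 0, 0, 0, 0, 0, 0, 0, ⟨0, 0⟩, 0⟩ 0 0)) (.void 77 ⟨90141, 0, 0, 9859, 0, 0, 0, 0, 0, ⟨0, 0⟩, 0⟩ 0 0)) (.void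 112 ⟨90141, 0, 0, 9859, 0, 0, 0, 0, 0, ⟨0, 0⟩, 0⟩ 0 0))) (.cut .v 16777216 (.cut .v 8388608 (.cut .v 4194304 (.cut .v 2097152 (.cut .v 1048576 (.cut .v 524288 (.cut .v 262144 (.cut .v 131072 (.pos 108 .pm ⟨0, 0, 72294647, 0, 0, 0, 0, 0, 0, ⟨0, 0⟩, 0⟩ 0 0) (.pos 109 .pm ⟨0, 0, 144826594, 0, 0, 0, 0, 0, 0, ⟨0, 0⟩, 0⟩ 0 0)) (.pos 101 .pm ⟨0, 0, 231625271, 0, 0, 0, 0, 0, 0, ⟨0, 0⟩, 0⟩ 0 0)) (.pos 97 .pm ⟨0, 0, 389674470, 0, 0, 0, 0, 0, 0, ⟨0, 0⟩, 0⟩ 0 0)) (.pos 93 .pm ⟨0, 0, 696428376, 0, 0, 0, 0, 0, 0, ⟨0, 0⟩, 0⟩ 0 0)) (.pos 64 .pm ⟨0, 0, 1300223973, 0, 0, 0, 0, 0, 0, ⟨0, 0⟩, 0⟩ 0 0)) (.pos 5 .pm ⟨0, 0, 2414467289, 0, 0, 0, 0, 0, 0, ⟨0, 0⟩, 0⟩ 0 0)) (.pos 3 .pm ⟨0,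 0, 3047686346, 0, 0, 0, 0, 0, 0, ⟨0, 0⟩, 0⟩ 0 0)) (.cut .v 4294967296 (.cut .v 268435456 (.cut .v 67108864 (.pos 40 .pp ⟨5813885514, 0, 0, 0, 0, 0, 0, 0, 0, ⟨0, 0⟩, 0⟩ 0 0) (.void 52 ⟨81905, 0, 0, 18095, 0, 0, 0, 0, 0, ⟨0, 0⟩, 0⟩ 0 0)) (.void 77 ⟨0, 0, 0, 100000, 0, 0, 0, 0, 0, ⟨0, 0⟩, 0⟩ 0 0)) (.void 112 ⟨0, 0, 0, 100000, 0, 0, 0, 0, 0, ⟨0, 0⟩, 0⟩ 0 0)))),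
    by decide +kernel⟩

def covers34 : cell.Covers table row34.1 :=
  ⟨(.cut .d 0 (.cut .v 16777216 (.cut .v 8388608 (.pos 2 .mm ⟨0, 0, 167772160000, 0, 0, 0, 0, 0, 0, ⟨0, 0⟩, 0⟩ 0 0) (.cut .d (-8388608) (.void 3 ⟨100139, 0, 0, 0, 0, 0, 0, 0, 0, ⟨0, 0⟩, 0⟩ 0 0) (.pos 3 .mm ⟨0, 0, 5762723012, 0, 0, 86576479584, 0, 0, 0, ⟨0, 0⟩, 0⟩ 0 0))) (.cut .v 4294967296 (.cut .v 268435456 (.cut .v 67108864 (.cut .d (-8388608) (.void 40 ⟨100000, 0, 0, 0, 0, 0, 0, 0, 0, ⟨0, 0⟩, 0⟩ 0 0) (.cut .v 33554432 (.pos 16 .mp ⟨38453665824, 0, 0, 0, 0, 129318494176, 0, 0, 0, ⟨0, 0⟩, 0⟩ 0 0) (.void 41 ⟨100000, 0, 0, 0, 0, 0, 0, 0, 0, ⟨0, 0⟩, 0⟩ 0 0))) (.void 52 ⟨100000, 0, 0, 0, 0, 0, 0,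 0, 0, ⟨0, 0⟩, 0⟩ 0 0)) (.void 77 ⟨90114, 0, 0, 9886, 0, 0, 0, 0, 0, ⟨0, 0⟩, 0⟩ 0 0)) (.void 112 ⟨90114, 0, 0, 9886, 0, 0, 0, 0, 0, ⟨0, 0⟩, 0⟩ 0 0))) (.cut .v 16777216 (.cut .v 8388608 (.cut .v 4194304 (.cut .v 2097152 (.cut .v 1048576 (.cut .v 524288 (.cut .v 262144 (.cut .v 131072 (.cut .v 65536 (.pos 113 .pm ⟨0, 0, 60855738, 0, 0, 0, 0, 0, 0, ⟨0, 0⟩, 0⟩ 0 0) (.pos 114 .pm ⟨0, 0, 119347520, 0, 0, 0, 0, 0, 0, ⟨0, 0⟩, 0⟩ 0 0)) (.pos 109 .pm ⟨0, 0, 196844251, 0, 0, 0, 0, 0, 0, ⟨0, 0⟩, 0⟩ 0 0)) (.pos 101 .pm ⟨0, 0, 320811394, 0, 0, 0, 0, 0, 0, ⟨0, 0⟩, 0⟩ 0 0)) (.pos 97 .pm ⟨0, 0, 550825428, 0, 0, 0, 0, 0, 0, ⟨0, 0⟩, 0⟩ 0 0)) (.pos 93 .pm ⟨0, 0, 996307346, 0, 0, 0,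 0, 0, 0, ⟨0, 0⟩, 0⟩ 0 0)) (.pos 64 .pm ⟨0, 0, 1880535785, 0, 0, 0, 0, 0, 0, ⟨0, 0⟩, 0⟩ 0 0)) (.pos 5 .pm ⟨0, 0, 3515574186, 0, 0, 0, 0, 0, 0, ⟨0, 0⟩, 0⟩ 0 0)) (.pos 3 .pm ⟨0, 0, 4282719140, 0, 0, 0, 0, 0, 0, ⟨0, 0⟩, 0⟩ 0 0)) (.cut .v 4294967296 (.cut .v 268435456 (.cut .v 67108864 (.pos 40 .pp ⟨8058688200, 0, 0, 0, 0, 0, 0, 0, 0, ⟨0, 0⟩, 0⟩ 0 0) (.void 52 ⟨81891, 0, 0, 18109, 0, 0, 0, 0, 0, ⟨0, 0⟩, 0⟩ 0 0)) (.void 77 ⟨0, 0, 0, 100000, 0, 0, 0, 0, 0, ⟨0, 0⟩, 0⟩ 0 0)) (.void 112 ⟨0, 0, 0, 100000, 0, 0, 0, 0, 0, ⟨0, 0⟩, 0⟩ 0 0)))),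
    by decide +kernel⟩

def covers35 : cell.Covers table row35.1 :=
  ⟨(.cut .d 0 (.cut .v 16777216 (.cut .d (-8388608) (.void 1 ⟨0, 0, 0, 0, 0, 100014, 0, 0, 0, ⟨0, 0⟩, 0⟩ 0 0) (.cut .v 8388608 (.void 2 ⟨0, 0, 100000, 0, 0, 0, 0, 0, 0, ⟨0, 0⟩, 0⟩ 0 0) (.pos 3 .mm ⟨0, 0, 7831824361, 0, 0, 118852990241, 0, 0, 0, ⟨0, 0⟩, 0⟩ 0 0))) (.cut .v 4294967296 (.cut .v 268435456 (.cut .v 67108864 (.cut .d (-8388608) (.void 40 ⟨100000, 0, 0, 0, 0, 0, 0, 0, 0, ⟨0, 0⟩, 0⟩ 0 0) (.cut .v 33554432 (.cut .d (-4194304) (.void 16 ⟨100000, 0, 0, 0, 0, 0, 0, 0, 0, ⟨0, 0⟩, 0⟩ 0 0) (.pos 16 .mp ⟨0, 0, 0, 0, 0, 159449429786, 0, 0, 0, ⟨0, 0⟩, 0⟩ 0 0)) (.void 41 ⟨100000, 0, 0, 0, 0, 0, 0,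 0, 0, ⟨0, 0⟩, 0⟩ 0 0))) (.void 52 ⟨100000, 0, 0, 0, 0, 0, 0, 0, 0, ⟨0, 0⟩, 0⟩ 0 0)) (.void 77 ⟨90088, 0, 0, 9912, 0, 0, 0, 0, 0, ⟨0, 0⟩, 0⟩ 0 0)) (.void 112 ⟨90088, 0, 0, 9912, 0, 0, 0, 0, 0, ⟨0, 0⟩, 0⟩ 0 0))) (.cut .v 16777216 (.cut .v 8388608 (.cut .v 4194304 (.cut .v 2097152 (.cut .v 1048576 (.cut .v 524288 (.cut .v 262144 (.cut .v 131072 (.cut .v 65536 (.pos 113 .pm ⟨0, 0, 79028383, 0, 0, 0, 0, 0, 0, ⟨0, 0⟩, 0⟩ 0 0) (.pos 114 .pm ⟨0, 0, 167673549, 0, 0, 0, 0, 0, 0, ⟨0, 0⟩, 0⟩ 0 0)) (.pos 109 .pm ⟨0, 0, 280175858, 0, 0, 0, 0, 0, 0, ⟨0, 0⟩, 0⟩ 0 0)) (.pos 101 .pm ⟨0, 0, 465023252, 0, 0, 0, 0, 0, 0, ⟨0, 0⟩, 0⟩ 0 0)) (.pos 97 .pm ⟨0, 0, 812069634, 0, 0, 0, 0, 0,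 0, ⟨0, 0⟩, 0⟩ 0 0)) (.pos 93 .pm ⟨0, 0, 1471074884, 0, 0, 0, 0, 0, 0, ⟨0, 0⟩, 0⟩ 0 0)) (.pos 64 .pm ⟨0, 0, 2752515416, 0, 0, 0, 0, 0, 0, ⟨0, 0⟩, 0⟩ 0 0)) (.pos 5 .pm ⟨0, 0, 5051753248, 0, 0, 0, 0, 0, 0, ⟨0, 0⟩, 0⟩ 0 0)) (.pos 3 .pm ⟨0, 0, 5873178155, 0, 0, 0, 0, 0, 0, ⟨0, 0⟩, 0⟩ 0 0)) (.cut .v 4294967296 (.cut .v 268435456 (.cut .v 67108864 (.pos 40 .pp ⟨11169118183, 0, 0, 0, 0, 0, 0, 0, 0, ⟨0, 0⟩, 0⟩ 0 0) (.void 52 ⟨81869, 0, 0, 18131, 0, 0, 0, 0, 0, ⟨0, 0⟩, 0⟩ 0 0)) (.void 77 ⟨0, 0, 0, 100000, 0, 0, 0, 0, 0, ⟨0, 0⟩, 0⟩ 0 0)) (.void 112 ⟨0, 0, 0, 100000, 0, 0, 0, 0, 0, ⟨0, 0⟩, 0⟩ 0 0)))),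
    by decide +kernel⟩

def covers36 : cell.Covers table row36.1 :=
  ⟨(.cut .d 0 (.cut .v 16777216 (.cut .d (-8388608) (.void 1 ⟨0, 0, 0, 0, 0, 100002, 0, 0, 0, ⟨0, 0⟩, 0⟩ 0 0) (.cut .v 8388608 (.void 2 ⟨0, 0, 99075, 0, 0, 0, 0, 0, 0, ⟨0, 0⟩, 0⟩ 0 0) (.pos 3 .mm ⟨0, 0, 10691235189, 0, 0, 154669956393, 0, 0, 0, ⟨0, 0⟩, 0⟩ 0 0))) (.cut .v 4294967296 (.cut .v 268435456 (.cut .v 67108864 (.cut .d (-8388608) (.void 40 ⟨100000, 0, 0, 0, 0, 0, 0, 0, 0, ⟨0, 0⟩, 0⟩ 0 0) (.cut .d (-4194304) (.void 40 ⟨100000, 0, 0, 0, 0, 0, 0, 0, 0, ⟨0, 0⟩, 0⟩ 0 0) (.cut .d (-2097152) (.void 40 ⟨100000, 0, 0, 0, 0, 0, 0, 0, 0, ⟨0, 0⟩, 0⟩ 0 0) (.pos 40 .mp ⟨156843569808, 0, 0, 0, 0, 10928590192,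 0, 0, 0, ⟨0, 0⟩, 0⟩ 0 0)))) (.void 52 ⟨100000, 0, 0, 0, 0, 0, 0, 0, 0, ⟨0, 0⟩, 0⟩ 0 0)) (.void 77 ⟨90070, 0, 0, 9930, 0, 0, 0, 0, 0, ⟨0, 0⟩, 0⟩ 0 0)) (.void 112 ⟨90070, 0, 0, 9930, 0, 0, 0, 0, 0, ⟨0, 0⟩, 0⟩ 0 0))) (.cut .v 16777216 (.cut .v 8388608 (.cut .v 4194304 (.cut .v 2097152 (.cut .v 1048576 (.cut .v 524288 (.cut .v 262144 (.cut .v 131072 (.cut .v 65536 (.cut .v 32768 (.pos 115 .pm ⟨0, 0, 66220736, 0, 0, 0, 0, 0, 0, ⟨0, 0⟩, 0⟩ 0 0) (.pos 116 .pm ⟨0, 0, 136649172, 0, 0, 0, 0, 0, 0, ⟨0, 0⟩, 0⟩ 0 0)) (.pos 114 .pm ⟨0, 0, 232417710, 0, 0, 0, 0, 0, 0, ⟨0, 0⟩, 0⟩ 0 0)) (.pos 109 .pm ⟨0, 0, 395999154, 0, 0, 0, 0, 0, 0, ⟨0, 0⟩, 0⟩ 0 0)) (.pos 101 .pm ⟨0, 0, 671231334,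 0, 0, 0, 0, 0, 0, ⟨0, 0⟩, 0⟩ 0 0)) (.pos 97 .pm ⟨0, 0, 1180567973, 0, 0, 0, 0, 0, 0, ⟨0, 0⟩, 0⟩ 0 0)) (.pos 93 .pm ⟨0, 0, 2173596972, 0, 0, 0, 0, 0, 0, ⟨0, 0⟩, 0⟩ 0 0)) (.pos 64 .pm ⟨0, 0, 4122196760, 0, 0, 0, 0, 0, 0, ⟨0, 0⟩, 0⟩ 0 0)) (.pos 5 .pm ⟨0, 0, 7675826186, 0, 0, 0, 0, 0, 0, ⟨0, 0⟩, 0⟩ 0 0)) (.pos 3 .pm ⟨0, 0, 8745883563, 0, 0, 0, 0, 0, 0, ⟨0, 0⟩, 0⟩ 0 0)) (.cut .v 4294967296 (.cut .v 268435456 (.cut .v 67108864 (.pos 40 .pp ⟨16770912023, 0, 0, 0, 0, 0, 0, 0, 0, ⟨0, 0⟩, 0⟩ 0 0) (.void 52 ⟨81862, 0, 0, 18138, 0, 0, 0, 0, 0, ⟨0, 0⟩, 0⟩ 0 0)) (.void 77 ⟨0, 0, 0, 100000, 0, 0, 0, 0, 0, ⟨0, 0⟩, 0⟩ 0 0)) (.void 112 ⟨0, 0, 0, 100000, 0, 0, 0, 0, 0, ⟨0, 0⟩, 0⟩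 0 0)))),
    by decide +kernel⟩

def covers37 : cell.Covers table row37.1 :=
  ⟨(.cut .d 0 (.cut .v 16777216 (.cut .d (-8388608) (.void 1 ⟨0, 0, 101426, 0, 0, 0, 0, 0, 0, ⟨0, 0⟩, 0⟩ 0 0) (.cut .v 8388608 (.void 2 ⟨0, 0, 100000, 0, 0, 0, 0, 0, 0, ⟨0, 0⟩, 0⟩ 0 0) (.cut .v 12582912 (.pos 6 .mm ⟨0, 0, 12734548845, 0, 0, 132433479945, 0, 0, 0, ⟨0, 0⟩, 0⟩ 0 0) (.pos 7 .mm ⟨52765906060, 0, 0, 0, 0, 115006253940, 0, 0, 0, ⟨0, 0⟩, 0⟩ 0 0)))) (.cut .v 4294967296 (.cut .v 268435456 (.cut .v 67108864 (.cut .d (-8388608) (.void 40 ⟨100000, 0, 0, 0, 0, 0, 0, 0, 0, ⟨0, 0⟩, 0⟩ 0 0) (.cut .d (-4194304) (.void 40 ⟨100000, 0, 0, 0, 0, 0, 0, 0, 0, ⟨0, 0⟩, 0⟩ 0 0) (.cut .v 33554432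 (.pos 16 .mp ⟨107930342821, 0, 0, 0, 0, 59841817179, 0, 0, 0, ⟨0, 0⟩, 0⟩ 0 0) (.void 41 ⟨100000, 0, 0, 0, 0, 0, 0, 0, 0, ⟨0, 0⟩, 0⟩ 0 0)))) (.void 52 ⟨100000, 0, 0, 0, 0, 0, 0, 0, 0, ⟨0, 0⟩, 0⟩ 0 0)) (.void 77 ⟨90062, 0, 0, 9938, 0, 0, 0, 0, 0, ⟨0, 0⟩, 0⟩ 0 0)) (.void 112 ⟨90062, 0, 0, 9938, 0, 0, 0, 0, 0, ⟨0, 0⟩, 0⟩ 0 0))) (.cut .v 16777216 (.cut .v 8388608 (.cut .v 4194304 (.cut .v 2097152 (.cut .v 1048576 (.cut .v 524288 (.cut .v 262144 (.cut .v 131072 (.cut .v 65536 (.cut .v 32768 (.pos 115 .pm ⟨0, 0, 78188731, 0, 0, 0, 0, 0, 0, ⟨0, 0⟩, 0⟩ 0 0) (.pos 116 .pm ⟨0, 0, 167744035, 0, 0, 0, 0, 0, 0, ⟨0, 0⟩, 0⟩ 0 0)) (.pos 114 .pm ⟨0, 0, 288893091, 0, 0, 0, 0, 0,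 0, ⟨0, 0⟩, 0⟩ 0 0)) (.pos 109 .pm ⟨0, 0, 501520083, 0, 0, 0, 0, 0, 0, ⟨0, 0⟩, 0⟩ 0 0)) (.pos 101 .pm ⟨0, 0, 862311381, 0, 0, 0, 0, 0, 0, ⟨0, 0⟩, 0⟩ 0 0)) (.pos 97 .pm ⟨0, 0, 1526443551, 0, 0, 0, 0, 0, 0, ⟨0, 0⟩, 0⟩ 0 0)) (.pos 93 .pm ⟨0, 0, 2868440932, 0, 0, 0, 0, 0, 0, ⟨0, 0⟩, 0⟩ 0 0)) (.pos 64 .pm ⟨0, 0, 5562469887, 0, 0, 0, 0, 0, 0, ⟨0, 0⟩, 0⟩ 0 0)) (.pos 5 .pm ⟨0, 0, 10675137526, 0, 0, 0, 0, 0, 0, ⟨0, 0⟩, 0⟩ 0 0)) (.pos 3 .pm ⟨0, 0, 12263606509, 0, 0, 0, 0, 0, 0, ⟨0, 0⟩, 0⟩ 0 0)) (.cut .v 4294967296 (.cut .v 268435456 (.cut .v 67108864 (.pos 40 .pp ⟨23434819888, 0, 0, 0, 0, 0, 0, 0, 0, ⟨0, 0⟩, 0⟩ 0 0) (.void 52 ⟨81862, 0, 0, 18138, 0, 0, 0, 0, 0, ⟨0, 0⟩, 0⟩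 0 0)) (.void 77 ⟨0, 0, 0, 100000, 0, 0, 0, 0, 0, ⟨0, 0⟩, 0⟩ 0 0)) (.void 112 ⟨0, 0, 0, 100000, 0, 0, 0, 0, 0, ⟨0, 0⟩, 0⟩ 0 0)))),
    by decide +kernel⟩

def covers38 : cell.Covers table row38.1 :=
  ⟨(.cut .d 0 (.cut .v 16777216 (.cut .d (-8388608) (.void 1 ⟨0, 0, 0, 0, 0, 100000, 0, 0, 0, ⟨0, 0⟩, 0⟩ 0 0) (.cut .v 8388608 (.void 2 ⟨0, 0, 100000, 0, 0, 0, 0, 0, 0, ⟨0, 0⟩, 0⟩ 0 0) (.cut .d (-4194304) (.void 3 ⟨100000, 0, 0, 0, 0, 0, 0, 0, 0, ⟨0, 0⟩, 0⟩ 0 0) (.cut .v 12582912 (.pos 6 .mm ⟨0, 0, 15585131651, 0, 0, 126154145809, 0, 0, 0, ⟨0, 0⟩, 0⟩ 0 0) (.pos 7 .mm ⟨28633359293, 0, 0, 0, 0, 139138800707, 0, 0, 0, ⟨0, 0⟩, 0⟩ 0 0))))) (.cut .v 4294967296 (.cut .v 268435456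 (.cut .v 67108864 (.cut .d (-8388608) (.void 40 ⟨100000, 0, 0, 0, 0, 0, 0, 0, 0, ⟨0, 0⟩, 0⟩ 0 0) (.cut .d (-4194304) (.void 40 ⟨100000, 0, 0, 0, 0, 0, 0, 0, 0, ⟨0, 0⟩, 0⟩ 0 0) (.cut .v 33554432 (.cut .d (-2097152) (.void 16 ⟨100000, 0, 0, 0, 0, 0, 0, 0, 0, ⟨0, 0⟩, 0⟩ 0 0) (.pos 16 .mp ⟨126301455653, 0, 0, 0, 0, 41470704347, 0, 0, 0, ⟨0, 0⟩, 0⟩ 0 0)) (.void 41 ⟨100000, 0, 0, 0, 0, 0, 0, 0, 0, ⟨0, 0⟩, 0⟩ 0 0)))) (.void 52 ⟨100000, 0, 0, 0, 0, 0, 0, 0, 0, ⟨0, 0⟩, 0⟩ 0 0)) (.void 77 ⟨90044, 0, 0, 9956, 0, 0, 0, 0, 0, ⟨0, 0⟩, 0⟩ 0 0)) (.void 112 ⟨90044, 0, 0, 9956, 0, 0, 0, 0, 0, ⟨0, 0⟩, 0⟩ 0 0))) (.cut .v 16777216 (.cut .v 8388608 (.cut .v 4194304 (.cut .v 2097152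 (.cut .v 1048576 (.cut .v 524288 (.cut .v 262144 (.cut .v 131072 (.cut .v 65536 (.cut .v 32768 (.cut .v 16384 (.pos 117 .pm ⟨0, 0, 67936667, 0, 0, 0, 0, 0, 0, ⟨0, 0⟩, 0⟩ 0 0) (.pos 118 .pm ⟨0, 0, 144430568, 0, 0, 0, 0, 0, 0, ⟨0, 0⟩, 0⟩ 0 0)) (.pos 116 .pm ⟨0, 0, 250870811, 0, 0, 0, 0, 0, 0, ⟨0, 0⟩, 0⟩ 0 0)) (.pos 114 .pm ⟨0, 0, 432221132, 0, 0, 0, 0, 0, 0, ⟨0, 0⟩, 0⟩ 0 0)) (.pos 109 .pm ⟨0, 0, 747289350, 0, 0, 0, 0, 0, 0, ⟨0, 0⟩, 0⟩ 0 0)) (.pos 101 .pm ⟨0, 0, 1282338657, 0, 0, 0, 0, 0, 0, ⟨0, 0⟩, 0⟩ 0 0)) (.pos 97 .pm ⟨0, 0, 2298769268, 0, 0, 0, 0, 0, 0, ⟨0, 0⟩, 0⟩ 0 0)) (.pos 93 .pm ⟨0, 0, 4226051073, 0, 0, 0, 0, 0, 0, ⟨0, 0⟩, 0⟩ 0 0)) (.pos 64 .pm ⟨0, 0, 7830815553,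 0, 0, 0, 0, 0, 0, ⟨0, 0⟩, 0⟩ 0 0)) (.pos 5 .pm ⟨0, 0, 14034749677, 0, 0, 0, 0, 0, 0, ⟨0, 0⟩, 0⟩ 0 0)) (.pos 3 .pm ⟨0, 0, 15009345217, 0, 0, 0, 0, 0, 0, ⟨0, 0⟩, 0⟩ 0 0)) (.cut .v 4294967296 (.cut .v 268435456 (.cut .v 67108864 (.pos 40 .pp ⟨30533742454, 0, 0, 0, 0, 0, 0, 0, 0, ⟨0, 0⟩, 0⟩ 0 0) (.void 52 ⟨81840, 0, 0, 18160, 0, 0, 0, 0, 0, ⟨0, 0⟩, 0⟩ 0 0)) (.void 77 ⟨0, 0, 0, 100000, 0, 0, 0, 0, 0, ⟨0, 0⟩, 0⟩ 0 0)) (.void 112 ⟨0, 0, 0, 100000, 0, 0, 0, 0, 0, ⟨0, 0⟩, 0⟩ 0 0)))),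
    by decide +kernel⟩

def covers39 : cell.Covers table row39.1 :=
  ⟨(.cut .d 0 (.cut .v 16777216 (.cut .d (-8388608) (.cut .d (-12582912) (.void 1 ⟨0, 0, 0, 0, 0, 100040, 0, 0, 0, ⟨0, 0⟩, 0⟩ 0 0) (.void 1 ⟨0, 0, 0, 0, 0, 100040, 0, 0, 0, ⟨0, 0⟩, 0⟩ 0 0)) (.cut .v 8388608 (.void 2 ⟨0, 0, 100000, 0, 0, 0, 0, 0, 0, ⟨0, 0⟩, 0⟩ 0 0) (.cut .d (-4194304) (.void 3 ⟨100000, 0, 0, 0, 0, 0, 0, 0, 0, ⟨0, 0⟩, 0⟩ 0 0) (.cut .v 12582912 (.pos 6 .mm ⟨27483319469, 0, 42922876133, 0, 0, 97365964398, 0, 0, 0, ⟨0, 0⟩, 0⟩ 0 0) (.pos 7 .mm ⟨111605989340, 0, 0, 0, 0, 56166170660, 0, 0, 0, ⟨0, 0⟩, 0⟩ 0 0))))) (.cut .v 4294967296 (.cut .v 268435456 (.cut .v 67108864 (.cut .d (-8388608)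 (.void 40 ⟨100000, 0, 0, 0, 0, 0, 0, 0, 0, ⟨0, 0⟩, 0⟩ 0 0) (.cut .d (-4194304) (.void 40 ⟨100000, 0, 0, 0, 0, 0, 0, 0, 0, ⟨0, 0⟩, 0⟩ 0 0) (.cut .v 33554432 (.cut .d (-2097152) (.void 16 ⟨100000, 0, 0, 0, 0, 0, 0, 0, 0, ⟨0, 0⟩, 0⟩ 0 0) (.cut .d (-1048576) (.void 16 ⟨100000, 0, 0, 0, 0, 0, 0, 0, 0, ⟨0, 0⟩, 0⟩ 0 0) (.pos 16 .mp ⟨150809826078, 0, 0, 0, 0, 16962333922, 0, 0, 0, ⟨0, 0⟩, 0⟩ 0 0))) (.void 41 ⟨100000, 0, 0, 0, 0, 0, 0, 0, 0, ⟨0, 0⟩, 0⟩ 0 0)))) (.void 52 ⟨100000, 0, 0, 0, 0, 0, 0, 0, 0, ⟨0, 0⟩, 0⟩ 0 0)) (.void 77 ⟨90035, 0, 0, 9965, 0, 0, 0, 0, 0, ⟨0, 0⟩, 0⟩ 0 0)) (.void 112 ⟨90035, 0, 0, 9965, 0, 0, 0, 0, 0, ⟨0, 0⟩, 0⟩ 0 0))) (.cut .v 16777216 (.cut .v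 8388608 (.cut .v 4194304 (.cut .v 2097152 (.cut .v 1048576 (.cut .v 524288 (.cut .v 262144 (.cut .v 131072 (.cut .v 65536 (.cut .v 32768 (.cut .v 16384 (.pos 117 .pm ⟨0, 0, 89195424, 0, 0, 0, 0, 0, 0, ⟨0, 0⟩, 0⟩ 0 0) (.pos 118 .pm ⟨0, 0, 201504575, 0, 0, 0, 0, 0, 0, ⟨0, 0⟩, 0⟩ 0 0)) (.pos 116 .pm ⟨0, 0, 356987138, 0, 0, 0, 0, 0, 0, ⟨0, 0⟩, 0⟩ 0 0)) (.pos 114 .pm ⟨0, 0, 634479034, 0, 0, 0, 0, 0, 0, ⟨0, 0⟩, 0⟩ 0 0)) (.pos 109 .pm ⟨0, 0, 1117336146, 0, 0, 0, 0, 0, 0, ⟨0, 0⟩, 0⟩ 0 0)) (.pos 101 .pm ⟨0, 0, 1947883520, 0, 0, 0, 0, 0, 0, ⟨0, 0⟩, 0⟩ 0 0)) (.pos 97 .pm ⟨0, 0, 3492245605, 0, 0, 0, 0, 0, 0, ⟨0, 0⟩, 0⟩ 0 0)) (.pos 93 .pm ⟨0, 0, 6527905926, 0, 0, 0, 0, 0, 0,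 ⟨0, 0⟩, 0⟩ 0 0)) (.pos 64 .pm ⟨0, 0, 12445863613, 0, 0, 0, 0, 0, 0, ⟨0, 0⟩, 0⟩ 0 0)) (.pos 5 .pm ⟨0, 0, 23202603791, 0, 0, 0, 0, 0, 0, ⟨0, 0⟩, 0⟩ 0 0)) (.pos 3 .pm ⟨0, 0, 24957495758, 0, 0, 0, 0, 0, 0, ⟨0, 0⟩, 0⟩ 0 0)) (.cut .v 4294967296 (.cut .v 268435456 (.cut .v 67108864 (.pos 40 .pp ⟨51122069567, 0, 0, 0, 0, 0, 0, 0, 0, ⟨0, 0⟩, 0⟩ 0 0) (.void 52 ⟨81840, 0, 0, 18160, 0, 0, 0, 0, 0, ⟨0, 0⟩, 0⟩ 0 0)) (.void 77 ⟨0, 0, 0, 100000, 0, 0, 0, 0, 0, ⟨0, 0⟩, 0⟩ 0 0)) (.void 112 ⟨0, 0, 0, 100000, 0, 0, 0, 0, 0, ⟨0, 0⟩, 0⟩ 0 0)))),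
    by decide +kernel⟩

def covers40 : cell.Covers table row40.1 :=
  ⟨(.cut .d 0 (.cut .v 16777216 (.cut .d (-8388608) (.void 1 ⟨0, 0, 0, 0, 0, 99978, 0, 0, 0, ⟨0, 0⟩, 0⟩ 0 0) (.cut .d (-4194304) (.void 1 ⟨0, 0, 0, 0, 0, 115135, 0, 0, 0, ⟨0, 0⟩, 0⟩ 0 0) (.cut .d (-2097152) (.void 1 ⟨0, 0, 0, 0, 0, 100000, 0, 0, 0, ⟨0, 0⟩, 0⟩ 0 0) (.cut .v 8388608 (.void 2 ⟨0, 0, 103141, 0, 0, 0, 0, 0, 0, ⟨0, 0⟩, 0⟩ 0 0) (.cut .v 12582912 (.pos 6 .mm ⟨46729451341, 0, 65172919606, 0, 0, 55869789053, 0, 0, 0, ⟨0, 0⟩, 0⟩ 0 0) (.pos 7 .mm ⟨125953082753, 0, 0, 0, 0, 41819077247, 0, 0, 0, ⟨0, 0⟩, 0⟩ 0 0)))))) (.cut .v 4294967296 (.cut .v 268435456 (.cut .v 67108864 (.cut .d (-8388608)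 (.void 40 ⟨100000, 0, 0, 0, 0, 0, 0, 0, 0, ⟨0, 0⟩, 0⟩ 0 0) (.cut .d (-4194304) (.void 40 ⟨100000, 0, 0, 0, 0, 0, 0, 0, 0, ⟨0, 0⟩, 0⟩ 0 0) (.cut .d (-2097152) (.void 40 ⟨100000, 0, 0, 0, 0, 0, 0, 0, 0, ⟨0, 0⟩, 0⟩ 0 0) (.cut .v 33554432 (.cut .d (-1048576) (.void 16 ⟨100000, 0, 0, 0, 0, 0, 0, 0, 0, ⟨0, 0⟩, 0⟩ 0 0) (.cut .v 25165824 (.cut .d (-524288) (.void 17 ⟨100000, 0, 0, 0, 0, 0, 0, 0, 0, ⟨0, 0⟩, 0⟩ 0 0) (.pos 17 .mp ⟨152510642094, 0, 0, 0, 0, 15261517906, 0, 0, 0, ⟨0, 0⟩, 0⟩ 0 0)) (.void 18 ⟨100000, 0, 0, 0, 0, 0, 0, 0, 0, ⟨0, 0⟩, 0⟩ 0 0))) (.void 41 ⟨100000, 0, 0, 0, 0, 0, 0, 0, 0, ⟨0, 0⟩, 0⟩ 0 0))))) (.void 52 ⟨100000, 0, 0, 0, 0, 0, 0, 0, 0, ⟨0, 0⟩, 0⟩ 0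 0)) (.void 77 ⟨90026, 0, 0, 9974, 0, 0, 0, 0, 0, ⟨0, 0⟩, 0⟩ 0 0)) (.void 112 ⟨90026, 0, 0, 9974, 0, 0, 0, 0, 0, ⟨0, 0⟩, 0⟩ 0 0))) (.cut .v 16777216 (.cut .v 8388608 (.cut .v 4194304 (.cut .v 2097152 (.cut .v 1048576 (.cut .v 524288 (.cut .v 262144 (.cut .v 131072 (.cut .v 65536 (.cut .v 32768 (.cut .v 16384 (.cut .v 8192 (.pos 119 .pm ⟨0, 0, 76416199, 0, 0, 0, 0, 0, 0, ⟨0, 0⟩, 0⟩ 0 0) (.pos 120 .pm ⟨0, 0, 166260247, 0, 0, 0, 0, 0, 0, ⟨0, 0⟩, 0⟩ 0 0)) (.pos 118 .pm ⟨0, 0, 294098246, 0, 0, 0, 0, 0, 0, ⟨0, 0⟩, 0⟩ 0 0)) (.pos 116 .pm ⟨0, 0, 528588391, 0, 0, 0, 0, 0, 0, ⟨0, 0⟩, 0⟩ 0 0)) (.pos 114 .pm ⟨0, 0, 940202686, 0, 0, 0, 0, 0, 0, ⟨0, 0⟩, 0⟩ 0 0)) (.pos 109 .pm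 ⟨0, 0, 1664354535, 0, 0, 0, 0, 0, 0, ⟨0, 0⟩, 0⟩ 0 0)) (.pos 101 .pm ⟨0, 0, 2907095552, 0, 0, 0, 0, 0, 0, ⟨0, 0⟩, 0⟩ 0 0)) (.pos 97 .pm ⟨0, 0, 5266438406, 0, 0, 0, 0, 0, 0, ⟨0, 0⟩, 0⟩ 0 0)) (.pos 93 .pm ⟨0, 0, 9774644818, 0, 0, 0, 0, 0, 0, ⟨0, 0⟩, 0⟩ 0 0)) (.pos 64 .pm ⟨0, 0, 18383629938, 0, 0, 0, 0, 0, 0, ⟨0, 0⟩, 0⟩ 0 0)) (.pos 5 .pm ⟨0, 0, 33550179583, 0, 0, 0, 0, 0, 0, ⟨0, 0⟩, 0⟩ 0 0)) (.pos 3 .pm ⟨0, 0, 34950603049, 0, 0, 0, 0, 0, 0, ⟨0, 0⟩, 0⟩ 0 0)) (.cut .v 4294967296 (.cut .v 268435456 (.cut .v 67108864 (.pos 40 .pp ⟨74542253903, 0, 0, 0, 0, 0, 0, 0, 0, ⟨0, 0⟩, 0⟩ 0 0) (.void 52 ⟨81833, 0, 0, 18167, 0, 0, 0, 0, 0, ⟨0, 0⟩, 0⟩ 0 0)) (.void 77 ⟨0, 0, 0, 100000,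 0, 0, 0, 0, 0, ⟨0, 0⟩, 0⟩ 0 0)) (.void 112 ⟨0, 0, 0, 100000, 0, 0, 0, 0, 0, ⟨0, 0⟩, 0⟩ 0 0)))),
    by decide +kernel⟩

def covers41 : cell.Covers table row41.1 :=
  ⟨(.cut .d 0 (.cut .v 16777216 (.cut .d (-8388608) (.void 1 ⟨0, 0, 0, 0, 0, 100000, 0, 0, 0, ⟨0, 0⟩, 0⟩ 0 0) (.cut .d (-4194304) (.void 1 ⟨0, 0, 0, 0, 0, 99941, 0, 0, 0, ⟨0, 0⟩, 0⟩ 0 0) (.cut .d (-2097152) (.void 1 ⟨0, 0, 0, 9153, 0, 90902, 0, 0, 0, ⟨0, 0⟩, 0⟩ 0 0) (.cut .d (-1048576) (.void 1 ⟨0, 0, 0, 0, 0, 33626, 0, 0, 0, ⟨0, 0⟩, 0⟩ 0 0) (.cut .v 8388608 (.cut .s 16736256 (.pos 2 .mm ⟨0, 0, 167772160000, 0, 0, 0, 0, 0, 0, ⟨0, 0⟩, 0⟩ 0 0) (.void 2 ⟨0, 0, 100000, 0, 0, 0, 0, 0, 0, ⟨0, 0⟩, 0⟩ 0 0))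 (.cut .d (-524288) (.void 3 ⟨100000, 0, 0, 0, 0, 0, 0, 0, 0, ⟨0, 0⟩, 0⟩ 0 0) (.cut .d (-262144) (.void 3 ⟨100000, 0, 0, 0, 0, 0, 0, 0, 0, ⟨0, 0⟩, 0⟩ 0 0) (.cut .d (-131072) (.void 3 ⟨100000, 0, 0, 0, 0, 0, 0, 0, 0, ⟨0, 0⟩, 0⟩ 0 0) (.cut .v 12582912 (.pos 6 .mm ⟨92363749096, 0, 75408410904, 0, 0, 0, 0, 0, 0, ⟨0, 0⟩, 0⟩ 0 0) (.pos 7 .mm ⟨167772160000, 0, 0, 0, 0, 0, 0, 0, 0, ⟨0, 0⟩, 0⟩ 0 0)))))))))) (.cut .v 4294967296 (.cut .v 268435456 (.cut .v 67108864 (.cut .d (-8388608) (.void 40 ⟨100000, 0, 0, 0, 0, 0, 0, 0, 0, ⟨0, 0⟩, 0⟩ 0 0) (.cut .d (-4194304) (.void 40 ⟨100000, 0, 0, 0, 0, 0, 0, 0, 0, ⟨0, 0⟩, 0⟩ 0 0) (.cut .d (-2097152) (.void 40 ⟨100000, 0, 0, 0, 0, 0,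 0, 0, 0, ⟨0, 0⟩, 0⟩ 0 0) (.cut .v 33554432 (.cut .d (-1048576) (.void 16 ⟨100000, 0, 0, 0, 0, 0, 0, 0, 0, ⟨0, 0⟩, 0⟩ 0 0) (.cut .d (-524288) (.void 16 ⟨100000, 0, 0, 0, 0, 0, 0, 0, 0, ⟨0, 0⟩, 0⟩ 0 0) (.cut .d (-262144) (.void 16 ⟨100000, 0, 0, 0, 0, 0, 0, 0, 0, ⟨0, 0⟩, 0⟩ 0 0) (.cut .d (-131072) (.void 16 ⟨100000, 0, 0, 0, 0, 0, 0, 0, 0, ⟨0, 0⟩, 0⟩ 0 0) (.cut .d (-65536) (.void 16 ⟨100000, 0, 0, 0, 0, 0, 0, 0, 0, ⟨0, 0⟩, 0⟩ 0 0) (.cut .d (-32768) (.void 16 ⟨100000, 0, 0, 0, 0, 0, 0, 0, 0, ⟨0, 0⟩, 0⟩ 0 0) (.cut .d (-16384) (.void 16 ⟨100000, 0, 0, 0, 0, 0, 0, 0, 0, ⟨0, 0⟩, 0⟩ 0 0) (.pos 16 .mp ⟨167772160000, 0, 0, 0, 0, 0, 0, 0, 0, ⟨0, 0⟩, 0⟩ 0 0)))))))) (.void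 41 ⟨100000, 0, 0, 0, 0, 0, 0, 0, 0, ⟨0, 0⟩, 0⟩ 0 0))))) (.void 52 ⟨100000, 0, 0, 0, 0, 0, 0, 0, 0, ⟨0, 0⟩, 0⟩ 0 0)) (.void 77 ⟨90018, 0, 0, 9982, 0, 0, 0, 0, 0, ⟨0, 0⟩, 0⟩ 0 0)) (.void 112 ⟨90018, 0, 0, 9982, 0, 0, 0, 0, 0, ⟨0, 0⟩, 0⟩ 0 0))) (.cut .v 16777216 (.cut .v 8388608 (.cut .v 4194304 (.cut .v 2097152 (.cut .v 1048576 (.cut .v 524288 (.cut .v 262144 (.cut .v 131072 (.cut .v 65536 (.cut .v 32768 (.cut .v 16384 (.cut .v 8192 (.cut .v 4096 (.pos 121 .pm ⟨0, 0, 74685581, 0, 0, 0, 0, 0, 0, ⟨0, 0⟩, 0⟩ 0 0) (.pos 122 .pm ⟨0, 0, 155992996, 0, 0, 0, 0, 0, 0, ⟨0, 0⟩, 0⟩ 0 0)) (.pos 120 .pm ⟨0, 0, 277354837, 0, 0, 0, 0, 0, 0, ⟨0, 0⟩, 0⟩ 0 0)) (.pos 118 .pm ⟨0, 0,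 497565768, 0, 0, 0, 0, 0, 0, ⟨0, 0⟩, 0⟩ 0 0)) (.pos 116 .pm ⟨0, 0, 891264582, 0, 0, 0, 0, 0, 0, ⟨0, 0⟩, 0⟩ 0 0)) (.pos 114 .pm ⟨0, 0, 1596005268, 0, 0, 0, 0, 0, 0, ⟨0, 0⟩, 0⟩ 0 0)) (.pos 109 .pm ⟨0, 0, 2828736344, 0, 0, 0, 0, 0, 0, ⟨0, 0⟩, 0⟩ 0 0)) (.pos 101 .pm ⟨0, 0, 4924789155, 0, 0, 0, 0, 0, 0, ⟨0, 0⟩, 0⟩ 0 0)) (.pos 97 .pm ⟨0, 0, 8961921973, 0, 0, 0, 0, 0, 0, ⟨0, 0⟩, 0⟩ 0 0)) (.pos 93 .pm ⟨0, 0, 16785824769, 0, 0, 0, 0, 0, 0, ⟨0, 0⟩, 0⟩ 0 0)) (.pos 64 .pm ⟨0, 0, 30731960321, 0, 0, 0, 0, 0, 0, ⟨0, 0⟩, 0⟩ 0 0)) (.pos 5 .pm ⟨0, 0, 53875368779, 0, 0, 0, 0, 0, 0, ⟨0, 0⟩, 0⟩ 0 0)) (.pos 3 .pm ⟨0, 0, 53929569672, 0, 0, 0, 0, 0, 0, ⟨0, 0⟩, 0⟩ 0 0)) (.cut .v 4294967296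 (.cut .v 268435456 (.cut .v 67108864 (.pos 40 .pp ⟨121860934211, 0, 0, 0, 0, 0, 0, 0, 0, ⟨0, 0⟩, 0⟩ 0 0) (.void 52 ⟨81825, 0, 0, 18175, 0, 0, 0, 0, 0, ⟨0, 0⟩, 0⟩ 0 0)) (.void 77 ⟨0, 0, 0, 100000, 0, 0, 0, 0, 0, ⟨0, 0⟩, 0⟩ 0 0)) (.void 112 ⟨0, 0, 0, 100000, 0, 0, 0, 0, 0, ⟨0, 0⟩, 0⟩ 0 0)))),
    by decide +kernel⟩

def covers42 : cell.Covers table row42.1 :=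
  ⟨(.cut .d 0 (.cut .v 16777216 (.cut .d (-8388608) (.cut .d (-12582912) (.void 1 ⟨0, 0, 0, 0, 0, 100000, 0, 0, 0, ⟨0, 0⟩, 0⟩ 0 0) (.void 1 ⟨0, 0, 0, 0, 0, 100000, 0, 0, 0, ⟨0, 0⟩, 0⟩ 0 0)) (.cut .d (-4194304) (.void 1 ⟨0, 0, 100000, 0, 0, 0, 0, 0, 0, ⟨0, 0⟩, 0⟩ 0 0) (.cut .d (-2097152) (.void 1 ⟨0, 0, 0, 0, 0, 100013, 0, 0, 0, ⟨0, 0⟩, 0⟩ 0 0) (.cut .v 8388608 (.cut .v 4194304 (.cut .v 2097152 (.pos 63 .mm ⟨0, 0, 167772160000, 0, 0, 0, 0, 0, 0, ⟨0, 0⟩, 0⟩ 0 0) (.void 64 ⟨0, 0, 99993, 0, 0, 0, 0, 0, 0, ⟨0, 0⟩, 0⟩ 0 0)) (.void 5 ⟨0, 0, 100000, 0, 0, 0, 0, 0, 0, ⟨0, 0⟩, 0⟩ 0 0)) (.cut .d (-1048576) (.void 3 ⟨100000, 0, 0, 0, 0, 0, 0, 0, 0, ⟨0, 0⟩, 0⟩ 0 0) (.cut .d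 (-524288) (.void 3 ⟨100000, 0, 0, 0, 0, 0, 0, 0, 0, ⟨0, 0⟩, 0⟩ 0 0) (.cut .d (-262144) (.void 3 ⟨100000, 0, 0, 0, 0, 0, 0, 0, 0, ⟨0, 0⟩, 0⟩ 0 0) (.cut .d (-131072) (.void 3 ⟨100000, 0, 0, 0, 0, 0, 0, 0, 0, ⟨0, 0⟩, 0⟩ 0 0) (.cut .d (-65536) (.void 3 ⟨100000, 0, 0, 0, 0, 0, 0, 0, 0, ⟨0, 0⟩, 0⟩ 0 0) (.cut .d (-32768) (.void 3 ⟨100000, 0, 0, 0, 0, 0, 0, 0, 0, ⟨0, 0⟩, 0⟩ 0 0) (.cut .d (-16384) (.void 3 ⟨66044, 0, 33956, 0, 0, 0, 0, 0, 0, ⟨0, 0⟩, 0⟩ 0 0) (.cut .d (-8192) (.void 3 ⟨0, 0, 0, 0, 0, 100000, 0, 0, 0, ⟨0, 0⟩, 0⟩ 0 0) (.pos 3 .mm ⟨84458534321, 0, 79306097974, 0, 0, 4007527705, 0, 0, 0, ⟨0, 0⟩, 0⟩ 0 0))))))))))))) (.cut .v 4294967296 (.cut .v 268435456 (.cut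 .v 67108864 (.cut .d (-8388608) (.void 40 ⟨100000, 0, 0, 0, 0, 0, 0, 0, 0, ⟨0, 0⟩, 0⟩ 0 0) (.cut .d (-4194304) (.void 40 ⟨100000, 0, 0, 0, 0, 0, 0, 0, 0, ⟨0, 0⟩, 0⟩ 0 0) (.cut .d (-2097152) (.void 40 ⟨100000, 0, 0, 0, 0, 0, 0, 0, 0, ⟨0, 0⟩, 0⟩ 0 0) (.cut .d (-1048576) (.void 40 ⟨100000, 0, 0, 0, 0, 0, 0, 0, 0, ⟨0, 0⟩, 0⟩ 0 0) (.cut .v 33554432 (.cut .d (-524288) (.void 16 ⟨100000, 0, 0, 0, 0, 0, 0, 0, 0, ⟨0, 0⟩, 0⟩ 0 0) (.cut .d (-262144) (.void 16 ⟨100000, 0, 0, 0, 0, 0, 0, 0, 0, ⟨0, 0⟩, 0⟩ 0 0) (.cut .d (-131072) (.void 16 ⟨100000, 0, 0, 0, 0, 0, 0, 0, 0, ⟨0, 0⟩, 0⟩ 0 0) (.cut .d (-65536) (.void 16 ⟨100000, 0, 0, 0, 0, 0, 0, 0, 0, ⟨0, 0⟩, 0⟩ 0 0) (.cut .d (-32768)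 (.void 16 ⟨100000, 0, 0, 0, 0, 0, 0, 0, 0, ⟨0, 0⟩, 0⟩ 0 0) (.cut .d (-16384) (.void 16 ⟨100000, 0, 0, 0, 0, 0, 0, 0, 0, ⟨0, 0⟩, 0⟩ 0 0) (.cut .d (-8192) (.void 16 ⟨100000, 0, 0, 0, 0, 0, 0, 0, 0, ⟨0, 0⟩, 0⟩ 0 0) (.pos 16 .mp ⟨167772160000, 0, 0, 0, 0, 0, 0, 0, 0, ⟨0, 0⟩, 0⟩ 0 0)))))))) (.void 41 ⟨100000, 0, 0, 0, 0, 0, 0, 0, 0, ⟨0, 0⟩, 0⟩ 0 0)))))) (.void 52 ⟨100000, 0, 0, 0, 0, 0, 0, 0, 0, ⟨0, 0⟩, 0⟩ 0 0)) (.void 77 ⟨90011, 0, 0, 9989, 0, 0, 0, 0, 0, ⟨0, 0⟩, 0⟩ 0 0)) (.void 112 ⟨90011, 0, 0, 9989, 0, 0, 0, 0, 0, ⟨0, 0⟩, 0⟩ 0 0))) (.cut .v 16777216 (.cut .v 8388608 (.cut .v 4194304 (.cut .v 2097152 (.cut .v 1048576 (.cut .v 524288 (.cut .v 262144 (.cut .v 131072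 (.cut .v 65536 (.cut .v 32768 (.cut .d 16417 (.void 115 ⟨0, 0, 100000, 0, 0, 0, 0, 0, 0, ⟨0, 0⟩, 0⟩ 0 0) (.cut .v 16384 (.cut .v 8192 (.cut .v 4096 (.pos 121 .pm ⟨0, 0, 93803775, 0, 0, 0, 0, 0, 0, ⟨0, 0⟩, 0⟩ 0 0) (.pos 122 .pm ⟨0, 0, 172263546, 0, 0, 0, 0, 0, 0, ⟨0, 0⟩, 0⟩ 0 0)) (.pos 120 .pm ⟨0, 0, 284841584, 0, 0, 0, 0, 0, 0, ⟨0, 0⟩, 0⟩ 0 0)) (.pos 118 .pm ⟨0, 0, 469611819, 0, 0, 0, 0, 0, 0, ⟨0, 0⟩, 0⟩ 0 0))) (.pos 116 .pm ⟨0, 0, 1703679140, 0, 0, 0, 0, 0, 0, ⟨0, 0⟩, 0⟩ 0 0)) (.pos 114 .pm ⟨0, 0, 3068974994, 0, 0, 0, 0, 0, 0, ⟨0, 0⟩, 0⟩ 0 0)) (.pos 109 .pm ⟨0, 0, 5447975187, 0, 0, 0, 0, 0, 0, ⟨0, 0⟩, 0⟩ 0 0)) (.pos 101 .pm ⟨0, 0, 9468490535, 0, 0, 0, 0, 0, 0,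 ⟨0, 0⟩, 0⟩ 0 0)) (.pos 97 .pm ⟨0, 0, 17235906337, 0, 0, 0, 0, 0, 0, ⟨0, 0⟩, 0⟩ 0 0)) (.pos 93 .pm ⟨0, 0, 32596044359, 0, 0, 0, 0, 0, 0, ⟨0, 0⟩, 0⟩ 0 0)) (.pos 64 .pm ⟨0, 0, 59311642110, 0, 0, 0, 0, 0, 0, ⟨0, 0⟩, 0⟩ 0 0)) (.pos 5 .pm ⟨0, 0, 101668227740, 0, 0, 0, 0, 0, 0, ⟨0, 0⟩, 0⟩ 0 0)) (.pos 3 .pm ⟨0, 0, 99291863929, 0, 0, 0, 0, 0, 0, ⟨0, 0⟩, 0⟩ 0 0)) (.cut .v 4294967296 (.cut .v 268435456 (.cut .v 67108864 (.pos 40 .pp ⟨167772160000, 0, 0, 0, 0, 0, 0, 0, 0, ⟨0, 0⟩, 0⟩ 0 0) (.void 52 ⟨81822, 0, 0, 18178, 0, 0, 0, 0, 0, ⟨0, 0⟩, 0⟩ 0 0)) (.void 77 ⟨0, 0, 0, 100000, 0, 0, 0, 0, 0, ⟨0, 0⟩, 0⟩ 0 0)) (.void 112 ⟨0, 0, 0, 100000, 0, 0, 0, 0, 0, ⟨0, 0⟩, 0⟩ 0 0)))),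
    by decide +kernel⟩

def covers43 : cell.Covers table row43.1 :=
  ⟨(.cut .d 0 (.cut .v 16777216 (.cut .d (-8388608) (.void 1 ⟨0, 0, 0, 0, 0, 100000, 0, 0, 0, ⟨0, 0⟩, 0⟩ 0 0) (.cut .d (-4194304) (.void 1 ⟨0, 0, 0, 0, 0, 99998, 0, 0, 0, ⟨0, 0⟩, 0⟩ 0 0) (.cut .d (-2097152) (.void 1 ⟨0, 0, 0, 0, 0, 100000, 0, 0, 0, ⟨0, 0⟩, 0⟩ 0 0) (.cut .d (-1048576) (.void 1 ⟨0, 0, 0, 1878, 0, 97957, 0, 0, 0, ⟨0, 0⟩, 0⟩ 0 0) (.cut .d (-524288) (.void 1 ⟨0, 0, 0, 0, 0, 99998, 0, 0, 0, ⟨0, 0⟩, 0⟩ 0 0) (.cut .d (-262144) (.void 1 ⟨0, 0, 0, 0, 0, 100000, 0, 0, 0, ⟨0, 0⟩, 0⟩ 0 0) (.cut .v 8388608 (.void 2 ⟨0, 0, 100000, 0, 0, 0, 0, 0, 0, ⟨0, 0⟩, 0⟩ 0 0) (.cut .d (-131072) (.void 3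 ⟨100000, 0, 0, 0, 0, 0, 0, 0, 0, ⟨0, 0⟩, 0⟩ 0 0) (.cut .d (-65536) (.void 3 ⟨100000, 0, 0, 0, 0, 0, 0, 0, 0, ⟨0, 0⟩, 0⟩ 0 0) (.cut .d (-32768) (.void 3 ⟨100000, 0, 0, 0, 0, 0, 0, 0, 0, ⟨0, 0⟩, 0⟩ 0 0) (.cut .d (-16384) (.void 3 ⟨100000, 0, 0, 0, 0, 0, 0, 0, 0, ⟨0, 0⟩, 0⟩ 0 0) (.cut .d (-8192) (.void 3 ⟨0, 0, 0, 0, 0, 100000, 0, 0, 0, ⟨0, 0⟩, 0⟩ 0 0) (.cut .d (-4096) (.void 3 ⟨0, 0, 0, 0, 0, 100000, 0, 0, 0, ⟨0, 0⟩, 0⟩ 0 0) (.pos 3 .mm ⟨0, 0, 132618774385, 0, 0, 35153385615, 0, 0, 0, ⟨0, 0⟩, 0⟩ 0 0)))))))))))))) (.cut .v 4294967296 (.cut .v 268435456 (.cut .v 67108864 (.cut .d (-8388608) (.void 40 ⟨100000, 0, 0, 0, 0, 0, 0, 0, 0, ⟨0, 0⟩, 0⟩ 0 0) (.cut .d (-4194304)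 (.void 40 ⟨100000, 0, 0, 0, 0, 0, 0, 0, 0, ⟨0, 0⟩, 0⟩ 0 0) (.cut .d (-2097152) (.void 40 ⟨100000, 0, 0, 0, 0, 0, 0, 0, 0, ⟨0, 0⟩, 0⟩ 0 0) (.cut .d (-1048576) (.void 40 ⟨100000, 0, 0, 0, 0, 0, 0, 0, 0, ⟨0, 0⟩, 0⟩ 0 0) (.cut .v 33554432 (.cut .d (-524288) (.void 16 ⟨100000, 0, 0, 0, 0, 0, 0, 0, 0, ⟨0, 0⟩, 0⟩ 0 0) (.cut .d (-262144) (.void 16 ⟨100000, 0, 0, 0, 0, 0, 0, 0, 0, ⟨0, 0⟩, 0⟩ 0 0) (.cut .d (-131072) (.void 16 ⟨100000, 0, 0, 0, 0, 0, 0, 0, 0, ⟨0, 0⟩, 0⟩ 0 0) (.cut .d (-65536) (.void 16 ⟨100000, 0, 0, 0, 0, 0, 0, 0, 0, ⟨0, 0⟩, 0⟩ 0 0) (.cut .d (-32768) (.void 16 ⟨100000, 0, 0, 0, 0, 0, 0, 0, 0, ⟨0, 0⟩, 0⟩ 0 0) (.cut .d (-16384) (.void 16 ⟨100000, 0, 0, 0,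 0, 0, 0, 0, 0, ⟨0, 0⟩, 0⟩ 0 0) (.cut .d (-8192) (.void 16 ⟨100000, 0, 0, 0, 0, 0, 0, 0, 0, ⟨0, 0⟩, 0⟩ 0 0) (.cut .d (-4096) (.void 16 ⟨100000, 0, 0, 0, 0, 0, 0, 0, 0, ⟨0, 0⟩, 0⟩ 0 0) (.pos 16 .mp ⟨167772160000, 0, 0, 0, 0, 0, 0, 0, 0, ⟨0, 0⟩, 0⟩ 0 0))))))))) (.void 41 ⟨100000, 0, 0, 0, 0, 0, 0, 0, 0, ⟨0, 0⟩, 0⟩ 0 0)))))) (.void 52 ⟨100000, 0, 0, 0, 0, 0, 0, 0, 0, ⟨0, 0⟩, 0⟩ 0 0)) (.void 77 ⟨90007, 0, 0, 9993, 0, 0, 0, 0, 0, ⟨0, 0⟩, 0⟩ 0 0)) (.void 112 ⟨90007, 0, 0, 9993, 0, 0, 0, 0, 0, ⟨0, 0⟩, 0⟩ 0 0))) (.cut .v 16777216 (.cut .v 8388608 (.cut .v 4194304 (.cut .v 2097152 (.cut .v 1048576 (.cut .v 524288 (.cut .v 262144 (.cut .v 131072 (.cut .v 65536 (.cut .d 10254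 (.void 113 ⟨0, 0, 100000, 0, 0, 0, 0, 0, 0, ⟨0, 0⟩, 0⟩ 0 0) (.cut .v 32768 (.cut .v 16384 (.cut .v 8192 (.cut .v 4096 (.cut .v 2048 (.cut .v 1024 (.pos 125 .pm ⟨0, 0, 64945112, 0, 0, 0, 0, 0, 0, ⟨0, 0⟩, 0⟩ 0 0) (.pos 126 .pm ⟨0, 0, 131997338, 0, 0, 0, 0, 0, 0, ⟨0, 0⟩, 0⟩ 0 0)) (.pos 124 .pm ⟨0, 0, 190138988, 0, 0, 0, 0, 0, 0, ⟨0, 0⟩, 0⟩ 0 0)) (.pos 122 .pm ⟨0, 0, 323394415, 0, 0, 0, 0, 0, 0, ⟨0, 0⟩, 0⟩ 0 0)) (.pos 120 .pm ⟨0, 0, 549863260, 0, 0, 0, 0, 0, 0, ⟨0, 0⟩, 0⟩ 0 0)) (.pos 118 .pm ⟨0, 0, 925982461, 0, 0, 0, 0, 0, 0, ⟨0, 0⟩, 0⟩ 0 0)) (.pos 116 .pm ⟨0, 0, 1720226761, 0, 0, 0, 0, 0, 0, ⟨0, 0⟩, 0⟩ 0 0))) (.pos 114 .pm ⟨0, 0, 6384206589, 0, 0, 0, 0, 0, 0, ⟨0,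 0⟩, 0⟩ 0 0)) (.pos 109 .pm ⟨0, 0, 11340685504, 0, 0, 0, 0, 0, 0, ⟨0, 0⟩, 0⟩ 0 0)) (.pos 101 .pm ⟨0, 0, 19681915994, 0, 0, 0, 0, 0, 0, ⟨0, 0⟩, 0⟩ 0 0)) (.pos 97 .pm ⟨0, 0, 35858030195, 0, 0, 0, 0, 0, 0, ⟨0, 0⟩, 0⟩ 0 0)) (.pos 93 .pm ⟨0, 0, 67740605683, 0, 0, 0, 0, 0, 0, ⟨0, 0⟩, 0⟩ 0 0)) (.pos 64 .pm ⟨0, 0, 124191800618, 0, 0, 0, 0, 0, 0, ⟨0, 0⟩, 0⟩ 0 0)) (.pos 5 .pm ⟨0, 0, 167772160000, 0, 0, 0, 0, 0, 0, ⟨0, 0⟩, 0⟩ 0 0)) (.pos 3 .pm ⟨0, 0, 167772160000, 0, 0, 0, 0, 0, 0, ⟨0, 0⟩, 0⟩ 0 0)) (.cut .v 4294967296 (.cut .v 268435456 (.cut .v 67108864 (.cut .d 10254 (.cut .d 5127 (.cut .d 2563 (.cut .d 1281 (.cut .v 33554432 (.pos 16 .pp ⟨0, 0, 0, 0, 0, 0, 0, 0, 0, ⟨0,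 0⟩, 0⟩ 0 0) (.void 41 ⟨100000, 0, 0, 0, 0, 0, 0, 0, 0, ⟨0, 0⟩, 0⟩ 0 0)) (.pos 40 .pp ⟨167772160000, 0, 0, 0, 0, 0, 0, 0, 0, ⟨0, 0⟩, 0⟩ 0 0)) (.pos 40 .pp ⟨167772160000, 0, 0, 0, 0, 0, 0, 0, 0, ⟨0, 0⟩, 0⟩ 0 0)) (.pos 40 .pp ⟨0, 0, 0, 0, 0, 0, 0, 0, 0, ⟨0, 0⟩, 0⟩ 0 0)) (.pos 40 .pp ⟨0, 0, 0, 0, 0, 0, 0, 0, 0, ⟨0, 0⟩, 0⟩ 0 0)) (.void 52 ⟨81820, 0, 0, 18180, 0, 0, 0, 0, 0, ⟨0, 0⟩, 0⟩ 0 0)) (.void 77 ⟨0, 0, 0, 100000, 0, 0, 0, 0, 0, ⟨0, 0⟩, 0⟩ 0 0)) (.void 112 ⟨0, 0, 0, 100000, 0, 0, 0, 0, 0, ⟨0, 0⟩, 0⟩ 0 0)))),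
    by decide +kernel⟩

def covers44 : cell.Covers table row44.1 :=
  ⟨(.cut .d 0 (.cut .v 16777216 (.cut .d (-8388608) (.void 1 ⟨0, 0, 0, 0, 0, 100198, 0, 0, 0, ⟨0, 0⟩, 0⟩ 0 0) (.cut .d (-4194304) (.void 1 ⟨0, 0, 0, 0, 0, 100000, 0, 0, 0, ⟨0, 0⟩, 0⟩ 0 0) (.cut .d (-2097152) (.void 1 ⟨0, 0, 0, 0, 0, 100000, 0, 0, 0, ⟨0, 0⟩, 0⟩ 0 0) (.cut .d (-1048576) (.void 1 ⟨0, 0, 0, 0, 0, 100000, 0, 0, 0, ⟨0, 0⟩, 0⟩ 0 0) (.cut .d (-524288) (.void 1 ⟨0, 0, 0, 0, 0, 100000, 0, 0, 0, ⟨0, 0⟩, 0⟩ 0 0) (.cut .d (-262144) (.void 1 ⟨0, 0, 0, 0, 0, 100000, 0, 0, 0, ⟨0, 0⟩, 0⟩ 0 0) (.cut .d (-131072) (.void 1 ⟨0, 0, 0, 0, 0, 100000, 0, 0, 0, ⟨0, 0⟩, 0⟩ 0 0) (.cut .v 8388608 (.void 2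 ⟨0, 0, 100000, 0, 0, 0, 0, 0, 0, ⟨0, 0⟩, 0⟩ 0 0) (.cut .d (-65536) (.void 3 ⟨100000, 0, 0, 0, 0, 0, 0, 0, 0, ⟨0, 0⟩, 0⟩ 0 0) (.cut .d (-32768) (.void 3 ⟨100000, 0, 0, 0, 0, 0, 0, 0, 0, ⟨0, 0⟩, 0⟩ 0 0) (.cut .d (-16384) (.void 3 ⟨100000, 0, 0, 0, 0, 0, 0, 0, 0, ⟨0, 0⟩, 0⟩ 0 0) (.cut .d (-8192) (.void 3 ⟨100000, 0, 0, 0, 0, 0, 0, 0, 0, ⟨0, 0⟩, 0⟩ 0 0) (.cut .d (-4096) (.void 3 ⟨0, 0, 0, 0, 0, 100000, 0, 0, 0, ⟨0, 0⟩, 0⟩ 0 0) (.pos 3 .mm ⟨0, 0, 132835066299, 0, 0, 34937093701, 0, 0, 0, ⟨0, 0⟩, 0⟩ 0 0)))))))))))))) (.cut .v 4294967296 (.cut .v 268435456 (.cut .v 67108864 (.cut .d (-8388608) (.void 40 ⟨100000, 0, 0, 0, 0, 0, 0, 0, 0, ⟨0, 0⟩, 0⟩ 0 0) (.cut .d (-4194304)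 (.void 40 ⟨100000, 0, 0, 0, 0, 0, 0, 0, 0, ⟨0, 0⟩, 0⟩ 0 0) (.cut .d (-2097152) (.void 40 ⟨100000, 0, 0, 0, 0, 0, 0, 0, 0, ⟨0, 0⟩, 0⟩ 0 0) (.cut .d (-1048576) (.void 40 ⟨100000, 0, 0, 0, 0, 0, 0, 0, 0, ⟨0, 0⟩, 0⟩ 0 0) (.cut .d (-524288) (.void 40 ⟨100000, 0, 0, 0, 0, 0, 0, 0, 0, ⟨0, 0⟩, 0⟩ 0 0) (.cut .d (-262144) (.void 40 ⟨100000, 0, 0, 0, 0, 0, 0, 0, 0, ⟨0, 0⟩, 0⟩ 0 0) (.cut .v 33554432 (.cut .d (-131072) (.void 16 ⟨100000, 0, 0, 0, 0, 0, 0, 0, 0, ⟨0, 0⟩, 0⟩ 0 0) (.cut .d (-65536) (.void 16 ⟨100000, 0, 0, 0, 0, 0, 0, 0, 0, ⟨0, 0⟩, 0⟩ 0 0) (.cut .d (-32768) (.void 16 ⟨100000, 0, 0, 0, 0, 0, 0, 0, 0, ⟨0, 0⟩, 0⟩ 0 0) (.cut .d (-16384) (.void 16 ⟨100000, 0, 0, 0,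 0, 0, 0, 0, 0, ⟨0, 0⟩, 0⟩ 0 0) (.cut .d (-8192) (.void 16 ⟨100000, 0, 0, 0, 0, 0, 0, 0, 0, ⟨0, 0⟩, 0⟩ 0 0) (.cut .d (-4096) (.void 16 ⟨100000, 0, 0, 0, 0, 0, 0, 0, 0, ⟨0, 0⟩, 0⟩ 0 0) (.pos 16 .mp ⟨167772160000, 0, 0, 0, 0, 0, 0, 0, 0, ⟨0, 0⟩, 0⟩ 0 0))))))) (.void 41 ⟨100000, 0, 0, 0, 0, 0, 0, 0, 0, ⟨0, 0⟩, 0⟩ 0 0)))))))) (.void 52 ⟨78754, 0, 0, 173, 0, 0, 0, 0, 0, ⟨0, 0⟩, 0⟩ 0 0)) (.void 77 ⟨90004, 0, 0, 9996, 0, 0, 0, 0, 0, ⟨0, 0⟩, 0⟩ 0 0)) (.void 112 ⟨90004, 0, 0, 9996, 0, 0, 0, 0, 0, ⟨0, 0⟩, 0⟩ 0 0))) (.cut .v 16777216 (.cut .v 8388608 (.cut .v 4194304 (.cut .v 2097152 (.cut .v 1048576 (.cut .v 524288 (.cut .v 262144 (.cut .v 131072 (.cut .v 65536 (.cut .v 32768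 (.cut .v 16384 (.cut .v 8192 (.cut .v 4096 (.cut .v 2048 (.cut .v 1024 (.pos 125 .pm ⟨0, 0, 88570658, 0, 0, 0, 0, 0, 0, ⟨0, 0⟩, 0⟩ 0 0) (.pos 126 .pm ⟨0, 0, 210608053, 0, 0, 0, 0, 0, 0, ⟨0, 0⟩, 0⟩ 0 0)) (.pos 124 .pm ⟨0, 0, 382795723, 0, 0, 0, 0, 0, 0, ⟨0, 0⟩, 0⟩ 0 0)) (.pos 122 .pm ⟨0, 0, 709277684, 0, 0, 0, 0, 0, 0, ⟨0, 0⟩, 0⟩ 0 0)) (.pos 120 .pm ⟨0, 0, 1322955206, 0, 0, 0, 0, 0, 0, ⟨0, 0⟩, 0⟩ 0 0)) (.pos 118 .pm ⟨0, 0, 2464403517, 0, 0, 0, 0, 0, 0, ⟨0, 0⟩, 0⟩ 0 0)) (.pos 116 .pm ⟨0, 0, 4560735860, 0, 0, 0, 0, 0, 0, ⟨0, 0⟩, 0⟩ 0 0)) (.pos 114 .pm ⟨0, 0, 8352932021, 0, 0, 0, 0, 0, 0, ⟨0, 0⟩, 0⟩ 0 0)) (.pos 109 .pm ⟨0, 0, 15094793097, 0, 0, 0, 0, 0, 0, ⟨0, 0⟩,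 0⟩ 0 0)) (.pos 101 .pm ⟨0, 0, 26869031513, 0, 0, 0, 0, 0, 0, ⟨0, 0⟩, 0⟩ 0 0)) (.pos 97 .pm ⟨0, 0, 50309242783, 0, 0, 0, 0, 0, 0, ⟨0, 0⟩, 0⟩ 0 0)) (.pos 93 .pm ⟨0, 0, 98220229758, 0, 0, 0, 0, 0, 0, ⟨0, 0⟩, 0⟩ 0 0)) (.pos 64 .pm ⟨0, 0, 167772160000, 0, 0, 0, 0, 0, 0, ⟨0, 0⟩, 0⟩ 0 0)) (.pos 5 .pm ⟨0, 0, 167772160000, 0, 0, 0, 0, 0, 0, ⟨0, 0⟩, 0⟩ 0 0)) (.pos 3 .pm ⟨0, 0, 167772160000, 0, 0, 0, 0, 0, 0, ⟨0, 0⟩, 0⟩ 0 0)) (.cut .v 4294967296 (.cut .v 268435456 (.cut .v 67108864 (.cut .s 16766976 (.cut .s 16765952 (.cut .s 16765440 (.cut .s 16765184 (.cut .s 16765056 (.cut .d 6150 (.cut .d 3075 (.cut .d 1537 (.cut .v 33554432 (.pos 16 .pp ⟨0, 0, 0, 0, 0, 0, 0, 0, 0, ⟨0,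 0⟩, 0⟩ 0 0) (.void 41 ⟨100000, 0, 0, 0, 0, 0, 0, 0, 0, ⟨0, 0⟩, 0⟩ 0 0)) (.pos 40 .pp ⟨167772160000, 0, 0, 0, 0, 0, 0, 0, 0, ⟨0, 0⟩, 0⟩ 0 0)) (.pos 40 .pp ⟨0, 0, 0, 0, 0, 0, 0, 0, 0, ⟨0, 0⟩, 0⟩ 0 0)) (.pos 40 .pp ⟨0, 0, 0, 0, 0, 0, 0, 0, 0, ⟨0, 0⟩, 0⟩ 0 0)) (.pos 40 .pp ⟨167772160000, 0, 0, 0, 0, 0, 0, 0, 0, ⟨0, 0⟩, 0⟩ 0 0)) (.pos 40 .pp ⟨167772160000, 0, 0, 0, 0, 0, 0, 0, 0, ⟨0, 0⟩, 0⟩ 0 0)) (.pos 40 .pp ⟨167772160000, 0, 0, 0, 0, 0, 0, 0, 0, ⟨0, 0⟩, 0⟩ 0 0)) (.pos 40 .pp ⟨0, 0, 0, 0, 0, 0, 0, 0, 0, ⟨0, 0⟩, 0⟩ 0 0)) (.pos 40 .pp ⟨0, 0, 0, 0, 0, 0, 0, 0, 0, ⟨0, 0⟩, 0⟩ 0 0)) (.void 52 ⟨81820, 0, 0, 18180, 0, 0, 0, 0, 0, ⟨0, 0⟩, 0⟩ 0 0)) (.void 77 ⟨0, 0, 0, 100000,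 0, 0, 0, 0, 0, ⟨0, 0⟩, 0⟩ 0 0)) (.void 112 ⟨0, 0, 0, 100000, 0, 0, 0, 0, 0, ⟨0, 0⟩, 0⟩ 0 0)))),
    by decide +kernel⟩

def covers45 : cell.Covers table row45.1 :=
  ⟨(.cut .d 0 (.cut .v 16777216 (.cut .d (-8388608) (.void 1 ⟨0, 0, 0, 0, 0, 100000, 0, 0, 0, ⟨0, 0⟩, 0⟩ 0 0) (.cut .d (-4194304) (.void 1 ⟨0, 0, 0, 0, 0, 100000, 0, 0, 0, ⟨0, 0⟩, 0⟩ 0 0) (.cut .d (-2097152) (.void 1 ⟨0, 0, 0, 0, 0, 100000, 0, 0, 0, ⟨0, 0⟩, 0⟩ 0 0) (.cut .d (-1048576) (.void 1 ⟨0, 0, 0, 0, 0, 100000, 0, 0, 0, ⟨0, 0⟩, 0⟩ 0 0) (.cut .d (-524288) (.void 1 ⟨0, 0, 0, 0, 0, 100000, 0, 0, 0, ⟨0, 0⟩, 0⟩ 0 0) (.cut .d (-262144) (.void 1 ⟨0, 0, 0, 0, 0, 100000, 0, 0, 0, ⟨0, 0⟩, 0⟩ 0 0) (.cut .d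 (-131072) (.void 1 ⟨0, 0, 0, 0, 0, 100000, 0, 0, 0, ⟨0, 0⟩, 0⟩ 0 0) (.cut .d (-65536) (.void 1 ⟨0, 0, 11755, 3686, 0, 86519, 0, 0, 0, ⟨0, 0⟩, 0⟩ 0 0) (.cut .d (-32768) (.void 1 ⟨0, 0, 0, 0, 0, 100000, 0, 0, 0, ⟨0, 0⟩, 0⟩ 0 0) (.cut .d (-16384) (.cut .d (-24576) (.void 1 ⟨0, 0, 0, 0, 0, 100000, 0, 0, 0, ⟨0, 0⟩, 0⟩ 0 0) (.void 1 ⟨0, 0, 0, 0, 0, 100000, 0, 0, 0, ⟨0, 0⟩, 0⟩ 0 0)) (.cut .d (-8192) (.void 1 ⟨0, 0, 0, 0, 0, 100000, 0, 0, 0, ⟨0, 0⟩, 0⟩ 0 0) (.cut .d (-4096) (.void 1 ⟨0, 0, 0, 0, 0, 113044, 0, 0, 0, ⟨0, 0⟩, 0⟩ 0 0) (.cut .v 8388608 (.void 2 ⟨0, 0, 100000, 0, 0, 0, 0, 0, 0, ⟨0, 0⟩, 0⟩ 0 0) (.pos 3 .mm ⟨167772160000, 0, 0, 0, 0, 0, 0, 0, 0, ⟨0, 0⟩, 0⟩ 0 0))))))))))))))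 (.cut .v 4294967296 (.cut .v 268435456 (.cut .v 67108864 (.cut .d (-8388608) (.void 40 ⟨100000, 0, 0, 0, 0, 0, 0, 0, 0, ⟨0, 0⟩, 0⟩ 0 0) (.cut .d (-4194304) (.void 40 ⟨100000, 0, 0, 0, 0, 0, 0, 0, 0, ⟨0, 0⟩, 0⟩ 0 0) (.cut .d (-2097152) (.void 40 ⟨100000, 0, 0, 0, 0, 0, 0, 0, 0, ⟨0, 0⟩, 0⟩ 0 0) (.cut .d (-1048576) (.void 40 ⟨100000, 0, 0, 0, 0, 0, 0, 0, 0, ⟨0, 0⟩, 0⟩ 0 0) (.cut .d (-524288) (.void 40 ⟨100000, 0, 0, 0, 0, 0, 0, 0, 0, ⟨0, 0⟩, 0⟩ 0 0) (.cut .d (-262144) (.void 40 ⟨100000, 0, 0, 0, 0, 0, 0, 0, 0, ⟨0, 0⟩, 0⟩ 0 0) (.cut .d (-131072) (.void 40 ⟨100000, 0, 0, 0, 0, 0, 0, 0, 0, ⟨0, 0⟩, 0⟩ 0 0) (.cut .v 33554432 (.cut .d (-65536) (.void 16 ⟨100000, 0, 0, 0,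 0, 0, 0, 0, 0, ⟨0, 0⟩, 0⟩ 0 0) (.cut .d (-32768) (.void 16 ⟨100000, 0, 0, 0, 0, 0, 0, 0, 0, ⟨0, 0⟩, 0⟩ 0 0) (.cut .d (-16384) (.void 16 ⟨100000, 0, 0, 0, 0, 0, 0, 0, 0, ⟨0, 0⟩, 0⟩ 0 0) (.cut .d (-8192) (.void 16 ⟨100000, 0, 0, 0, 0, 0, 0, 0, 0, ⟨0, 0⟩, 0⟩ 0 0) (.cut .d (-4096) (.void 16 ⟨100000, 0, 0, 0, 0, 0, 0, 0, 0, ⟨0, 0⟩, 0⟩ 0 0) (.cut .d (-2048) (.void 16 ⟨100000, 0, 0, 0, 0, 0, 0, 0, 0, ⟨0, 0⟩, 0⟩ 0 0) (.pos 16 .mp ⟨167772160000, 0, 0, 0, 0, 0, 0, 0, 0, ⟨0, 0⟩, 0⟩ 0 0))))))) (.void 41 ⟨100000, 0, 0, 0, 0, 0, 0, 0, 0, ⟨0, 0⟩, 0⟩ 0 0))))))))) (.void 52 ⟨100000, 0, 0, 0, 0, 0, 0, 0, 0, ⟨0, 0⟩, 0⟩ 0 0)) (.void 77 ⟨90002, 0, 0, 9998, 0, 0, 0, 0, 0, ⟨0, 0⟩, 0⟩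 0 0)) (.void 112 ⟨90002, 0, 0, 9998, 0, 0, 0, 0, 0, ⟨0, 0⟩, 0⟩ 0 0))) (.cut .v 16777216 (.cut .v 8388608 (.cut .v 4194304 (.cut .v 2097152 (.cut .v 1048576 (.cut .v 524288 (.cut .v 262144 (.cut .v 131072 (.cut .v 65536 (.cut .v 32768 (.cut .v 16384 (.cut .v 8192 (.cut .v 4096 (.cut .d 4099 (.pos 121 .pm ⟨0, 0, 875642899, 0, 0, 0, 0, 0, 0, ⟨0, 0⟩, 0⟩ 0 0) (.cut .v 2048 (.pos 123 .pm ⟨0, 0, 62488426, 0, 0, 0, 0, 0, 0, ⟨0, 0⟩, 0⟩ 0 0) (.pos 124 .pm ⟨0, 0, 411611505, 0, 0, 0, 0, 0, 0, ⟨0, 0⟩, 0⟩ 0 0))) (.pos 122 .pm ⟨0, 0, 1551433155, 0, 0, 0, 0, 0, 0, ⟨0, 0⟩, 0⟩ 0 0)) (.pos 120 .pm ⟨0, 0, 2776452310, 0, 0, 0, 0, 0, 0, ⟨0, 0⟩, 0⟩ 0 0)) (.pos 118 .pm ⟨0, 0, 5219157400,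 0, 0, 0, 0, 0, 0, ⟨0, 0⟩, 0⟩ 0 0)) (.pos 116 .pm ⟨0, 0, 10169031122, 0, 0, 0, 0, 0, 0, ⟨0, 0⟩, 0⟩ 0 0)) (.pos 114 .pm ⟨0, 0, 19783963867, 0, 0, 0, 0, 0, 0, ⟨0, 0⟩, 0⟩ 0 0)) (.pos 109 .pm ⟨0, 0, 38361841446, 0, 0, 0, 0, 0, 0, ⟨0, 0⟩, 0⟩ 0 0)) (.pos 101 .pm ⟨0, 0, 73991563510, 0, 0, 0, 0, 0, 0, ⟨0, 0⟩, 0⟩ 0 0)) (.pos 97 .pm ⟨0, 0, 141565713052, 0, 0, 0, 0, 0, 0, ⟨0, 0⟩, 0⟩ 0 0)) (.pos 93 .pm ⟨0, 0, 167772160000, 0, 0, 0, 0, 0, 0, ⟨0, 0⟩, 0⟩ 0 0)) (.pos 64 .pm ⟨0, 0, 167772160000, 0, 0, 0, 0, 0, 0, ⟨0, 0⟩, 0⟩ 0 0)) (.pos 5 .pm ⟨0, 0, 167772160000, 0, 0, 0, 0, 0, 0, ⟨0, 0⟩, 0⟩ 0 0)) (.pos 3 .pm ⟨0, 0, 167772160000, 0, 0, 0, 0, 0, 0, ⟨0, 0⟩, 0⟩ 0 0)) (.cut .v 4294967296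 (.cut .v 268435456 (.cut .v 67108864 (.pos 40 .pp ⟨0, 0, 0, 0, 0, 0, 0, 0, 0, ⟨0, 0⟩, 0⟩ 0 0) (.void 52 ⟨81818, 0, 0, 18182, 0, 0, 0, 0, 0, ⟨0, 0⟩, 0⟩ 0 0)) (.void 77 ⟨81818, 0, 0, 18182, 0, 0, 0, 0, 0, ⟨0, 0⟩, 0⟩ 0 0)) (.void 112 ⟨81818, 0, 0, 18182, 0, 0, 0, 0, 0, ⟨0, 0⟩, 0⟩ 0 0)))),
    by decide +kernel⟩

end Vale.Agent.P237.Petty.Cor.Grid.N8.Low
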